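import Mathlib

set_option autoImplicit false

/-!
# P181, T7: families of type multisets with prescribed totals ([TYP])

`N` free letters, rows `i < R`; the letter `q` has top degree `s q`, the row `i` has `t i` free
marks.  The family is indexed by sets of nonzero digit vectors.  Base matrix
`B q i = t i / N + [q < t i % N]` in the rows `i ≥ 1`; the perturbations are even, hence the parity
gives back the `0/1` correction.
-/

namespace Vale.Agent.P181.H310

open Finset

/-- nonzero digit vectors -/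
abbrev Dig (r h : ℕ) := {x : Fin r → Fin (h + 1) // x ≠ 0}

/-- index set of the family -/
abbrev TypIx (r h K P : ℕ) := Fin K → {S : Finset (Dig r h) // S.card = P}

lemma card_dig (r h : ℕ) : Fintype.card (Dig r h) = (h + 1) ^ r - 1 := by
  classical
  have := Fintype.card_subtype_compl (fun x : Fin r → Fin (h + 1) => x = 0)
  rw [Fintype.card_subtype_eq] at this
  simp

theorem card_typIx (r h K P : ℕ) :
    Fintype.card (TypIx r h K P) = (((h + 1) ^ r - 1).choose P) ^ K := by
  classical
  rw [Fintype.card_fun, Fintype.card_fin, Fintype.card_finset_len, card_dig]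

/-- `(v / P) ^ P ≤ choose v P` -/
lemma div_pow_le_choose {v P : ℕ} (hP : P ≤ v) : ((v : ℝ) / P) ^ P ≤ (v.choose P : ℝ) := by
  induction P generalizing v with
  | zero => simp
  | succ P ih =>
    obtain ⟨w, rfl⟩ : ∃ w, v = w + 1 := ⟨v - 1, by omega⟩
    have hPw : P ≤ w := by omega
    have h1 := ih hPw
    have h2 : ((w + 1 : ℕ) : ℝ) * (w.choose P : ℝ) = ((w + 1).choose (P + 1) : ℝ) * (P + 1 : ℕ) := by
      exact_mod_cast Nat.add_one_mul_choose_eq w P
    have hP0 : (0 : ℝ) < (P + 1 : ℕ) := by positivity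
    have h3 : (((w + 1 : ℕ) : ℝ) / (P + 1 : ℕ)) ^ P ≤ ((w : ℝ) / P) ^ P := by
      rcases Nat.eq_zero_or_pos P with h0 | h0
      · subst h0; simp
      · refine pow_le_pow_left₀ (by positivity) ?_ _
        have hP' : (0 : ℝ) < P := by exact_mod_cast h0
        rw [div_le_div_iff₀ hP0 hP']
        push_cast
        have : (P : ℝ) ≤ w := by exact_mod_cast hPw
        nlinarith
    have h4 : ((w + 1).choose (P + 1) : ℝ) = ((w + 1 : ℕ) : ℝ) / (P + 1 : ℕ) * (w.choose P : ℝ) := by
      field_simp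
      linarith
    rw [h4, pow_succ, mul_comm]
    exact mul_le_mul_of_nonneg_left (h3.trans h1) (by positivity)

/-- number of members of the family -/
theorem card_typIx_ge (r h K P : ℕ) (hP : P ≤ (h + 1) ^ r - 1) :
    ((((h + 1) ^ r - 1 : ℕ) : ℝ) / P) ^ (K * P) ≤ (Fintype.card (TypIx r h K P) : ℝ) := by
  rw [card_typIx, mul_comm, pow_mul]
  push_cast
  refine pow_le_pow_left₀ (by positivity) ?_ _
  have := div_pow_le_choose hP
  simpa using this

section

variable {N R r h K P : ℕ}

/-- an enumeration of the chosen vectors -/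
noncomputable def tenum (u : TypIx r h K P) (k : Fin K) : Fin P ≃ (u k).1 :=
  ((u k).1.equivFinOfCardEq (u k).2).symm

/-- signed digit -/
noncomputable def tsg (u : TypIx r h K P) (z : Fin K × Fin P × Bool) (j : Fin r) : ℤ :=
  (if z.2.2 then 1 else -1) * (((tenum u z.1 z.2.1).1.1 j : ℕ) : ℤ)

/-- perturbation of a letter -/
noncomputable def txi (ι : Fin K × Fin P × Bool → Fin N) (u : TypIx r h K P) (q : Fin N)
    (j : Fin r) : ℤ :=
  ∑ z, if ι z = q then tsg u z j else 0

lemma txi_apply {ι : Fin K × Fin P × Bool → Fin N} (hι : Function.Injective ι)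
    (u : TypIx r h K P) (z : Fin K × Fin P × Bool) (j : Fin r) :
    txi ι u (ι z) j = tsg u z j := by
  unfold txi
  rw [Finset.sum_eq_single z]
  · simp
  · intro z' _ hz'
    rw [if_neg]
    exact fun h => hz' (hι h)
  · simp

lemma txi_none {ι : Fin K × Fin P × Bool → Fin N} (u : TypIx r h K P) {q : Fin N}
    (hq : ∀ z, ι z ≠ q) (j : Fin r) : txi ι u q j = 0 := by
  unfold txi
  exact Finset.sum_eq_zero fun z _ => if_neg (hq z)

lemma sum_txi (ι : Fin K × Fin P × Bool → Fin N) (u : TypIx r h K P) (j : Fin r) :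
    ∑ q, txi ι u q j = 0 := by
  unfold txi
  rw [Finset.sum_comm]
  have : ∀ z : Fin K × Fin P × Bool, (∑ q, if ι z = q then tsg u z j else 0) = tsg u z j := by
    intro z
    simp
  rw [Finset.sum_congr rfl fun z _ => this z, Fintype.sum_prod_type]
  refine Finset.sum_eq_zero fun k _ => ?_
  rw [Fintype.sum_prod_type]
  refine Finset.sum_eq_zero fun p _ => ?_
  simp [tsg]

lemma abs_txi {ι : Fin K × Fin P × Bool → Fin N} (hι : Function.Injective ι)
    (u : TypIx r h K P) (q : Fin N) (j : Fin r) : |txi ι u q j| ≤ h := by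
  by_cases hq : ∃ z, ι z = q
  · obtain ⟨z, rfl⟩ := hq
    rw [txi_apply hι]
    unfold tsg
    have h1 : (((tenum u z.1 z.2.1).1.1 j : ℕ) : ℤ) ≤ h := by
      have := ((tenum u z.1 z.2.1).1.1 j).isLt
      omega
    rw [abs_mul]
    have : |(if z.2.2 = true then (1:ℤ) else -1)| = 1 := by split_ifs <;> simp
    rw [this, one_mul, abs_of_nonneg (by positivity)]
    exact h1
  · push Not at hq
    rw [txi_none u hq]
    simp

/-- the perturbation in all rows -/
noncomputable def ty (ι : Fin K × Fin P × Bool → Fin N) (u : TypIx r h K P) (q : Fin N)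
    (i : ℕ) : ℤ :=
  if i = 0 then -∑ j : Fin r, txi ι u q j else
    if hi : i - 1 < r then txi ι u q ⟨i - 1, hi⟩ else 0

lemma ty_zero (ι : Fin K × Fin P × Bool → Fin N) (u : TypIx r h K P) (q : Fin N) :
    ty ι u q 0 = -∑ j : Fin r, txi ι u q j := by simp [ty]

lemma ty_succ (ι : Fin K × Fin P × Bool → Fin N) (u : TypIx r h K P) (q : Fin N) (j : Fin r) :
    ty ι u q (j + 1) = txi ι u q j := by
  simp [ty]

lemma ty_big (ι : Fin K × Fin P × Bool → Fin N) (u : TypIx r h K P) (q : Fin N) {i : ℕ}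
    (hi : r < i) : ty ι u q i = 0 := by
  unfold ty
  rw [if_neg (by omega), dif_neg (by omega)]

lemma sum_ty (ι : Fin K × Fin P × Bool → Fin N) (u : TypIx r h K P) (i : ℕ) :
    ∑ q, ty ι u q i = 0 := by
  unfold ty
  by_cases h0 : i = 0
  · subst h0
    simp only [if_true]
    rw [Finset.sum_neg_distrib, Finset.sum_comm]
    simp [sum_txi]
  · simp only [if_neg h0]
    by_cases hi : i - 1 < r
    · simp only [dif_pos hi]
      exact sum_txi ι u _
    · simp [dif_neg hi]

lemma sum_ty_row (ι : Fin K × Fin P × Bool → Fin N) (u : TypIx r h K P) (q : Fin N)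
    (hr : r < R) : ∑ i ∈ range R, ty ι u q i = 0 := by
  obtain ⟨e, rfl⟩ : ∃ e, R = (r + e) + 1 := ⟨R - r - 1, by omega⟩
  rw [Finset.sum_range_succ', Finset.sum_range_add]
  have h2 : ∑ x ∈ range e, ty ι u q (r + x + 1) = 0 :=
    Finset.sum_eq_zero fun x _ => ty_big ι u q (by omega)
  rw [h2, add_zero, ty_zero, ← Fin.sum_univ_eq_sum_range (fun x => ty ι u q (x + 1)) r]
  simp only [ty_succ]
  ring

lemma abs_ty {ι : Fin K × Fin P × Bool → Fin N} (hι : Function.Injective ι)
    (u : TypIx r h K P) (q : Fin N) {i : ℕ} (hi : 1 ≤ i) : |ty ι u q i| ≤ h := by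
  unfold ty
  rw [if_neg (by omega)]
  split_ifs with h1
  · exact abs_txi hι u q _
  · simp

lemma abs_ty_zero {ι : Fin K × Fin P × Bool → Fin N} (hι : Function.Injective ι)
    (u : TypIx r h K P) (q : Fin N) : |ty ι u q 0| ≤ r * h := by
  rw [ty_zero, abs_neg]
  calc |∑ j : Fin r, txi ι u q j| ≤ ∑ j : Fin r, |txi ι u q j| := Finset.abs_sum_le_sum_abs _ _
    _ ≤ ∑ _j : Fin r, (h : ℤ) := Finset.sum_le_sum fun j _ => abs_txi hι u q j
    _ = r * h := by simp

/-- base matrix -/
def tbase (R : ℕ) (s : Fin N → ℕ) (t : ℕ → ℕ) (q : Fin N) (i : ℕ) : ℤ :=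
  if i = 0 then (s q : ℤ) - ∑ j ∈ Ico 1 R, ((t j / N : ℕ) + if (q : ℕ) < t j % N then 1 else 0)
  else (t i / N : ℕ) + if (q : ℕ) < t i % N then 1 else 0

lemma tbase_pos (s : Fin N → ℕ) (t : ℕ → ℕ) (q : Fin N) {i : ℕ} (hi : 1 ≤ i) :
    tbase R s t q i = (t i / N : ℕ) + if (q : ℕ) < t i % N then 1 else 0 := by
  unfold tbase
  rw [if_neg (by omega)]

lemma sum_corr (N m : ℕ) (hm : m ≤ N) :
    ∑ q : Fin N, (if (q : ℕ) < m then (1 : ℤ) else 0) = m := by
  rw [Fin.sum_univ_eq_sum_range (fun q => if q < m then (1 : ℤ) else 0) N,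
    Finset.sum_ite, Finset.sum_const_zero, add_zero, Finset.sum_const]
  have : (range N).filter (fun x => x < m) = range m := by
    ext x; simp; omega
  rw [this]; simp

lemma sum_tbase_pos (hN : 0 < N) (s : Fin N → ℕ) (t : ℕ → ℕ) {i : ℕ} (hi : 1 ≤ i) :
    ∑ q, tbase R s t q i = t i := by
  have : ∀ q : Fin N, tbase R s t q i = (t i / N : ℕ) + if (q : ℕ) < t i % N then 1 else 0 :=
    fun q => tbase_pos s t q hi
  rw [Finset.sum_congr rfl fun q _ => this q, Finset.sum_add_distrib,
    sum_corr N _ (Nat.mod_lt _ hN).le, Finset.sum_const]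
  simp only [card_univ, Fintype.card_fin, nsmul_eq_mul]
  have := Nat.div_add_mod (t i) N
  exact_mod_cast this

lemma tbase_row (hR : 0 < R) (s : Fin N → ℕ) (t : ℕ → ℕ) (q : Fin N) :
    ∑ i ∈ range R, tbase R s t q i = s q := by
  rw [Finset.range_eq_Ico, Finset.sum_eq_sum_Ico_succ_bot hR]
  have : ∑ i ∈ Ico (0 + 1) R, tbase R s t q i =
      ∑ i ∈ Ico 1 R, (((t i / N : ℕ) : ℤ) + if (q : ℕ) < t i % N then 1 else 0) := by
    refine Finset.sum_congr (by simp) fun i hi => ?_
    rw [Finset.mem_Ico] at hi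
    exact tbase_pos s t q hi.1
  rw [this]
  unfold tbase
  simp

lemma sum_tbase_zero (hN : 0 < N) (hR : 0 < R) (s : Fin N → ℕ) (t : ℕ → ℕ)
    (hst : ∑ i ∈ range R, t i = ∑ q, s q) :
    ∑ q, tbase R s t q 0 = t 0 := by
  have h1 : ∑ q, ∑ i ∈ range R, tbase R s t q i = ∑ q, (s q : ℤ) :=
    Finset.sum_congr rfl fun q _ => tbase_row hR s t q
  rw [Finset.sum_comm, Finset.range_eq_Ico, Finset.sum_eq_sum_Ico_succ_bot hR] at h1
  have h2 : ∑ i ∈ Ico (0 + 1) R, ∑ q, tbase R s t q i = ∑ i ∈ Ico (0 + 1) R, (t i : ℤ) :=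
    Finset.sum_congr rfl fun i hi => sum_tbase_pos hN s t (by rw [Finset.mem_Ico] at hi; omega)
  rw [h2] at h1
  have h3 : ((∑ i ∈ range R, t i : ℕ) : ℤ) = ∑ q, (s q : ℤ) := by
    rw [hst]; push_cast; rfl
  rw [Finset.range_eq_Ico, Finset.sum_eq_sum_Ico_succ_bot hR] at h3
  push_cast at h3
  linarith

/-- the types, in `ℤ` -/
noncomputable def ttyp (R : ℕ) (s : Fin N → ℕ) (t : ℕ → ℕ) (ι : Fin K × Fin P × Bool → Fin N)
    (u : TypIx r h K P) (q : Fin N) (i : ℕ) : ℤ :=
  tbase R s t q i + 2 * ty ι u q i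

/-- **[TYP]** a family of type multisets with prescribed totals and prescribed top degrees. -/
theorem typ_family (s : Fin N → ℕ) (t : ℕ → ℕ) (hst : ∑ i ∈ range R, t i = ∑ q, s q)
    (hr : r < R) (ι : Fin K × Fin P × Bool → Fin N) (hι : Function.Injective ι)
    (hcls : ∀ k k' p p' b, s (ι (k, p, b)) = s (ι (k', p', b)) → k = k')
    (hleft : ∀ q q', q ≠ q' → (∀ z, ι z ≠ q) → (∀ z, ι z ≠ q') → s q ≠ s q')
    {lo : ℕ} (h1 : ∀ i, 1 ≤ i → i ≤ r → lo + 2 * h ≤ t i / N)
    (h2 : ∀ i, r < i → i < R → lo ≤ t i / N)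
    (h0 : ∀ q, lo + 2 * (r * h) + ∑ i ∈ Ico 1 R, (t i / N + 1) ≤ s q) :
    ∃ typ : TypIx r h K P → Fin N → ℕ → ℕ,
      (∀ u, ∀ i < R, ∑ q, typ u q i = t i) ∧
      (∀ u q, ∑ i ∈ range R, typ u q i = s q) ∧
      (∀ u q, ∀ i < R, lo ≤ typ u q i) ∧
      (∀ u q, ∀ i, 1 ≤ i → i < R → typ u q i ≤ t i / N + 1 + 2 * h) ∧
      (∀ u q q', (∀ i < R, typ u q i = typ u q' i) → q = q') ∧
      (∀ u u' (ρ : Equiv.Perm (Fin N)), (∀ q, ∀ i < R, typ u' q i = typ u (ρ q) i) → u = u') := by
  classical
  rcases Nat.eq_zero_or_pos N with hN0 | hN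
  · -- no letters: no pairs, one index
    subst hN0
    refine ⟨fun _ q _ => q.elim0, ?_, fun _ q => q.elim0, fun _ q => q.elim0,
      fun _ q => q.elim0, fun _ q => q.elim0, ?_⟩
    · intro u i hi
      have h3 : ∑ i ∈ range R, t i = 0 := by rw [hst]; simp
      rw [Finset.sum_eq_zero_iff] at h3
      have := h3 i (Finset.mem_range.2 hi)
      simp [this]
    · intro u u' _ _
      funext k
      have hP : P = 0 := by
        by_contra hP
        exact (ι (k, ⟨0, by omega⟩, true)).elim0
      subst hP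
      apply Subtype.ext
      rw [Finset.card_eq_zero.1 (u k).2, Finset.card_eq_zero.1 (u' k).2]
  have hR : 0 < R := by omega
  -- nonnegativity
  have hpos : ∀ u : TypIx r h K P, ∀ q, ∀ i < R, (lo : ℤ) ≤ ttyp R s t ι u q i := by
    intro u q i hi
    unfold ttyp
    rcases Nat.eq_zero_or_pos i with hi0 | hi0
    · subst hi0
      have h3 := abs_ty_zero hι u q
      have h4 := h0 q
      have h5 : (∑ j ∈ Ico 1 R, (((t j / N : ℕ) : ℤ) + if (q : ℕ) < t j % N then 1 else 0)) ≤
          ∑ j ∈ Ico 1 R, (((t j / N : ℕ) : ℤ) + 1) := by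
        refine Finset.sum_le_sum fun j _ => ?_
        split_ifs <;> omega
      have h6 : ((lo + 2 * (r * h) + ∑ i ∈ Ico 1 R, (t i / N + 1) : ℕ) : ℤ) ≤ s q := by
        exact_mod_cast h4
      push_cast at h6
      push_cast at h5
      have h7 : tbase R s t q 0 = (s q : ℤ) -
        ∑ j ∈ Ico 1 R, ((t j / N : ℕ) + if (q : ℕ) < t j % N then 1 else 0) := by
        simp [tbase]
      rw [h7]
      push_cast
      have h8 := (abs_le.1 h3).1
      linarith
    · rw [tbase_pos s t q hi0]
      by_cases hir : i ≤ r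
      · have h3 := (abs_le.1 (abs_ty hι u q hi0)).1
        have h4 := h1 i hi0 hir
        have h5 : (0:ℤ) ≤ if (q : ℕ) < t i % N then 1 else 0 := by split_ifs <;> simp
        have h6 : ((lo + 2 * h : ℕ) : ℤ) ≤ (t i / N : ℕ) := by exact_mod_cast h4
        push_cast at h6 ⊢
        linarith
      · rw [ty_big ι u q (by omega)]
        have h4 := h2 i (by omega) hi
        have h5 : (0:ℤ) ≤ if (q : ℕ) < t i % N then 1 else 0 := by split_ifs <;> simp
        have h6 : ((lo : ℕ) : ℤ) ≤ (t i / N : ℕ) := by exact_mod_cast h4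
        push_cast at h6 ⊢
        linarith
  have hnn : ∀ u : TypIx r h K P, ∀ q, ∀ i < R,
      (((ttyp R s t ι u q i).toNat : ℕ) : ℤ) = ttyp R s t ι u q i := by
    intro u q i hi
    exact Int.toNat_of_nonneg (le_trans (by positivity) (hpos u q i hi))
  -- recovering the signed digits
  have hrec : ∀ u u' : TypIx r h K P, ∀ q q',
      (∀ i < R, (ttyp R s t ι u q i).toNat = (ttyp R s t ι u' q' i).toNat) →
      (∀ j, txi ι u q j = txi ι u' q' j) ∧ s q = s q' := by
    intro u u' q q' H
    have H' : ∀ i < R, ttyp R s t ι u q i = ttyp R s t ι u' q' i := by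
      intro i hi
      rw [← hnn u q i hi, ← hnn u' q' i hi, H i hi]
    constructor
    · intro j
      have h3 := H' (j + 1) (by have := j.isLt; omega)
      unfold ttyp at h3
      rw [ty_succ, ty_succ, tbase_pos s t q (by omega), tbase_pos s t q' (by omega)] at h3
      split_ifs at h3 <;> omega
    · have h3 : ∑ i ∈ range R, ttyp R s t ι u q i = ∑ i ∈ range R, ttyp R s t ι u' q' i :=
        Finset.sum_congr rfl fun i hi => H' i (Finset.mem_range.1 hi)
      unfold ttyp at h3
      rw [Finset.sum_add_distrib, Finset.sum_add_distrib, ← Finset.mul_sum, ← Finset.mul_sum,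
        sum_ty_row ι u q hr, sum_ty_row ι u' q' hr, tbase_row hR, tbase_row hR] at h3
      exact_mod_cast (by linarith : (s q : ℤ) = s q')
  -- a positive digit vector of a letter
  have hdig : ∀ (u : TypIx r h K P) (z : Fin K × Fin P × Bool), ∃ j : Fin r,
      tsg u z j ≠ 0 ∧ (z.2.2 = true → 0 < tsg u z j) ∧ (z.2.2 = false → tsg u z j < 0) := by
    intro u z
    have hx := (tenum u z.1 z.2.1).1.2
    obtain ⟨j, hj⟩ := Function.ne_iff.1 hx
    have hj' : 0 < (((tenum u z.1 z.2.1).1.1 j : ℕ) : ℤ) := by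
      have : ((tenum u z.1 z.2.1).1.1 j : ℕ) ≠ 0 := by
        intro h0
        exact hj (Fin.ext h0)
      omega
    refine ⟨j, ?_, ?_, ?_⟩
    · unfold tsg
      split_ifs <;> simp <;> omega
    · intro hb
      unfold tsg
      rw [if_pos hb]
      omega
    · intro hb
      unfold tsg
      rw [if_neg (by simp [hb])]
      omega
  -- equal signed digits of two paired letters
  have hsame : ∀ (u u' : TypIx r h K P) (z z' : Fin K × Fin P × Bool),
      (∀ j, tsg u z j = tsg u' z' j) →
      z.2.2 = z'.2.2 ∧ (tenum u z.1 z.2.1).1 = (tenum u' z'.1 z'.2.1).1 := by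
    intro u u' z z' H
    have hb : z.2.2 = z'.2.2 := by
      obtain ⟨j, _, hjt, hjf⟩ := hdig u z
      obtain ⟨j', _, hjt', hjf'⟩ := hdig u' z'
      have e1 := H j
      have e2 := H j'
      rcases Bool.eq_false_or_eq_true z.2.2 with hz | hz <;>
        rcases Bool.eq_false_or_eq_true z'.2.2 with hz' | hz'
      · rw [hz, hz']
      · exfalso
        have a1 := hjt hz
        have a2 : tsg u' z' j ≤ 0 := by
          unfold tsg
          rw [if_neg (by simp [hz'])]
          have : (0:ℤ) ≤ (((tenum u' z'.1 z'.2.1).1.1 j : ℕ) : ℤ) := by positivity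
          omega
        omega
      · exfalso
        have a1 := hjf hz
        have a2 : 0 ≤ tsg u' z' j := by
          unfold tsg
          rw [if_pos hz']
          have : (0:ℤ) ≤ (((tenum u' z'.1 z'.2.1).1.1 j : ℕ) : ℤ) := by positivity
          omega
        omega
      · rw [hz, hz']
    refine ⟨hb, ?_⟩
    apply Subtype.ext
    funext j
    have h3 := H j
    unfold tsg at h3
    rw [hb] at h3
    apply Fin.ext
    split_ifs at h3 <;> omega
  refine ⟨fun u q i => (ttyp R s t ι u q i).toNat, ?_, ?_, ?_, ?_, ?_, ?_⟩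
  · intro u i hi
    have h3 : ((∑ q, (ttyp R s t ι u q i).toNat : ℕ) : ℤ) = t i := by
      rw [Nat.cast_sum, Finset.sum_congr rfl fun q _ => hnn u q i hi]
      unfold ttyp
      rw [Finset.sum_add_distrib, ← Finset.mul_sum, sum_ty, mul_zero, add_zero]
      rcases Nat.eq_zero_or_pos i with hi0 | hi0
      · subst hi0
        exact sum_tbase_zero hN hR s t hst
      · exact sum_tbase_pos hN s t hi0
    exact_mod_cast h3
  · intro u q
    have h3 : ((∑ i ∈ range R, (ttyp R s t ι u q i).toNat : ℕ) : ℤ) = s q := by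
      rw [Nat.cast_sum, Finset.sum_congr rfl fun i hi => hnn u q i (Finset.mem_range.1 hi)]
      unfold ttyp
      rw [Finset.sum_add_distrib, ← Finset.mul_sum, sum_ty_row ι u q hr, tbase_row hR]
      ring
    exact_mod_cast h3
  · intro u q i hi
    have h3 := hpos u q i hi
    rw [← hnn u q i hi] at h3
    exact_mod_cast h3
  · intro u q i hi1 hi
    have h3 : (((ttyp R s t ι u q i).toNat : ℕ) : ℤ) ≤ ((t i / N + 1 + 2 * h : ℕ) : ℤ) := by
      rw [hnn u q i hi]
      unfold ttyp
      rw [tbase_pos s t q hi1]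
      have h4 := (abs_le.1 (abs_ty hι u q hi1)).2
      push_cast
      have h5 : (if (q : ℕ) < t i % N then (1:ℤ) else 0) ≤ 1 := by split_ifs <;> simp
      linarith
    exact_mod_cast h3
  · intro u q q' H
    obtain ⟨hd, hs⟩ := hrec u u q q' H
    by_cases hq : ∃ z, ι z = q
    · obtain ⟨z, rfl⟩ := hq
      by_cases hq' : ∃ z', ι z' = q'
      · obtain ⟨z', rfl⟩ := hq'
        simp only [txi_apply hι] at hd
        obtain ⟨hb, he⟩ := hsame u u z z' hd
        obtain ⟨k, p, b⟩ := z
        obtain ⟨k', p', b'⟩ := z'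
        simp only at hb he
        subst hb
        have hk := hcls k k' p p' b hs
        subst hk
        have hp : p = p' := (tenum u k).injective (Subtype.ext he)
        subst hp
        rfl
      · exfalso
        push Not at hq'
        obtain ⟨j, hj, _⟩ := hdig u z
        have := hd j
        rw [txi_apply hι, txi_none u hq'] at this
        exact hj this
    · push Not at hq
      by_cases hq' : ∃ z', ι z' = q'
      · exfalso
        obtain ⟨z', rfl⟩ := hq'
        obtain ⟨j, hj, _⟩ := hdig u z'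
        have := hd j
        rw [txi_apply hι, txi_none u hq] at this
        exact hj this.symm
      · push Not at hq'
        by_contra hne
        exact hleft q q' hne hq hq' hs
  · intro u u' ρ H
    funext k
    apply Subtype.ext
    have hsub : (u k).1 ⊆ (u' k).1 := by
      intro x hx
      obtain ⟨p, hp⟩ := (tenum u k).surjective ⟨x, hx⟩
      obtain ⟨q', hq'⟩ := ρ.surjective (ι (k, p, true))
      have H1 := H q'
      rw [hq'] at H1
      obtain ⟨hd, hs⟩ := hrec u' u q' (ι (k, p, true)) H1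
      by_cases hz : ∃ z', ι z' = q'
      · obtain ⟨⟨k', p', b'⟩, rfl⟩ := hz
        simp only [txi_apply hι] at hd
        obtain ⟨hb, he⟩ := hsame u' u (k', p', b') (k, p, true) hd
        simp only at hb he
        subst hb
        have hk := hcls k' k p' p true hs
        subst hk
        rw [hp] at he
        simp only at he
        rw [← he]
        exact (tenum u' k' p').2
      · exfalso
        push Not at hz
        obtain ⟨j, hj, _⟩ := hdig u (k, p, true)
        have := hd j
        rw [txi_apply hι, txi_none u' hz] at this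
        exact hj this.symm
    exact Finset.eq_of_subset_of_card_le hsub (by rw [(u k).2, (u' k).2])

end

end Vale.Agent.P181.H310
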