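import Vale.Agent.P181.S6.SpecG
import Vale.Agent.P181.H914.Num5

set_option autoImplicit false

/-!
# P181, S6: [S6-LB], the lower bound for `b` letters of degree `k` (`DesAll → MatG → LB9`)
-/

namespace Vale.Agent.P181.H310

open Finset
open Vale.Agent.P181 Vale.Agent.P181.H280 Vale.Agent.P181.H463 Vale.Agent.P181.H59
open Vale.Agent.P181.H914

/-- comparison -/
theorem compareLB {a b k n m N κ : ℕ} {lam : Fin n → ℕ} (hlam : Antitone lam) (hn : n ≤ a)
    (ha : 0 < a) (hab : a ≤ b) (hm : m = cj lam ((κ + 1) * N))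
    (hlen : ∀ c : Fin N, cj lam (κ * N + c) ≤ 2 * m)
    (hnum : (a : ℝ) ^ (2 * m * N) *
      ((((∑ i, et lam κ N i) + b - 1).choose (b - 1) * b.factorial : ℕ) : ℝ) * Real.exp (2 * b) ≤
      (1 + ((κ * N : ℕ) : ℝ) / b) ^ (m * (b - a)))
    (hC : gt n b (et lam κ N) ≤ ((∑ i, et lam κ N i) + b - 1).choose (b - 1) *
      (b.factorial * plethMult b k n lam)) :
    (gt n a lam : ℝ) * Real.exp (2 * b) ≤ plethMult b k n lam := by
  classical
  have hη := et_anti hlam κ N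
  have h4 := Vale.Agent.P181.H921.gt_addcols_le (n := n) a (univ : Finset (Fin N))
    (fun c => cj lam (κ * N + c)) (fun c _ => cj_le lam _) hη
  have h5 : (fun i : Fin n => et lam κ N i +
      ((univ : Finset (Fin N)).filter fun c : Fin N =>
        (i : ℕ) < cj lam (κ * N + (c : ℕ))).card) = lam := by
    funext i
    simp only [lt_cj hlam]
    have := card_win (lam i) κ N
    simp only [et]
    omega
  rw [h5] at h4
  have h6 : (∏ c : Fin N, a.choose (cj lam (κ * N + c))) ≤ a ^ (2 * m * N) := by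
    have h7 : ∀ c ∈ (univ : Finset (Fin N)), a.choose (cj lam (κ * N + c)) ≤ a ^ (2 * m) := by
      intro c _
      exact (Nat.choose_le_pow _ _).trans (Nat.pow_le_pow_right ha (hlen c))
    refine (Finset.prod_le_pow_card _ _ _ h7).trans ?_
    rw [card_univ, Fintype.card_fin, ← pow_mul]
  have h7 := Vale.Agent.P181.H539.gt_growth_rows (n := n) (a := a) (N := b) (l := m)
    (n0 := κ * N) hn ha hab hη (by rw [hm]; exact cj_le lam _) (by
      intro i hi
      rw [hm, lt_cj hlam] at hi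
      rw [Nat.add_mul, Nat.one_mul] at hi
      simp only [et]
      omega)
  set G : ℝ := (gt n a (et lam κ N) : ℝ) with hG
  set G' : ℝ := (gt n b (et lam κ N) : ℝ) with hG'
  set X : ℝ := (1 + ((κ * N : ℕ) : ℝ) / b) ^ (m * (b - a)) with hX
  set P : ℝ := (plethMult b k n lam : ℝ) with hP
  set Cc : ℝ :=
    ((((∑ i, et lam κ N i) + b - 1).choose (b - 1) * b.factorial : ℕ) : ℝ) with hCc
  have h8 : (gt n a lam : ℝ) ≤ (a : ℝ) ^ (2 * m * N) * G := by
    rw [hG]
    exact_mod_cast h4.trans (Nat.mul_le_mul_right _ h6)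
  have h9 : G' ≤ Cc * P := by
    rw [hG', hCc, hP]
    rw [← Nat.mul_assoc] at hC
    exact_mod_cast hC
  have hX0 : 0 < X := by positivity
  have hP0 : 0 ≤ P := Nat.cast_nonneg _
  have hL0 : (0 : ℝ) ≤ (a : ℝ) ^ (2 * m * N) := by positivity
  have hE0 : (0 : ℝ) < Real.exp (2 * b) := Real.exp_pos _
  have h10 : ((gt n a lam : ℝ) * Real.exp (2 * b)) * X ≤ P * X := by
    calc ((gt n a lam : ℝ) * Real.exp (2 * b)) * X
        ≤ (((a : ℝ) ^ (2 * m * N) * G) * Real.exp (2 * b)) * X :=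
          mul_le_mul_of_nonneg_right (mul_le_mul_of_nonneg_right h8 hE0.le) hX0.le
      _ = ((a : ℝ) ^ (2 * m * N) * Real.exp (2 * b)) * (G * X) := by ring
      _ ≤ ((a : ℝ) ^ (2 * m * N) * Real.exp (2 * b)) * G' :=
          mul_le_mul_of_nonneg_left h7 (by positivity)
      _ ≤ ((a : ℝ) ^ (2 * m * N) * Real.exp (2 * b)) * (Cc * P) :=
          mul_le_mul_of_nonneg_left h9 (by positivity)
      _ = ((a : ℝ) ^ (2 * m * N) * Cc * Real.exp (2 * b)) * P := by ring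
      _ ≤ X * P := mul_le_mul_of_nonneg_right hnum hP0
      _ = P * X := mul_comm _ _
  exact le_of_mul_le_mul_right h10 hX0

/-- the numbers -/
theorem numLB {a b m N κ s : ℕ} {c : ℝ} (hab : a + 1 ≤ b) (hs : s ≤ a * b)
    (hc' : c * b ≤ (b : ℝ) - a) (hc0 : 0 ≤ c) (hmN : b ≤ m * N) (hkN : κ * N ≤ b)
    (hlog1 : 1 ≤ Real.log b) (hlog : 14 * Real.log b ≤ c * κ) :
    (a : ℝ) ^ (2 * m * N) * (((s + b - 1).choose (b - 1) * b.factorial : ℕ) : ℝ) *
      Real.exp (2 * b) ≤ (1 + ((κ * N : ℕ) : ℝ) / b) ^ (m * (b - a)) := by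
  have hb : 0 < b := by omega
  have hbR : (0 : ℝ) < b := by exact_mod_cast hb
  have hb1 : (1 : ℝ) ≤ b := by exact_mod_cast hb
  have hlog0 : 0 ≤ Real.log b := by linarith
  -- the left side
  have h1 : (s + b - 1).choose (b - 1) ≤ (b ^ 2) ^ b := by
    calc (s + b - 1).choose (b - 1) ≤ (s + b - 1) ^ (b - 1) := Nat.choose_le_pow _ _
      _ ≤ (b ^ 2) ^ (b - 1) := by
          refine Nat.pow_le_pow_left ?_ _
          have h2 : a * b + b ≤ b ^ 2 := by nlinarith
          omega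
      _ ≤ (b ^ 2) ^ b := Nat.pow_le_pow_right (by positivity) (by omega)
  have h2 : b.factorial ≤ b ^ b := Nat.factorial_le_pow b
  have h3 : (((s + b - 1).choose (b - 1) * b.factorial : ℕ) : ℝ) ≤ (b : ℝ) ^ (3 * b) := by
    have h4 : (s + b - 1).choose (b - 1) * b.factorial ≤ b ^ (3 * b) := by
      calc (s + b - 1).choose (b - 1) * b.factorial ≤ (b ^ 2) ^ b * b ^ b := Nat.mul_le_mul h1 h2
        _ = b ^ (3 * b) := by rw [← pow_mul, ← pow_add]; congr 1; ring
    exact_mod_cast h4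
  have h4 : (a : ℝ) ^ (2 * m * N) ≤ (b : ℝ) ^ (2 * m * N) := by
    refine pow_le_pow_left₀ (Nat.cast_nonneg _) ?_ _
    exact_mod_cast (by omega : a ≤ b)
  have h5 : (a : ℝ) ^ (2 * m * N) * (((s + b - 1).choose (b - 1) * b.factorial : ℕ) : ℝ) ≤
      Real.exp (((2 * m * N + 3 * b : ℕ) : ℝ) * Real.log b) := by
    calc (a : ℝ) ^ (2 * m * N) * (((s + b - 1).choose (b - 1) * b.factorial : ℕ) : ℝ)
        ≤ (b : ℝ) ^ (2 * m * N) * (b : ℝ) ^ (3 * b) :=
          mul_le_mul h4 h3 (Nat.cast_nonneg _) (by positivity)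
      _ = (b : ℝ) ^ (2 * m * N + 3 * b) := (pow_add _ _ _).symm
      _ = Real.exp (((2 * m * N + 3 * b : ℕ) : ℝ) * Real.log b) := by
          rw [Real.exp_nat_mul, Real.exp_log hbR]
  have h6 : (a : ℝ) ^ (2 * m * N) * (((s + b - 1).choose (b - 1) * b.factorial : ℕ) : ℝ) *
      Real.exp (2 * b) ≤ Real.exp (7 * (m * N) * Real.log b) := by
    refine (mul_le_mul_of_nonneg_right h5 (Real.exp_pos _).le).trans ?_
    rw [← Real.exp_add]
    apply Real.exp_le_exp.2
    push_cast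
    have h7 : (b : ℝ) ≤ m * N := by exact_mod_cast hmN
    have h8 : (2 : ℝ) * b ≤ 2 * b * Real.log b := by
      have : (2 : ℝ) * b * 1 ≤ 2 * b * Real.log b :=
        mul_le_mul_of_nonneg_left hlog1 (by positivity)
      linarith
    have h9 : (b : ℝ) * Real.log b ≤ m * N * Real.log b :=
      mul_le_mul_of_nonneg_right h7 hlog0
    nlinarith
  refine h6.trans ?_
  -- the right side
  set x : ℝ := ((κ * N : ℕ) : ℝ) / b with hx
  have hx1 : x ≤ 1 := by
    rw [hx, div_le_one hbR]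
    exact_mod_cast hkN
  have hx0 : 0 ≤ x := by positivity
  have h7 : x / 2 ≤ Real.log (1 + x) := by
    have h8 := Real.one_sub_inv_le_log_of_pos (by linarith : (0 : ℝ) < 1 + x)
    have h9 : 1 - (1 + x)⁻¹ = x / (1 + x) := by
      field_simp
      ring
    have h10 : x / 2 ≤ x / (1 + x) :=
      div_le_div_of_nonneg_left hx0 (by linarith) (by linarith)
    linarith
  have h8 : (1 + x) ^ (m * (b - a)) = Real.exp (((m * (b - a) : ℕ) : ℝ) * Real.log (1 + x)) := by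
    rw [Real.exp_nat_mul, Real.exp_log (by linarith : (0 : ℝ) < 1 + x)]
  rw [h8]
  apply Real.exp_le_exp.2
  have h9 : ((m * (b - a) : ℕ) : ℝ) = m * ((b : ℝ) - a) := by
    rw [Nat.cast_mul, Nat.cast_sub (by omega)]
  rw [h9]
  have hm0 : (0 : ℝ) ≤ m := Nat.cast_nonneg _
  have hN0 : (0 : ℝ) ≤ N := Nat.cast_nonneg _
  calc (7 : ℝ) * (m * N) * Real.log b = (m * N) / 2 * (14 * Real.log b) := by ring
    _ ≤ (m * N) / 2 * (c * κ) := mul_le_mul_of_nonneg_left hlog (by positivity)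
    _ = m * (c * b) * (x / 2) := by
        rw [hx]
        push_cast
        field_simp
    _ ≤ m * ((b : ℝ) - a) * Real.log (1 + x) := by
        refine mul_le_mul (mul_le_mul_of_nonneg_left hc' hm0) h7 (by positivity) ?_
        refine mul_nonneg hm0 (le_trans ?_ hc')
        positivity

/-- Eventual inequalities. -/
theorem evLB (ε B : ℝ) (hε : 0 < ε) (p : ℕ) : ∀ᶠ a : ℕ in Filter.atTop,
    1 ≤ Real.log a ∧ B < Real.log a ∧ B * Real.log a ^ p ≤ (a : ℝ) ^ ε := by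
  have h1 : ∀ᶠ x : ℝ in Filter.atTop, 1 ≤ Real.log x :=
    Real.tendsto_log_atTop.eventually_ge_atTop 1
  have h2 : ∀ᶠ x : ℝ in Filter.atTop, B < Real.log x :=
    Real.tendsto_log_atTop.eventually_gt_atTop B
  have h3 : ∀ᶠ x : ℝ in Filter.atTop, ‖Real.log x ^ (p : ℝ)‖ ≤ 1 / (|B| + 1) * ‖x ^ ε‖ :=
    (isLittleO_log_rpow_rpow_atTop (p : ℝ) hε).bound (by positivity)
  have h4 : ∀ᶠ x : ℝ in Filter.atTop, 1 ≤ Real.log x ∧ B < Real.log x ∧
      B * Real.log x ^ p ≤ x ^ ε := by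
    filter_upwards [h1, h2, h3, Filter.eventually_ge_atTop (0 : ℝ)] with x hx1 hx2 hx3 hx0
    refine ⟨hx1, hx2, ?_⟩
    rw [Real.norm_of_nonneg (Real.rpow_nonneg hx0 ε), Real.rpow_natCast,
      Real.norm_of_nonneg (by positivity)] at hx3
    have h5 : 0 ≤ Real.log x ^ p := by positivity
    have h6 : B * Real.log x ^ p ≤ (|B| + 1) * Real.log x ^ p :=
      mul_le_mul_of_nonneg_right (by linarith [le_abs_self B]) h5
    have h7 : (|B| + 1) * Real.log x ^ p ≤ (|B| + 1) * (1 / (|B| + 1) * x ^ ε) :=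
      mul_le_mul_of_nonneg_left hx3 (by positivity)
    have h8 : (|B| + 1) * (1 / (|B| + 1) * x ^ ε) = x ^ ε := by
      have : |B| + 1 ≠ 0 := by positivity
      field_simp
    linarith
  exact tendsto_natCast_atTop_atTop.eventually h4

/-- one instance. -/
theorem lb_one (hM : S6.MatG) {δ c ε : ℝ} (hδ : 0 < δ) (hc : c = δ / (1 + δ)) {C1 a b : ℕ}
    (ha : 0 < a) (hab : (1 + δ) * a ≤ b) (hb2 : b ≤ a ^ 2) (hε : 0 < ε)
    (hdes : ∀ m N : ℕ, (b : ℝ) ^ (ε / 2) ≤ m → m ≤ a → ((b : ℝ) / m) * Real.log b ^ C1 ≤ N →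
      ∀ len : Fin N → ℕ, (∀ c, m ≤ len c ∧ len c ≤ 2 * m ∧ len c ≤ a) →
      ∃ R : ℕ, R ≤ m ∧ Design b R N len)
    (hla : 1 ≤ Real.log a) (hlB : (28 / c + 8) * 2 ^ (C1 + 1) < Real.log a)
    (hlε : (28 / c + 8) * 2 ^ (C1 + 1) * Real.log a ^ (C1 + 1) ≤ (a : ℝ) ^ ε)
    {k n l : ℕ} (lam : Fin n → ℕ) (hn : n ≤ a) (hk : k ≤ a) (hlam : Antitone lam)
    (hsum : ∑ i, lam i = k * b) (hl1 : (a : ℝ) ^ ε ≤ l) (hl2 : l ≤ n)
    (hlM : (b : ℝ) * Real.log a ^ (C1 + 2) ≤ l * T4.ex lam (l - 1)) :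
    (gt n a lam : ℝ) * Real.exp (2 * b) ≤ plethMult b k n lam := by
  have haR : (0 : ℝ) < a := by exact_mod_cast ha
  have ha1R : (1 : ℝ) ≤ a := by exact_mod_cast ha
  have habR : (a : ℝ) < b := by nlinarith
  have hab' : a + 1 ≤ b := by exact_mod_cast habR
  have hb : 0 < b := by omega
  have hbR : (0 : ℝ) < b := by exact_mod_cast hb
  have hc0 : 0 < c := by rw [hc]; positivity
  have hcb : c * b ≤ (b : ℝ) - a := by
    have h1 : (1 - c) * (1 + δ) = 1 := by
      rw [hc]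
      field_simp
      ring
    have hc1 : c ≤ 1 := by
      rw [hc, div_le_one (by linarith)]
      linarith
    have h2 : (a : ℝ) = (1 - c) * ((1 + δ) * a) := by
      rw [← mul_assoc, h1, one_mul]
    have h3 : (1 - c) * ((1 + δ) * a) ≤ (1 - c) * b :=
      mul_le_mul_of_nonneg_left hab (by linarith)
    linarith
  obtain ⟨L, hL⟩ : ∃ L : ℝ, L = Real.log b := ⟨_, rfl⟩
  have hL1 : Real.log a ≤ L := by
    rw [hL]
    exact Real.log_le_log haR habR.le
  have hL1' : 1 ≤ L := hla.trans hL1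
  have hL2 : L ≤ 2 * Real.log a := by
    rw [hL]
    have h1 : Real.log b ≤ Real.log ((a : ℝ) ^ 2) :=
      Real.log_le_log hbR (by exact_mod_cast hb2)
    rw [Real.log_pow] at h1
    exact_mod_cast h1
  have hlR : (0 : ℝ) < l := lt_of_lt_of_le (Real.rpow_pos_of_pos haR _) hl1
  have hl0 : 0 < l := by exact_mod_cast hlR
  have hbl : 1 ≤ (b : ℝ) / l := by
    rw [le_div_iff₀ hlR, one_mul]
    exact_mod_cast (by omega : l ≤ b)
  have hLC : 1 ≤ L ^ C1 := one_le_pow₀ hL1'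
  have hbl0 : 0 < (b : ℝ) / l := by positivity
  -- the number of marker columns
  obtain ⟨N, hNdef⟩ : ∃ N : ℕ, N = ⌈(b : ℝ) / l * L ^ C1⌉₊ := ⟨_, rfl⟩
  have hN1 : (b : ℝ) / l * L ^ C1 ≤ N := by rw [hNdef]; exact Nat.le_ceil _
  have hN2 : (N : ℝ) ≤ 2 * ((b : ℝ) / l * L ^ C1) := by
    have h1 : (N : ℝ) < (b : ℝ) / l * L ^ C1 + 1 := by
      rw [hNdef]; exact Nat.ceil_lt_add_one (by positivity)
    have h2 : 1 ≤ (b : ℝ) / l * L ^ C1 := by
      calc (1 : ℝ) = 1 * 1 := by ring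
        _ ≤ _ := mul_le_mul hbl hLC (by norm_num) hbl0.le
    linarith
  have hNpos : 0 < N := by
    have h1 : (0 : ℝ) < N := lt_of_lt_of_le (by positivity) hN1
    exact_mod_cast h1
  -- the windows
  obtain ⟨K0, hK0⟩ : ∃ K0 : ℕ, K0 = ⌈14 * L / c⌉₊ := ⟨_, rfl⟩
  have hK0a : 14 * L / c ≤ K0 := by rw [hK0]; exact Nat.le_ceil _
  have hK0b : (K0 : ℝ) < 14 * L / c + 1 := by
    rw [hK0]; exact Nat.ceil_lt_add_one (by positivity)
  obtain ⟨J, hJ⟩ : ∃ J : ℕ, J = ⌈2 * L⌉₊ := ⟨_, rfl⟩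
  have hJa : 2 * L ≤ J := by rw [hJ]; exact Nat.le_ceil _
  have hJb : (J : ℝ) < 2 * L + 1 := by rw [hJ]; exact Nat.ceil_lt_add_one (by positivity)
  have hpow : a < 2 ^ (K0 + J - K0) := by
    rw [Nat.add_sub_cancel_left]
    have h1 : (b : ℝ) ≤ 2 ^ J := by
      have h2 : L ≤ (J : ℝ) * Real.log 2 := by
        have h3 : (0.6931471803 : ℝ) < Real.log 2 := Real.log_two_gt_d9
        have h4 : (J : ℝ) * 0.6931471803 ≤ J * Real.log 2 :=
          mul_le_mul_of_nonneg_left h3.le (Nat.cast_nonneg _)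
        linarith
      have h5 := Real.exp_le_exp.2 h2
      rw [hL, Real.exp_log hbR, Real.exp_nat_mul, Real.exp_log (by norm_num)] at h5
      exact h5
    have h2 : (a : ℝ) < 2 ^ J := lt_of_lt_of_le habR h1
    exact_mod_cast h2
  have hKN : ((K0 + J : ℕ) : ℝ) * N ≤
      (28 / c + 8) * 2 ^ (C1 + 1) * Real.log a ^ (C1 + 1) * ((b : ℝ) / l) := by
    have h1 : ((K0 + J : ℕ) : ℝ) ≤ (14 / c + 4) * L := by
      push_cast
      have : (14 / c + 4) * L = 14 * L / c + 4 * L := by ring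
      linarith
    calc ((K0 + J : ℕ) : ℝ) * N ≤ ((14 / c + 4) * L) * (2 * ((b : ℝ) / l * L ^ C1)) :=
          mul_le_mul h1 hN2 (Nat.cast_nonneg _) (by positivity)
      _ = (28 / c + 8) * L ^ (C1 + 1) * ((b : ℝ) / l) := by rw [pow_succ]; ring
      _ ≤ (28 / c + 8) * (2 * Real.log a) ^ (C1 + 1) * ((b : ℝ) / l) := by gcongr
      _ = _ := by rw [mul_pow]; ring
  have hKb : (K0 + J) * N ≤ b := by
    have h1 : ((K0 + J : ℕ) : ℝ) * N ≤ b := by
      refine hKN.trans ?_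
      calc (28 / c + 8) * 2 ^ (C1 + 1) * Real.log a ^ (C1 + 1) * ((b : ℝ) / l)
          ≤ l * ((b : ℝ) / l) := mul_le_mul_of_nonneg_right (hlε.trans hl1) hbl0.le
        _ = b := by field_simp
    exact_mod_cast h1
  have hKM : (K0 + J) * N < T4.ex lam (l - 1) := by
    have h0 : 0 < Real.log a := by linarith
    have h1 : ((K0 + J : ℕ) : ℝ) * N < T4.ex lam (l - 1) := by
      calc ((K0 + J : ℕ) : ℝ) * N
          ≤ (28 / c + 8) * 2 ^ (C1 + 1) * Real.log a ^ (C1 + 1) * ((b : ℝ) / l) := hKN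
        _ < Real.log a * Real.log a ^ (C1 + 1) * ((b : ℝ) / l) := by
            apply mul_lt_mul_of_pos_right _ hbl0
            exact mul_lt_mul_of_pos_right hlB (by positivity)
        _ = (b * Real.log a ^ (C1 + 2)) / l := by rw [pow_succ (Real.log a) (C1 + 1)]; ring
        _ ≤ T4.ex lam (l - 1) := by
            rw [div_le_iff₀ hlR, mul_comm (T4.ex lam (l - 1) : ℝ)]
            exact hlM
    exact_mod_cast h1
  have hcl : l ≤ cj lam ((K0 + J) * N) := by
    have h1 : (l - 1 : ℕ) < n := by omega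
    rw [T4.ex, dif_pos h1] at hKM
    have h2 := (lt_cj hlam ⟨l - 1, h1⟩ ((K0 + J) * N)).2 hKM
    simp only at h2
    omega
  obtain ⟨κ, hκ0, hκ1, hκw⟩ := exists_window (cj lam) a K0 (K0 + J) N (by omega)
    ((cj_le lam _).trans hn) (by omega) hpow
  obtain ⟨m, hm⟩ : ∃ m : ℕ, m = cj lam ((κ + 1) * N) := ⟨_, rfl⟩
  rw [← hm] at hκw
  have hlm : l ≤ m := by
    rw [hm]
    exact hcl.trans (cj_anti lam (Nat.mul_le_mul_right _ (by omega)))
  have hmn : m ≤ n := by rw [hm]; exact cj_le lam _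
  have hmR : (0 : ℝ) < m := by exact_mod_cast (by omega : 0 < m)
  have hlmR : (l : ℝ) ≤ m := by exact_mod_cast hlm
  have hlen1 : ∀ c : Fin N, m ≤ cj lam (κ * N + c) := by
    intro c
    rw [hm]
    refine cj_anti lam ?_
    rw [Nat.add_mul, Nat.one_mul]
    have := c.2
    omega
  have hlen2 : ∀ c : Fin N, cj lam (κ * N + c) ≤ 2 * m := by
    intro c
    exact (cj_anti lam (Nat.le_add_right _ _)).trans hκw
  have hbm : (b : ℝ) / m ≤ (b : ℝ) / l := div_le_div_of_nonneg_left hbR.le hlR hlmR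
  obtain ⟨R, hRm, hd⟩ := hdes m N (by
      calc (b : ℝ) ^ (ε / 2) ≤ ((a : ℝ) ^ 2) ^ (ε / 2) :=
            Real.rpow_le_rpow hbR.le (by exact_mod_cast hb2) (by positivity)
        _ = (a : ℝ) ^ ε := by
            rw [← Real.rpow_natCast, ← Real.rpow_mul haR.le]
            congr 1
            push_cast
            ring
        _ ≤ l := hl1
        _ ≤ m := hlmR) (hmn.trans hn) (by
      rw [← hL]
      exact (mul_le_mul_of_nonneg_right hbm (by positivity)).trans hN1)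
    (fun c => cj lam (κ * N + c)) (fun c => ⟨hlen1 c, hlen2 c, (cj_le lam _).trans hn⟩)
  have hmat := hM n k b R N (fun c => cj lam (κ * N + c)) lam (et lam κ N) hb hd
    (fun c => ⟨hRm.trans (hlen1 c), cj_le lam _⟩) (et_anti hlam κ N) (by
      intro i
      simp only [lt_cj hlam]
      exact card_win (lam i) κ N) hsum
  have hkN : κ * N ≤ b := (Nat.mul_le_mul_right _ hκ1.le).trans hKb
  have hs : ∑ i, et lam κ N i ≤ a * b := by
    have h1 : ∑ i, et lam κ N i ≤ ∑ i, lam i := by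
      refine Finset.sum_le_sum fun i _ => ?_
      have := card_win (lam i) κ N
      simp only [et]
      omega
    exact h1.trans (by rw [hsum]; exact Nat.mul_le_mul_right _ hk)
  have hmN : b ≤ m * N := by
    have h1 : (b : ℝ) ≤ m * N := by
      calc (b : ℝ) = m * ((b : ℝ) / m) := by field_simp
        _ ≤ m * ((b : ℝ) / l * 1) := by
            rw [mul_one]
            exact mul_le_mul_of_nonneg_left hbm hmR.le
        _ ≤ m * ((b : ℝ) / l * L ^ C1) := by gcongr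
        _ ≤ m * N := mul_le_mul_of_nonneg_left hN1 hmR.le
    exact_mod_cast h1
  refine compareLB hlam hn ha (by omega) hm hlen2
    (numLB hab' hs hcb hc0.le hmN hkN (by rw [← hL]; exact hL1') ?_) hmat
  rw [← hL]
  have h1 : (K0 : ℝ) ≤ κ := by exact_mod_cast hκ0
  have h2 : 14 * L / c ≤ κ := hK0a.trans h1
  rw [div_le_iff₀ hc0] at h2
  linarith

/-- **[S6-LB]** -/
theorem lbStmt : S6.LbStmt := by
  intro hD hM ε δ hε hδ
  obtain ⟨C1, b0, hdes⟩ := hD (ε / 2) δ (by positivity) hδ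
  refine ⟨C1 + 2, ?_⟩
  have hev := evLB ε ((28 / (δ / (1 + δ)) + 8) * 2 ^ (C1 + 1)) hε (C1 + 1)
  filter_upwards [hev, Filter.eventually_ge_atTop b0, Filter.eventually_ge_atTop 1] with a
    ⟨h1, h2, h3⟩ ha0 ha k b n l lam hn hab hb2 hk hlam hsum hl1 hl2 hlM
  have haR : (1 : ℝ) ≤ a := by exact_mod_cast ha
  have habR : (a : ℝ) < b := by nlinarith
  have hab' : a < b := by exact_mod_cast habR
  exact lb_one hM hδ rfl ha hab hb2 hε (fun m N => hdes b a m N (by omega) hab) h1 h2 h3 lam hn hk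
    hlam hsum hl1 hl2 hlM

end Vale.Agent.P181.H310
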