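import Vale.Agent.P181.H310.LB10
import Vale.Agent.P181.H503.CaseIIFin
import Vale.Agent.P181.T7.Asm7

set_option autoImplicit false

/-!
# P181, T8: case (C), finite form: many columns of length exactly three and enough cells below
the third row
-/

open scoped Classical

namespace Vale.Agent.P181.H310

open Finset
open Vale.Agent.P181.T4 (ex low ex_of_lt ex_anti low_anti sum_split)
open Vale.Agent.P181.T7 (below below_eq below_succ below_anti ex_le_below)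
open Vale.Agent.P181.H463 (gt)
open Vale.Agent.P181.H280 (plethMult)
open Vale.Agent.P181.H12 (colLen lt_colLen_ex FI)
open Vale.Agent.P181.H503 (Dec2Stmt ex_le_sum ex_low upper)

/-- cells below the row `3` in the columns of length at most `R1` -/
lemma avail {a R1 : ℕ} (lam : Fin a → ℕ) (h3 : 3 ≤ R1) (hR1 : R1 ≤ a) :
    below 3 lam ≤ ∑ i : Fin (a - 3), (ex lam (3 + i) - ex lam R1) + (R1 - 3) * ex lam R1 +
      below R1 lam := by
  set x := ex lam R1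
  have h1 : ∑ i : Fin (a - 3), (ex lam (3 + i) - x) = ∑ j ∈ Ico 3 a, (ex lam j - x) := by
    rw [Finset.sum_Ico_eq_sum_range, Finset.sum_range]
  rw [h1, ← Finset.sum_Ico_consecutive _ h3 hR1]
  unfold below
  rw [← Finset.sum_Ico_consecutive _ h3 hR1]
  have h2 : ∑ j ∈ Ico 3 R1, ex lam j ≤ ∑ j ∈ Ico 3 R1, (ex lam j - x) + (R1 - 3) * x := by
    have h4 : (R1 - 3) * x = ∑ _j ∈ Ico 3 R1, x := by
      rw [Finset.sum_const, Nat.card_Ico, smul_eq_mul]
    rw [h4, ← Finset.sum_add_distrib]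
    refine Finset.sum_le_sum fun j _ => ?_
    omega
  omega

lemma top_cost {a R1 k : ℕ} (h3 : 3 ≤ R1) (hka : k ≤ a) :
    (((a ^ 3 + 1) ^ (a * 3) : ℕ) : ℝ) * (((a ^ 3 + 1) ^ ((R1 - 3) * a) : ℕ) : ℝ) *
      ((k : ℝ) + 1) ^ a ≤ ((a : ℝ) ^ 3 + 1) ^ (2 * a * R1) * ((a : ℝ) + 1) ^ a := by
  push_cast
  have h5 : (k : ℝ) ≤ a := by exact_mod_cast hka
  rw [← pow_add]
  have h6 : a * 3 + (R1 - 3) * a ≤ 2 * a * R1 := by
    have h8 : a * 3 + (R1 - 3) * a = a * R1 := by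
      rw [Nat.mul_comm (R1 - 3) a, ← Nat.mul_add]
      congr 1
      omega
    have h9 : 2 * a * R1 = 2 * (a * R1) := by ring
    omega
  have h7 : (1 : ℝ) ≤ (a : ℝ) ^ 3 + 1 := by
    have : (0 : ℝ) ≤ (a : ℝ) ^ 3 := by positivity
    linarith
  exact mul_le_mul (pow_le_pow_right₀ h7 h6) (pow_le_pow_left₀ (by positivity) (by linarith) _)
    (by positivity) (by positivity)

lemma digits {k k0 P : ℕ} (hk1 : k0 ≤ k) (hkP : 55 * 9216 * P ≤ k0 ^ 2) :
    55 * P < (k / 96 + 1) ^ 2 := by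
  have h2 := Nat.lt_mul_div_succ k (show 0 < 96 by omega)
  have h3 : k ^ 2 < (96 * (k / 96 + 1)) ^ 2 := Nat.pow_lt_pow_left h2 (by omega)
  have h4 : k0 ^ 2 ≤ k ^ 2 := Nat.pow_le_pow_left hk1 2
  have h5 : (96 * (k / 96 + 1)) ^ 2 = 9216 * (k / 96 + 1) ^ 2 := by ring
  omega

/-- the fixed columns -/
lemma fixed_cols {a R1 K P N0 : ℕ} {lam mu : Fin a → ℕ} (hmu : Antitone mu)
    (hlam : Antitone lam) (hR1 : 4 ≤ R1) (hR1a : R1 ≤ a)
    (heq : ∀ s, 3 ≤ s → ex mu s = ex lam s) (hex0 : ex lam 0 ≤ a ^ 3)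
    (hK : 1 ≤ K) (hNK : N0 = K * P * 2) (hN0 : 0 < N0) (hRN : R1 ≤ N0)
    (hS : 3 * (P * (K * K)) + (R1 - 3) * ex lam R1 + below R1 lam ≤ below 3 lam)
    (hroom2 : R1 * (6 * K + 6) < 3 * (P * (K * K))) :
    ∃ F : Finset (Fin (ex mu 0)),
      3 * (P * (K * (K - 1))) ≤ ∑ c ∈ F, (colLen a (ex mu) c - 3) ∧
      (∀ c ∈ F, colLen a (ex mu) c - 3 ≤ R1 - 3) ∧
      (R1 - 3) * (2 * (3 * K + (∑ c ∈ F, (colLen a (ex mu) c - 3) -
        3 * (P * (K * (K - 1)))) / N0 + 1)) < ∑ c ∈ F, (colLen a (ex mu) c - 3) ∧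
      gt (a - 3) a (muR 3 mu F) ≤ (a ^ 3 + 1) ^ ((R1 - 3) * a) := by
  have hx : ex mu R1 = ex lam R1 := heq _ (by omega)
  have hcl : ∀ c, ex mu R1 ≤ c → colLen a (ex mu) c - 3 ≤ R1 - 3 := by
    intro c hc
    have h2 := (lt_colLen_ex hmu R1 c).1
    have h3 : ¬ R1 < colLen a (ex mu) c := fun h => by
      have := h2 h
      omega
    omega
  have hav := avail lam (R1 := R1) (by omega) hR1a
  have hexeq : ∑ i : Fin (a - 3), (ex mu (3 + i) - ex mu R1) =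
      ∑ i : Fin (a - 3), (ex lam (3 + i) - ex lam R1) := by
    refine Finset.sum_congr rfl fun i _ => ?_
    rw [heq (3 + i) (by omega), hx]
  obtain ⟨y, hy1, hy2⟩ := exists_yR hmu (r := 3) (x := ex mu R1) (Bt := 3 * (P * (K * K)))
    (nmax := R1 - 3) hcl (by omega) (by rw [hexeq]; omega)
  have hKK : P * (K * (K - 1)) + P * K = P * (K * K) := by
    obtain ⟨e, rfl⟩ : ∃ e, K = e + 1 := ⟨K - 1, by omega⟩
    rw [Nat.add_sub_cancel]
    ring
  have hPK : 2 * (P * K) = N0 := by rw [hNK]; ring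
  refine ⟨FI mu (ex mu R1) y, by omega, ?_, ?_, ?_⟩
  · intro c hc
    refine hcl c ?_
    rw [FI, mem_filter] at hc
    exact hc.2.1
  · generalize ∑ c ∈ FI mu (ex mu R1) y, (colLen a (ex mu) c - 3) = BF at hy1 hy2
    have hquot : (BF - 3 * (P * (K * (K - 1)))) / N0 ≤ 2 := by
      rw [← Nat.lt_succ_iff, Nat.div_lt_iff_lt_mul (by omega)]
      omega
    calc (R1 - 3) * (2 * (3 * K + (BF - 3 * (P * (K * (K - 1)))) / N0 + 1))
        ≤ R1 * (6 * K + 6) := by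
          refine Nat.mul_le_mul (by omega) (by omega)
      _ < 3 * (P * (K * K)) := hroom2
      _ ≤ BF := hy1
  · refine H12.gt_rows_le a ?_ ?_
    · intro i
      rw [mu_FIR hmu]
      have h2 : ex mu (3 + i) = ex lam (3 + i) := heq _ (by omega)
      have h3 : ex lam (3 + i) ≤ ex lam 0 := ex_anti hlam (Nat.zero_le _)
      omega
    · intro i hi
      rw [mu_FIR hmu]
      have h2 : ex mu (3 + i) ≤ ex mu R1 := ex_anti hmu (by omega)
      omega

/-- **Case (C), finite form.** -/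
theorem caseC_fin {a b R1 N0 k0 K P : ℕ} {lam : Fin a → ℕ} (hb2 : b ≤ a ^ 2)
    (hlam : Antitone lam) (hsum : ∑ i, lam i = a * b) (hR1 : 4 ≤ R1) (hR1a : R1 ≤ a)
    (hk0 : 192 ≤ k0) (hk0a : k0 ≤ a) (hNK : N0 = K * P * 2) (hN0 : a ≤ N0) (hN432 : 432 ≤ N0)
    (hRN : R1 ≤ N0)
    (hroom : 4 * N0 * (k0 + 2 * 3) + 2 * a + ex lam 3 ≤ ex lam (3 - 1))
    (hZ : 2 * (3 * ex lam 3 + 2 * a * 3 ^ 2 + ∑ i, low 3 lam i) ≤ N0 * k0)
    (hb : 16 * 3 ^ 2 * N0 ≤ b) (hK : 72 * K ≤ k0) (hkP : 55 * 9216 * P ≤ k0 ^ 2)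
    (hS : 3 * (P * (K * K)) + (R1 - 3) * ex lam R1 + below R1 lam ≤ below 3 lam)
    (hroom2 : R1 * (6 * K + 6) < 3 * (P * (K * K)))
    (htop : ((a : ℝ) ^ 3 + 1) ^ (2 * a * R1) * ((a : ℝ) + 1) ^ a ≤ Real.exp N0) :
    plethMult a b a lam ≤ plethMult b a a lam := by
  obtain ⟨N, k, mu, hmu, hsmu, hk1, hk2, hka, heq, hy, h0, hlow, hle⟩ :=
    H503.dec2_stmt a b 3 3 N0 k0 lam hlam hsum (by omega) le_rfl (by omega) (by omega) hk0a
      (by omega) hroom hZ hb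
  have hab : a * b ≤ a ^ 3 := by
    calc a * b ≤ a * a ^ 2 := Nat.mul_le_mul_left _ hb2
      _ = a ^ 3 := by ring
  have hex0 : ex lam 0 ≤ a ^ 3 := (ex_le_sum lam 0).trans (by omega)
  have hlowmu : low 3 mu = low 3 lam := by
    funext i
    simp only [low]
    exact heq _ (by omega)
  -- the upper bound
  have h1 := upper H539.up_stmt (b := b) (show 3 ≤ a by omega) hlam
  have hKpos : 0 < K := by
    rcases Nat.eq_zero_or_pos K with h | h
    · rw [h] at hNK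
      omega
    · exact h
  have hPpos : 0 < P := by
    rcases Nat.eq_zero_or_pos P with h | h
    · rw [h] at hNK
      omega
    · exact h
  obtain ⟨F, hF1, hF2, hF3, hF4⟩ := fixed_cols hmu hlam hR1 hR1a heq hex0 hKpos hNK (by omega) hRN
    hS hroom2
  obtain ⟨cost, hcost⟩ : ∃ cost : ℕ, cost = (a ^ 3 + 1) ^ ((R1 - 3) * a) := ⟨_, rfl⟩
  obtain ⟨top, htopdef⟩ : ∃ top : ℕ, top = (a ^ 3 + 1) ^ (a * 3) := ⟨_, rfl⟩
  rw [← hcost] at hF4
  have htop' : (top : ℝ) * cost * ((k : ℝ) + 1) ^ a ≤ Real.exp N0 := by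
    rw [htopdef, hcost]
    exact (top_cost (by omega) hka).trans htop
  have hN0k : N0 * k0 ≤ N0 * k := Nat.mul_le_mul_left _ hk1
  have hmain := lb10 (a := a) (k := k) (B := N) (n := a) (r := 3) (N := N0) (top := top) (m := 2)
    (h := k / 96) (K := K) (P := P) (nmax := R1 - 3) (cost := cost) mu F hmu hsmu le_rfl hN0
    (by omega) (by omega) (by omega) (by omega) (by omega) (by omega)
    (Nat.mul_div_le k 96) (by omega) hNK (digits hk1 hkP) hF1 hF2 (by omega) hF3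
    hy h0 (by omega) hF4 htop'
  calc plethMult a b a lam ≤ (ex lam 0 + 1) ^ (a * 3) * gt (a - 3) a (low 3 lam) := h1
    _ ≤ top * gt (a - 3) a (low 3 lam) := by
        rw [htopdef]
        exact Nat.mul_le_mul_right _ (Nat.pow_le_pow_left (by omega) _)
    _ = top * gt (a - 3) a (low 3 mu) := by rw [hlowmu]
    _ ≤ plethMult N k a mu := hmain
    _ ≤ _ := hle

end Vale.Agent.P181.H310
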