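import Vale.Agent.P181.H310.CaseC

set_option autoImplicit false

/-!
# P181, T8: case (C), the real numbers
-/

namespace Vale.Agent.P181.H310

section nums

variable {A X L D : ℝ} (hX : 5000 ≤ X) (hA : 1 ≤ A)

include hX in
lemma c_pow (i j : ℕ) (h : i ≤ j) : X ^ i ≤ X ^ j := pow_le_pow_right₀ (by linarith) h

include hX hA in
/-- `D ≥ A X ^ 56` -/
lemma c_D (hL2 : L ^ 2 ≤ A ^ 3 * X ^ 4) (hLD : A ^ 4 * X ^ 60 ≤ L ^ 2 * D) (hD0 : 0 ≤ D) :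
    A * X ^ 56 ≤ D := by
  have hX0 : 0 < X := by linarith
  have hA0 : 0 < A := by linarith
  have h1 : (A ^ 3 * X ^ 4) * (A * X ^ 56) ≤ (A ^ 3 * X ^ 4) * D := by
    calc (A ^ 3 * X ^ 4) * (A * X ^ 56) = A ^ 4 * X ^ 60 := by ring
      _ ≤ L ^ 2 * D := hLD
      _ ≤ (A ^ 3 * X ^ 4) * D := mul_le_mul_of_nonneg_right hL2 hD0
  exact le_of_mul_le_mul_left h1 (by positivity)

include hX hA in
/-- `L ≥ D X ^ 27` -/
lemma c_L (hL0 : 0 ≤ L) (hD0 : 0 < D) (hD3 : D ^ 3 ≤ A ^ 4 * X ^ 6)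
    (hLD : A ^ 4 * X ^ 60 ≤ L ^ 2 * D) : D * X ^ 27 ≤ L := by
  have hX0 : 0 < X := by linarith
  have h1 : D * (D * X ^ 27) ^ 2 ≤ D * L ^ 2 := by
    calc D * (D * X ^ 27) ^ 2 = D ^ 3 * X ^ 54 := by ring
      _ ≤ (A ^ 4 * X ^ 6) * X ^ 54 := mul_le_mul_of_nonneg_right hD3 (by positivity)
      _ = A ^ 4 * X ^ 60 := by ring
      _ ≤ L ^ 2 * D := hLD
      _ = D * L ^ 2 := by ring
  have h2 := le_of_mul_le_mul_left h1 hD0
  exact (pow_le_pow_iff_left₀ (by positivity) hL0 (by norm_num)).1 h2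

include hX hA in
lemma c_L_le (hL0 : 0 ≤ L) (hL2 : L ^ 2 ≤ A ^ 3 * X ^ 4) : 2 * L ≤ A ^ 2 * X ^ 5 := by
  have hX0 : 0 < X := by linarith
  have hA0 : 0 < A := by linarith
  have h1 : (2 * L) ^ 2 ≤ (A ^ 2 * X ^ 5) ^ 2 := by
    calc (2 * L) ^ 2 = 4 * L ^ 2 := by ring
      _ ≤ 4 * (A ^ 3 * X ^ 4) := by linarith
      _ ≤ X * (A ^ 3 * X ^ 4) := by
          have : (4 : ℝ) ≤ X := by linarith
          gcongr
      _ = A ^ 3 * X ^ 5 := by ring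
      _ ≤ A ^ 4 * X ^ 10 := by
          have h2 := c_pow hX 5 10 (by norm_num)
          have h3 : A ^ 3 ≤ A ^ 4 := pow_le_pow_right₀ hA (by norm_num)
          gcongr
      _ = _ := by ring
  exact (pow_le_pow_iff_left₀ (by positivity) (by positivity) (by norm_num)).1 h1

include hX hA in
lemma c_D_le (hD0 : 0 ≤ D) (hD3 : D ^ 3 ≤ A ^ 4 * X ^ 6) : 2 * D ≤ A ^ 2 * X ^ 10 := by
  have hX0 : 0 < X := by linarith
  have hA0 : 0 < A := by linarith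
  have h1 : (2 * D) ^ 3 ≤ (A ^ 2 * X ^ 10) ^ 3 := by
    calc (2 * D) ^ 3 = 8 * D ^ 3 := by ring
      _ ≤ 8 * (A ^ 4 * X ^ 6) := by linarith
      _ ≤ X * (A ^ 4 * X ^ 6) := by
          have : (8 : ℝ) ≤ X := by linarith
          gcongr
      _ = A ^ 4 * X ^ 7 := by ring
      _ ≤ A ^ 6 * X ^ 30 := by
          have h2 := c_pow hX 7 30 (by norm_num)
          have h3 : A ^ 4 ≤ A ^ 6 := pow_le_pow_right₀ hA (by norm_num)
          gcongr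
      _ = _ := by ring
  exact (pow_le_pow_iff_left₀ (by positivity) (by positivity) (by norm_num)).1 h1

end nums

lemma ceil_two {x : ℝ} (hx : 1 ≤ x) : ((⌈x⌉₊ : ℕ) : ℝ) ≤ 2 * x := by
  have := Nat.ceil_lt_add_one (show 0 ≤ x by linarith)
  linarith

lemma floor_half {x : ℝ} (hx : 1 ≤ x) : x / 2 ≤ ((⌊x⌋₊ : ℕ) : ℝ) := by
  have h1 := Nat.lt_floor_add_one x
  have h2 : (1 : ℝ) ≤ ((⌊x⌋₊ : ℕ) : ℝ) := by
    exact_mod_cast Nat.one_le_iff_ne_zero.2 (by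
      intro h
      rw [h] at h1
      simp at h1
      linarith)
  linarith

end Vale.Agent.P181.H310
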