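import Vale.Agent.P181.H310.CaseC2

set_option autoImplicit false

/-!
# P181, T8: case (C) with `X = a ^ δ`
-/

namespace Vale.Agent.P181.H310

open Vale.Agent.P181.T4 (ex low ex_of_lt ex_anti low_anti sum_split)
open Vale.Agent.P181.T7 (below below_eq below_succ below_anti ex_le_below)
open Vale.Agent.P181.H463 (gt)
open Vale.Agent.P181.H280 (plethMult)

/-- the choice of `K` and `P` -/
lemma choose_KP {A X D : ℝ} (hX : 5000 ≤ X) (hA : 1 ≤ A) (hD : A * X ^ 56 ≤ D)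
    (hD2 : 2 * D ≤ A ^ 2 * X ^ 10) : ∃ K P : ℕ, 1 ≤ K ∧ (K : ℝ) * (A * X ^ 6) ≤ D ∧
      D ≤ 2 * K * (A * X ^ 6) ∧ A * X ^ 4 ≤ K * P * 2 ∧ (K : ℝ) * P ≤ A * X ^ 4 := by
  have hX0 : 0 < X := by linarith
  have hA0 : 0 < A := by linarith
  have hAX : 0 < A * X ^ 6 := by positivity
  obtain ⟨K, hK⟩ : ∃ K : ℕ, K = ⌊D / (A * X ^ 6)⌋₊ := ⟨_, rfl⟩
  have h1 : 1 ≤ D / (A * X ^ 6) := by
    rw [le_div_iff₀ hAX, one_mul]
    refine le_trans ?_ hD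
    have := c_pow hX 6 56 (by norm_num)
    gcongr
  have h2 : D / (A * X ^ 6) / 2 ≤ K := by rw [hK]; exact floor_half h1
  have h3 : (K : ℝ) ≤ D / (A * X ^ 6) := by rw [hK]; exact Nat.floor_le (by linarith)
  have hK1 : 1 ≤ K := by
    rw [hK]
    exact Nat.le_floor (by exact_mod_cast h1)
  have hK1R : (1 : ℝ) ≤ K := by exact_mod_cast hK1
  have hK0 : (0 : ℝ) < K := by linarith
  obtain ⟨P, hP⟩ : ∃ P : ℕ, P = ⌈A * X ^ 4 / (2 * K)⌉₊ := ⟨_, rfl⟩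
  have h4 : 1 ≤ A * X ^ 4 / (2 * K) := by
    rw [le_div_iff₀ (by positivity), one_mul]
    have h5 : (K : ℝ) * (A * X ^ 6) ≤ D := (le_div_iff₀ hAX).1 h3
    have h6 : 2 * (K : ℝ) * (A * X ^ 6) ≤ (A * X ^ 4) * (A * X ^ 6) := by
      calc 2 * (K : ℝ) * (A * X ^ 6) = 2 * ((K : ℝ) * (A * X ^ 6)) := by ring
        _ ≤ 2 * D := by linarith
        _ ≤ A ^ 2 * X ^ 10 := hD2
        _ = (A * X ^ 4) * (A * X ^ 6) := by ring
    exact le_of_mul_le_mul_right h6 hAX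
  have h5 : A * X ^ 4 / (2 * K) ≤ P := by rw [hP]; exact Nat.le_ceil _
  have h6 : (P : ℝ) ≤ 2 * (A * X ^ 4 / (2 * K)) := by rw [hP]; exact ceil_two h4
  refine ⟨K, P, hK1, (le_div_iff₀ hAX).1 h3, ?_, ?_, ?_⟩
  · rw [div_div, div_le_iff₀ (by positivity)] at h2
    calc D ≤ K * (A * X ^ 6 * 2) := h2
      _ = _ := by ring
  · rw [div_le_iff₀ (by positivity)] at h5
    calc A * X ^ 4 ≤ P * (2 * K) := h5
      _ = _ := by ring
  · calc (K : ℝ) * P ≤ K * (2 * (A * X ^ 4 / (2 * K))) := mul_le_mul_of_nonneg_left h6 hK0.le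
      _ = A * X ^ 4 := by field_simp


section checks

variable {A X L D N0 k0 K P R1 : ℝ}

lemma q6 {E : ℝ} (hX : 5000 ≤ X) (hA1 : 1 ≤ A) (hk0 : 0 ≤ k0) (hN0 : 0 ≤ N0)
    (n2 : N0 ≤ 2 * (A * X ^ 4)) (k2' : k0 * (A * X ^ 5) ≤ 2 * L) (hL83 : A * X ^ 83 ≤ L)
    (hex3 : E ≤ D) (hAD : A ≤ D) (hDL : D * X ^ 2 ≤ L) :
    4 * N0 * (k0 + 6) + 2 * A + E ≤ L := by
  have hX0 : 0 < X := by linarith
  have hA0 : 0 < A := by linarith
  have hD0 : 0 < D := by linarith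
  have g1 : 4 * N0 * k0 * X ≤ 16 * L := by
    calc 4 * N0 * k0 * X ≤ 4 * (2 * (A * X ^ 4)) * k0 * X := by gcongr
      _ = 8 * (k0 * (A * X ^ 5)) := by ring
      _ ≤ 8 * (2 * L) := by gcongr
      _ = 16 * L := by ring
  have g2 : 24 * N0 * X ≤ L := by
    calc 24 * N0 * X ≤ 24 * (2 * (A * X ^ 4)) * X := by gcongr
      _ = 48 * (A * X ^ 5) := by ring
      _ ≤ X * (A * X ^ 5) := by
          have : (48 : ℝ) ≤ X := by linarith
          gcongr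
      _ = A * X ^ 6 := by ring
      _ ≤ A * X ^ 83 := by
          have := c_pow hX 6 83 (by norm_num)
          gcongr
      _ ≤ L := hL83
  have g3 : (2 * A + E) * X ≤ L := by
    calc (2 * A + E) * X ≤ (3 * D) * X := by
          apply mul_le_mul_of_nonneg_right _ hX0.le
          linarith
      _ ≤ (X * D) * X := by
          have : (3 : ℝ) ≤ X := by linarith
          gcongr
      _ = D * X ^ 2 := by ring
      _ ≤ L := hDL
  have hL0 : 0 < L := lt_of_lt_of_le (by positivity) hL83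
  have g4 : 18 * L ≤ L * X := by
    have : (18 : ℝ) ≤ X := by linarith
    nlinarith
  have h1 : (4 * N0 * (k0 + 6) + 2 * A + E) * X ≤ L * X := by
    calc (4 * N0 * (k0 + 6) + 2 * A + E) * X
        = 4 * N0 * k0 * X + 24 * N0 * X + (2 * A + E) * X := by ring
      _ ≤ L * X := by linarith
  exact le_of_mul_le_mul_right h1 hX0

lemma q7 {E : ℝ} (hX : 5000 ≤ X) (hA1 : 1 ≤ A) (hk0 : 0 ≤ k0)
    (n1 : A * X ^ 4 ≤ N0) (k1' : L ≤ k0 * (A * X ^ 5))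
    (hex3 : E ≤ D) (hAD : A ≤ D) (hDL : D * X ^ 2 ≤ L) :
    2 * (3 * E + 18 * A + D) ≤ N0 * k0 := by
  have hX0 : 0 < X := by linarith
  have hA0 : 0 < A := by linarith
  have hD0 : 0 < D := by linarith
  have h1 : (2 * (3 * E + 18 * A + D)) * X ≤ (N0 * k0) * X := by
    calc (2 * (3 * E + 18 * A + D)) * X ≤ (44 * D) * X := by
          apply mul_le_mul_of_nonneg_right _ hX0.le
          linarith
      _ ≤ (X * D) * X := by
          have : (44 : ℝ) ≤ X := by linarith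
          gcongr
      _ = D * X ^ 2 := by ring
      _ ≤ L := hDL
      _ ≤ k0 * (A * X ^ 5) := k1'
      _ = (A * X ^ 4) * k0 * X := by ring
      _ ≤ N0 * k0 * X := by gcongr
  exact le_of_mul_le_mul_right h1 hX0

lemma q8 {b : ℝ} (hX : 5000 ≤ X) (hA1 : 1 ≤ A) (n2 : N0 ≤ 2 * (A * X ^ 4))
    (hb : A * X ^ 9 ≤ b) : 144 * N0 ≤ b := by
  have hX0 : 0 < X := by linarith
  have hA0 : 0 < A := by linarith
  refine le_trans ?_ hb
  calc 144 * N0 ≤ 144 * (2 * (A * X ^ 4)) := by gcongr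
    _ = 288 * (A * X ^ 4) := by ring
    _ ≤ X * (A * X ^ 4) := by
        have : (288 : ℝ) ≤ X := by linarith
        gcongr
    _ = A * X ^ 5 := by ring
    _ ≤ A * X ^ 9 := by
        have := c_pow hX 5 9 (by norm_num)
        gcongr

lemma q9 (hX : 5000 ≤ X) (hA1 : 1 ≤ A) (hK0 : 0 ≤ K) (hD0 : 0 ≤ D)
    (k1' : L ≤ k0 * (A * X ^ 5)) (hKD : K * (A * X ^ 6) ≤ D) (hLge : D * X ^ 27 ≤ L) :
    72 * K ≤ k0 := by
  have hX0 : 0 < X := by linarith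
  have hA0 : 0 < A := by linarith
  have hAX5 : 0 < A * X ^ 5 := by positivity
  have h2 : (72 * K) * (A * X ^ 5) ≤ k0 * (A * X ^ 5) := by
    refine le_trans ?_ k1'
    calc (72 * K) * (A * X ^ 5) ≤ (X * K) * (A * X ^ 5) := by
          have : (72 : ℝ) ≤ X := by linarith
          gcongr
      _ = K * (A * X ^ 6) := by ring
      _ ≤ D := hKD
      _ = D * 1 := by ring
      _ ≤ D * X ^ 27 := by
          have : 1 ≤ X ^ 27 := one_le_pow₀ (by linarith)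
          gcongr
      _ ≤ L := hLge
  exact le_of_mul_le_mul_right h2 hAX5

lemma q10 (hX : 5000 ≤ X) (hA1 : 1 ≤ A) (hK0 : 0 ≤ K) (hP0 : 0 ≤ P) (hD0 : 0 < D)
    (hL0 : 0 ≤ L)
    (k1' : L ≤ k0 * (A * X ^ 5)) (hDK : D ≤ 2 * K * (A * X ^ 6)) (hN2 : K * P ≤ A * X ^ 4)
    (hLD : A ^ 4 * X ^ 60 ≤ L ^ 2 * D) : 506880 * P ≤ k0 ^ 2 := by
  have hX0 : 0 < X := by linarith
  have hA0 : 0 < A := by linarith
  have hpos : 0 < D * (A * X ^ 5) ^ 2 := by positivity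
  have h1 : (506880 * P) * (D * (A * X ^ 5) ^ 2) ≤
      1013760 * ((A * X ^ 4) * (A * X ^ 6)) * (A * X ^ 5) ^ 2 := by
    calc (506880 * P) * (D * (A * X ^ 5) ^ 2)
        ≤ (506880 * P) * ((2 * K * (A * X ^ 6)) * (A * X ^ 5) ^ 2) := by gcongr
      _ = 1013760 * ((K * P) * (A * X ^ 6)) * (A * X ^ 5) ^ 2 := by ring
      _ ≤ 1013760 * ((A * X ^ 4) * (A * X ^ 6)) * (A * X ^ 5) ^ 2 := by gcongr
  have h3 : 1013760 * ((A * X ^ 4) * (A * X ^ 6)) * (A * X ^ 5) ^ 2 ≤ A ^ 4 * X ^ 60 := by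
    calc 1013760 * ((A * X ^ 4) * (A * X ^ 6)) * (A * X ^ 5) ^ 2
        = 1013760 * (A ^ 4 * X ^ 20) := by ring
      _ ≤ X ^ 2 * (A ^ 4 * X ^ 20) := by
          have : (1013760 : ℝ) ≤ X ^ 2 := by nlinarith
          gcongr
      _ = A ^ 4 * X ^ 22 := by ring
      _ ≤ A ^ 4 * X ^ 60 := by
          have := c_pow hX 22 60 (by norm_num)
          gcongr
  have h4 : L ^ 2 * D ≤ k0 ^ 2 * (D * (A * X ^ 5) ^ 2) := by
    calc L ^ 2 * D ≤ (k0 * (A * X ^ 5)) ^ 2 * D := by gcongr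
      _ = k0 ^ 2 * (D * (A * X ^ 5) ^ 2) := by ring
  exact le_of_mul_le_mul_right (h1.trans (h3.trans (hLD.trans h4))) hpos

lemma q11 {B : ℝ} (hX : 5000 ≤ X) (hA1 : 1 ≤ A) (hK0 : 0 ≤ K) (hP0 : 0 ≤ P) (hD0 : 0 < D)
    (hB0 : 0 ≤ B) (hR0 : 0 ≤ R1) (hR1 : R1 ≤ X ^ 2) (hR1D : B * X ^ 4 ≤ D)
    (hKD : K * (A * X ^ 6) ≤ D) (hN2 : K * P ≤ A * X ^ 4) :
    3 * (P * (K * K)) + R1 * B ≤ D := by
  have hX0 : 0 < X := by linarith
  have hA0 : 0 < A := by linarith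
  have g1 : 3 * (P * (K * K)) * X ^ 2 ≤ 3 * D := by
    calc 3 * (P * (K * K)) * X ^ 2 = 3 * (K * P) * (K * X ^ 2) := by ring
      _ ≤ 3 * (A * X ^ 4) * (K * X ^ 2) := by gcongr
      _ = 3 * (K * (A * X ^ 6)) := by ring
      _ ≤ 3 * D := by linarith
  have g2 : R1 * B * X ^ 2 ≤ D := by
    calc R1 * B * X ^ 2 ≤ X ^ 2 * B * X ^ 2 := by gcongr
      _ = B * X ^ 4 := by ring
      _ ≤ D := hR1D
  have g3 : 4 * D ≤ D * X ^ 2 := by
    have : (4 : ℝ) ≤ X ^ 2 := by nlinarith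
    nlinarith
  have h1 : (3 * (P * (K * K)) + R1 * B) * X ^ 2 ≤ D * X ^ 2 := by
    calc (3 * (P * (K * K)) + R1 * B) * X ^ 2
        = 3 * (P * (K * K)) * X ^ 2 + R1 * B * X ^ 2 := by ring
      _ ≤ D * X ^ 2 := by linarith
  exact le_of_mul_le_mul_right h1 (by positivity)

lemma q12 (hX : 5000 ≤ X) (hA1 : 1 ≤ A) (hK1 : 1 ≤ K) (hP0 : 0 ≤ P)
    (hR0 : 0 ≤ R1) (hR1 : R1 ≤ X ^ 2) (hN1 : A * X ^ 4 ≤ K * P * 2) :
    R1 * (6 * K + 6) < 3 * (P * (K * K)) := by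
  have hX0 : 0 < X := by linarith
  have hA0 : 0 < A := by linarith
  have hK0 : 0 < K := by linarith
  have h1 : R1 * (6 * K + 6) ≤ 12 * (X ^ 2 * K) := by
    calc R1 * (6 * K + 6) ≤ X ^ 2 * (12 * K) := by
          apply mul_le_mul hR1 _ (by positivity) (by positivity)
          linarith
      _ = 12 * (X ^ 2 * K) := by ring
  have h2 : 12 * (X ^ 2 * K) < X ^ 4 * K := by
    have : (12 : ℝ) < X ^ 2 := by nlinarith
    have h3 : 0 < X ^ 2 * K := by positivity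
    calc 12 * (X ^ 2 * K) < X ^ 2 * (X ^ 2 * K) := mul_lt_mul_of_pos_right this h3
      _ = X ^ 4 * K := by ring
  have h3 : X ^ 4 * K ≤ A * X ^ 4 * K := by
    have h4 : 0 ≤ X ^ 4 * K := by positivity
    calc X ^ 4 * K = 1 * (X ^ 4 * K) := by ring
      _ ≤ A * (X ^ 4 * K) := mul_le_mul_of_nonneg_right hA1 h4
      _ = A * X ^ 4 * K := by ring
  have h5 : A * X ^ 4 * K ≤ 2 * (P * (K * K)) := by
    calc A * X ^ 4 * K ≤ (K * P * 2) * K := mul_le_mul_of_nonneg_right hN1 hK0.le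
      _ = _ := by ring
  have h6 : 0 ≤ P * (K * K) := by positivity
  linarith

lemma q14 (hX : 5000 ≤ X) (hA1 : 1 ≤ A) (hR0 : 0 ≤ R1) (hR1 : R1 ≤ X ^ 2)
    (hlg : 10 * Real.log A ≤ X) (n1 : A * X ^ 4 ≤ N0) :
    (8 * A * R1 + 2 * A) * Real.log A ≤ N0 := by
  have hX0 : 0 < X := by linarith
  have hA0 : 0 < A := by linarith
  refine le_trans ?_ n1
  have hl0 : 0 ≤ Real.log A := Real.log_nonneg hA1
  have h2 : A ≤ A * X ^ 2 := by
    have : 1 ≤ X ^ 2 := one_le_pow₀ (by linarith)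
    nlinarith
  calc (8 * A * R1 + 2 * A) * Real.log A ≤ (8 * A * X ^ 2 + 2 * (A * X ^ 2)) * Real.log A := by
        gcongr
    _ = (A * X ^ 2) * (10 * Real.log A) := by ring
    _ ≤ (A * X ^ 2) * X := by gcongr
    _ = A * X ^ 3 := by ring
    _ ≤ A * X ^ 4 := by
        have := c_pow hX 3 4 (by norm_num)
        gcongr

/-- the choice of `k0` -/
lemma choose_k0 (hX : 5000 ≤ X) (hA1 : 1 ≤ A) (hL83 : A * X ^ 83 ≤ L)
    (hLle : 2 * L ≤ A ^ 2 * X ^ 5) : ∃ k0 : ℕ, 192 ≤ k0 ∧ (k0 : ℝ) ≤ A ∧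
      L ≤ k0 * (A * X ^ 5) ∧ (k0 : ℝ) * (A * X ^ 5) ≤ 2 * L := by
  have hX0 : 0 < X := by linarith
  have hA0 : 0 < A := by linarith
  have hAX5 : 0 < A * X ^ 5 := by positivity
  obtain ⟨k0, hk0⟩ : ∃ k0 : ℕ, k0 = ⌈L / (A * X ^ 5)⌉₊ := ⟨_, rfl⟩
  have hk78 : X ^ 78 ≤ L / (A * X ^ 5) := by
    rw [le_div_iff₀ hAX5]
    calc X ^ 78 * (A * X ^ 5) = A * X ^ 83 := by ring
      _ ≤ L := hL83
  have hX78 : (192 : ℝ) ≤ X ^ 78 := by
    calc (192 : ℝ) ≤ X ^ 1 := by rw [pow_one]; linarith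
      _ ≤ X ^ 78 := c_pow hX 1 78 (by norm_num)
  have k1 : L / (A * X ^ 5) ≤ k0 := by rw [hk0]; exact Nat.le_ceil _
  have k2 : (k0 : ℝ) ≤ 2 * (L / (A * X ^ 5)) := by
    rw [hk0]
    exact ceil_two (by linarith)
  have k1' : L ≤ k0 * (A * X ^ 5) := (div_le_iff₀ hAX5).1 k1
  have k2' : (k0 : ℝ) * (A * X ^ 5) ≤ 2 * L := by
    calc (k0 : ℝ) * (A * X ^ 5) ≤ (2 * (L / (A * X ^ 5))) * (A * X ^ 5) :=
          mul_le_mul_of_nonneg_right k2 hAX5.le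
      _ = 2 * L := by field_simp
  refine ⟨k0, ?_, ?_, k1', k2'⟩
  · have : (192 : ℝ) ≤ k0 := by linarith
    exact_mod_cast this
  · have h2 : (k0 : ℝ) * (A * X ^ 5) ≤ A * (A * X ^ 5) := by
      calc (k0 : ℝ) * (A * X ^ 5) ≤ 2 * L := k2'
        _ ≤ A ^ 2 * X ^ 5 := hLle
        _ = A * (A * X ^ 5) := by ring
    exact le_of_mul_le_mul_right h2 hAX5

/-- all the choices, in the reals -/
lemma choose_all (hX : 5000 ≤ X) (hA1 : 1 ≤ A) (hL0 : 0 ≤ L) (hD00 : 0 ≤ D)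
    (hL2 : L ^ 2 ≤ A ^ 3 * X ^ 4) (hD3 : D ^ 3 ≤ A ^ 4 * X ^ 6)
    (hLD : A ^ 4 * X ^ 60 ≤ L ^ 2 * D) :
    0 < D ∧ A ≤ D ∧ D * X ^ 2 ≤ L ∧ A * X ^ 83 ≤ L ∧ D * X ^ 27 ≤ L ∧
    (∃ K P : ℕ, 1 ≤ K ∧ (K : ℝ) * (A * X ^ 6) ≤ D ∧
      D ≤ 2 * K * (A * X ^ 6) ∧ A * X ^ 4 ≤ K * P * 2 ∧ (K : ℝ) * P ≤ A * X ^ 4) ∧
    (∃ k0 : ℕ, 192 ≤ k0 ∧ (k0 : ℝ) ≤ A ∧
      L ≤ k0 * (A * X ^ 5) ∧ (k0 : ℝ) * (A * X ^ 5) ≤ 2 * L) := by
  have hX0 : 0 < X := by linarith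
  have hA0 : 0 < A := by linarith
  have hDge := c_D hX hA1 hL2 hLD hD00
  have hD0 : 0 < D := lt_of_lt_of_le (by positivity) hDge
  have hLge := c_L hX hA1 hL0 hD0 hD3 hLD
  have hLle := c_L_le hX hA1 hL0 hL2
  have hDle := c_D_le hX hA1 hD00 hD3
  have hL83 : A * X ^ 83 ≤ L := by
    calc A * X ^ 83 = (A * X ^ 56) * X ^ 27 := by ring
      _ ≤ D * X ^ 27 := mul_le_mul_of_nonneg_right hDge (by positivity)
      _ ≤ L := hLge
  have hAD : A ≤ D := by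
    refine le_trans ?_ hDge
    have : 1 ≤ X ^ 56 := one_le_pow₀ (by linarith)
    nlinarith
  have hDL : D * X ^ 2 ≤ L := by
    refine le_trans ?_ hLge
    have := c_pow hX 2 27 (by norm_num)
    gcongr
  exact ⟨hD0, hAD, hDL, hL83, hLge, choose_KP hX hA1 hDge hDle, choose_k0 hX hA1 hL83 hLle⟩

end checks

end Vale.Agent.P181.H310
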