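import Vale.Agent.P181.H310.CaseC3

set_option autoImplicit false

/-!
# P181, T8: case (C) with `X = a ^ δ`, the real form
-/

namespace Vale.Agent.P181.H310

open Vale.Agent.P181.T4 (ex low ex_of_lt ex_anti low_anti sum_split)
open Vale.Agent.P181.T7 (below below_eq below_succ below_anti ex_le_below)
open Vale.Agent.P181.H463 (gt)
open Vale.Agent.P181.H280 (plethMult)

/-- the middle layer: everything in `ℕ` from the real checks -/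
lemma caseC_mid {a b R1 K P k0 : ℕ} {lam : Fin a → ℕ} {X : ℝ} (ha : 2 ≤ a) (hX : 5000 ≤ X)
    (hXa : X ^ 9 ≤ a) (hlg : 10 * Real.log a ≤ X) (hb2 : b ≤ a ^ 2) (hb : (a : ℝ) * X ^ 9 ≤ b)
    (hlam : Antitone lam) (hsum : ∑ i, lam i = a * b)
    (hLD : (a : ℝ) ^ 4 * X ^ 60 ≤ (ex lam 2 : ℝ) ^ 2 * below 3 lam)
    (hR4 : 4 ≤ R1) (hR1 : (R1 : ℝ) ≤ X ^ 2)
    (hR1D : (below R1 lam : ℝ) * X ^ 4 ≤ below 3 lam)
    (hD0 : (0 : ℝ) < below 3 lam) (hAD : (a : ℝ) ≤ below 3 lam)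
    (hDL : (below 3 lam : ℝ) * X ^ 2 ≤ ex lam 2) (hL83 : (a : ℝ) * X ^ 83 ≤ ex lam 2)
    (hLge : (below 3 lam : ℝ) * X ^ 27 ≤ ex lam 2)
    (hK1 : 1 ≤ K) (hKD : (K : ℝ) * (a * X ^ 6) ≤ below 3 lam)
    (hDK : (below 3 lam : ℝ) ≤ 2 * K * (a * X ^ 6)) (hN1 : (a : ℝ) * X ^ 4 ≤ K * P * 2)
    (hN2 : (K : ℝ) * P ≤ a * X ^ 4)
    (m1 : 192 ≤ k0) (m2' : (k0 : ℝ) ≤ a) (k1' : (ex lam 2 : ℝ) ≤ k0 * (a * X ^ 5))
    (k2' : (k0 : ℝ) * (a * X ^ 5) ≤ 2 * ex lam 2) :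
    plethMult a b a lam ≤ plethMult b a a lam := by
  have hX0 : 0 < X := by linarith
  have ha1 : (1 : ℝ) ≤ a := by exact_mod_cast (by omega : 1 ≤ a)
  have ha0 : (0 : ℝ) < a := by linarith
  have m2 : k0 ≤ a := by exact_mod_cast m2'
  have hK1R : (1 : ℝ) ≤ K := by exact_mod_cast hK1
  have hK0 : (0 : ℝ) ≤ K := by linarith
  have hP0 : (0 : ℝ) ≤ P := Nat.cast_nonneg _
  have hk00 : (0 : ℝ) ≤ k0 := Nat.cast_nonneg _
  have hR10 : (0 : ℝ) ≤ R1 := Nat.cast_nonneg _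
  obtain ⟨N0, hN0def⟩ : ∃ N0 : ℕ, N0 = K * P * 2 := ⟨_, rfl⟩
  have n1 : (a : ℝ) * X ^ 4 ≤ N0 := by
    rw [hN0def]
    push_cast
    exact hN1
  have n2 : (N0 : ℝ) ≤ 2 * (a * X ^ 4) := by
    rw [hN0def]
    push_cast
    linarith
  have hN00 : (0 : ℝ) ≤ N0 := Nat.cast_nonneg _
  have hAX4 : (a : ℝ) ≤ a * X ^ 4 := by
    have : 1 ≤ X ^ 4 := one_le_pow₀ (by linarith)
    nlinarith
  have m3 : a ≤ N0 := by
    have h1 : (a : ℝ) ≤ N0 := by linarith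
    exact_mod_cast h1
  have hX2A : X ^ 2 ≤ a := (c_pow hX 2 9 (by norm_num)).trans hXa
  have m4 : 432 ≤ N0 := by
    have h1 : (432 : ℝ) ≤ N0 := by
      refine le_trans ?_ n1
      calc (432 : ℝ) ≤ X ^ 2 := by nlinarith
        _ ≤ a := hX2A
        _ ≤ _ := hAX4
    exact_mod_cast h1
  have m5 : R1 ≤ a := by
    have h1 : (R1 : ℝ) ≤ a := by linarith
    exact_mod_cast h1
  have hex3 : (ex lam 3 : ℝ) ≤ below 3 lam := by exact_mod_cast ex_le_below lam 3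
  have hL0 : (0 : ℝ) ≤ ex lam 2 := Nat.cast_nonneg _
  have hsumlow : ∑ i, low 3 lam i = below 3 lam := by
    rw [below_eq (by omega) lam]
  have m6 : 4 * N0 * (k0 + 2 * 3) + 2 * a + ex lam 3 ≤ ex lam (3 - 1) := by
    have h := q6 hX ha1 hk00 hN00 n2 k2' hL83 hex3 hAD hDL
    have h3 : 4 * N0 * (k0 + 6) + 2 * a + ex lam 3 ≤ ex lam 2 := by exact_mod_cast h
    exact h3
  have m7 : 2 * (3 * ex lam 3 + 2 * a * 3 ^ 2 + ∑ i, low 3 lam i) ≤ N0 * k0 := by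
    have h := q7 hX ha1 hk00 n1 k1' hex3 hAD hDL
    have h3 : 2 * (3 * ex lam 3 + 18 * a + below 3 lam) ≤ N0 * k0 := by exact_mod_cast h
    rw [hsumlow]
    refine le_trans (le_of_eq ?_) h3
    ring
  have m8 : 16 * 3 ^ 2 * N0 ≤ b := by
    have h := q8 hX ha1 n2 hb
    have h3 : 144 * N0 ≤ b := by exact_mod_cast h
    refine le_trans (le_of_eq ?_) h3
    ring
  have m9 : 72 * K ≤ k0 := by
    have h := q9 hX ha1 hK0 hD0.le k1' hKD hLge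
    exact_mod_cast h
  have m10 : 55 * 9216 * P ≤ k0 ^ 2 := by
    have h := q10 hX ha1 hK0 hP0 hD0 hL0 k1' hDK hN2 hLD
    have h3 : 506880 * P ≤ k0 ^ 2 := by exact_mod_cast h
    refine le_trans (le_of_eq ?_) h3
    ring
  have m11 : 3 * (P * (K * K)) + (R1 - 3) * ex lam R1 + below R1 lam ≤ below 3 lam := by
    have h0 : (R1 - 3) * ex lam R1 + below R1 lam ≤ R1 * below R1 lam := by
      have h1 := ex_le_below lam R1
      have h2 : (R1 - 3) * ex lam R1 ≤ (R1 - 3) * below R1 lam := Nat.mul_le_mul_left _ h1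
      have h3 : (R1 - 3) * below R1 lam + below R1 lam ≤ R1 * below R1 lam := by
        have h4 : (R1 - 3) * below R1 lam + below R1 lam = (R1 - 3 + 1) * below R1 lam := by ring
        rw [h4]
        exact Nat.mul_le_mul_right _ (by omega)
      omega
    have h := q11 (B := below R1 lam) hX ha1 hK0 hP0 hD0 (Nat.cast_nonneg _) hR10 hR1 hR1D hKD
      hN2
    have h3 : 3 * (P * (K * K)) + R1 * below R1 lam ≤ below 3 lam := by exact_mod_cast h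
    omega
  have m12 : R1 * (6 * K + 6) < 3 * (P * (K * K)) := by
    have h := q12 hX ha1 hK1R hP0 hR10 hR1 hN1
    exact_mod_cast h
  have m13 : R1 ≤ N0 := m5.trans m3
  have m14 := H503.top_le (R := R1) (N0 := N0) ha (q14 hX ha1 hR10 hR1 hlg n1)
  exact caseC_fin hb2 hlam hsum hR4 m5 m1 m2 hN0def m3 m4 m13 m6 m7 m8 m9 m10 m11 m12 m14

theorem caseC_real {a b R1 : ℕ} {lam : Fin a → ℕ} {X : ℝ} (ha : 2 ≤ a) (hX : 5000 ≤ X)
    (hXa : X ^ 9 ≤ a) (hlg : 10 * Real.log a ≤ X) (hb2 : b ≤ a ^ 2) (hb : (a : ℝ) * X ^ 9 ≤ b)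
    (hlam : Antitone lam) (hsum : ∑ i, lam i = a * b)
    (hL2 : (ex lam 2 : ℝ) ^ 2 ≤ (a : ℝ) ^ 3 * X ^ 4)
    (hD3 : (below 3 lam : ℝ) ^ 3 ≤ (a : ℝ) ^ 4 * X ^ 6)
    (hLD : (a : ℝ) ^ 4 * X ^ 60 ≤ (ex lam 2 : ℝ) ^ 2 * below 3 lam)
    (hR4 : 4 ≤ R1) (hR1 : (R1 : ℝ) ≤ X ^ 2)
    (hR1D : (below R1 lam : ℝ) * X ^ 4 ≤ below 3 lam) :
    plethMult a b a lam ≤ plethMult b a a lam := by
  have ha1 : (1 : ℝ) ≤ a := by exact_mod_cast (by omega : 1 ≤ a)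
  obtain ⟨hD0, hAD, hDL, hL83, hLge, ⟨K, P, hK1, hKD, hDK, hN1, hN2⟩, k0, m1, m2, k1, k2⟩ :=
    choose_all hX ha1 (Nat.cast_nonneg _) (Nat.cast_nonneg _) hL2 hD3 hLD
  exact caseC_mid ha hX hXa hlg hb2 hb hlam hsum hLD hR4 hR1 hR1D hD0 hAD hDL hL83 hLge hK1 hKD
    hDK hN1 hN2 m1 m2 k1 k2

end Vale.Agent.P181.H310
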