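import Vale.Agent.P181.H699.CaseI8
import Vale.Agent.P181.H699.Use6
import Vale.Agent.P181.H539.UpStmt
import Vale.Agent.P181.H463.CutRevStmt
import Vale.Agent.P181.S6.SpecG

set_option autoImplicit false

/-!
# P181, T8: the lower bound for every degree `k ≥ a ^ (2 ε)` from LB9 of S6 and LB6s, and case I
with the threshold `a ^ (1 + ε)`
-/

open Filter

namespace Vale.Agent.P181.T8

open Vale.Agent.P181.T4 Vale.Agent.P181.T7 Vale.Agent.P181.H280 Vale.Agent.P181.H463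

/-- Eventual inequalities. -/
theorem ev_lball (ε : ℝ) (hε : 0 < ε) (C : ℕ) : ∀ᶠ a : ℕ in atTop,
    2 ≤ (a : ℝ) ^ ε ∧ (1 + Real.log a) * Real.log a ^ C ≤ (a : ℝ) ^ ε := by
  have h1 : ∀ᶠ x : ℝ in atTop, 2 ≤ x ^ ε := (tendsto_rpow_atTop hε).eventually_ge_atTop 2
  have h2 : ∀ᶠ x : ℝ in atTop, 1 ≤ Real.log x := Real.tendsto_log_atTop.eventually_ge_atTop 1
  have h3 : ∀ᶠ x : ℝ in atTop, ‖Real.log x ^ ((C + 1 : ℕ) : ℝ)‖ ≤ 1 / 2 * ‖x ^ ε‖ :=
    (isLittleO_log_rpow_rpow_atTop ((C + 1 : ℕ) : ℝ) hε).bound (by positivity)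
  have h4 : ∀ᶠ x : ℝ in atTop, 2 ≤ x ^ ε ∧ (1 + Real.log x) * Real.log x ^ C ≤ x ^ ε := by
    filter_upwards [h1, h2, h3, eventually_ge_atTop (0 : ℝ)] with x hx1 hx2 hx3 hx0
    refine ⟨hx1, ?_⟩
    rw [Real.norm_of_nonneg (Real.rpow_nonneg hx0 ε), Real.rpow_natCast,
      Real.norm_of_nonneg (by positivity), pow_succ] at hx3
    have h5 : 0 ≤ Real.log x ^ C := by positivity
    have h6 : (1 + Real.log x) * Real.log x ^ C ≤ (2 * Real.log x) * Real.log x ^ C :=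
      mul_le_mul_of_nonneg_right (by linarith) h5
    have h7 : (2 * Real.log x) * Real.log x ^ C = 2 * (Real.log x ^ C * Real.log x) := by ring
    linarith
  exact tendsto_natCast_atTop_atTop.eventually h4

/-- **The lower bound for all degrees `k ≥ a ^ (2 ε)`.** -/
theorem lb_all (h9 : S6.LB9) (ε : ℝ) (hε : 0 < ε) (hε1 : ε ≤ 1 / 2) : ∀ᶠ a : ℕ in atTop,
    ∀ (k b n : ℕ) (lam : Fin n → ℕ), Hyp2 ε a k b n lam → (a : ℝ) ^ (3 * ε) ≤ (k : ℝ) ^ 2 →
    (gt n a lam : ℝ) * Real.exp (2 * b) ≤ plethMult b k n lam := by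
  obtain ⟨C, hC⟩ := h9 ε 1 hε one_pos
  filter_upwards [lb6s ε hε hε1, hC, ev_lball ε hε C, eventually_ge_atTop 1] with a h6 h9a
    ⟨he1, he2⟩ ha k b n lam hyp hk
  have ha1 : (1 : ℝ) ≤ a := by exact_mod_cast ha
  have ha0 : (0 : ℝ) < a := by linarith
  obtain ⟨l, hl1, hln, hmass, hP⟩ := h6 k b n lam hyp
  obtain ⟨hna, hkε, hka, hbε, hb2, hlam, hsum, -⟩ := hyp
  rcases le_total (l : ℝ) ((a : ℝ) ^ ε) with hl | hl
  · have h1 : (l : ℝ) * (a : ℝ) ^ (2 * ε) ≤ (k : ℝ) ^ 2 := by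
      calc (l : ℝ) * (a : ℝ) ^ (2 * ε) ≤ (a : ℝ) ^ ε * (a : ℝ) ^ (2 * ε) := by gcongr
        _ = (a : ℝ) ^ (3 * ε) := by
            rw [← Real.rpow_add ha0]
            congr 1
            ring
        _ ≤ _ := hk
    obtain ⟨P, hfam, hP⟩ := hP h1
    refine hP.trans ?_
    exact_mod_cast Vale.Agent.P181.H699.use6 k b n P lam hfam
  · refine h9a k b n l lam hna ?_ hb2 hka hlam hsum hl hln ?_
    · calc ((1 : ℝ) + 1) * a = 2 * a := by ring
        _ ≤ (a : ℝ) ^ ε * a := mul_le_mul_of_nonneg_right he1 ha0.le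
        _ = (a : ℝ) ^ (1 + ε) := by rw [Real.rpow_add ha0, Real.rpow_one]; ring
        _ ≤ b := hbε
    · have hlog : 0 ≤ Real.log a := Real.log_nonneg ha1
      have h1 : (1 + Real.log a) * ((b : ℝ) * Real.log a ^ C) ≤
          (1 + Real.log a) * (l * ex lam (l - 1)) := by
        refine le_trans ?_ hmass
        calc (1 + Real.log a) * ((b : ℝ) * Real.log a ^ C)
            = ((1 + Real.log a) * Real.log a ^ C) * b := by ring
          _ ≤ (a : ℝ) ^ ε * b := mul_le_mul_of_nonneg_right he2 (Nat.cast_nonneg _)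
          _ ≤ k * b := mul_le_mul_of_nonneg_right hkε (Nat.cast_nonneg _)
      exact le_of_mul_le_mul_left h1 (by linarith)

/-- `LBg` with the threshold `0`. -/
theorem lbg_zero (h9 : S6.LB9) : LBg 0 := by
  intro ε hε hε1
  filter_upwards [lb_all h9 ε hε (by linarith), eventually_ge_atTop 1] with a h ha k b n lam hyp hk
  have ha1 : (1 : ℝ) ≤ a := by exact_mod_cast ha
  refine h k b n lam hyp ?_
  rcases hk with hk | ⟨hk, -⟩
  · subst hk
    rw [← Real.rpow_two]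
    exact Real.rpow_le_rpow_of_exponent_le ha1 (by linarith)
  · calc (a : ℝ) ^ (3 * ε) ≤ (a : ℝ) ^ ((0 + 6 * ε) * 2) :=
          Real.rpow_le_rpow_of_exponent_le ha1 (by linarith)
      _ = ((a : ℝ) ^ (0 + 6 * ε)) ^ 2 := by
          rw [Real.rpow_mul (by linarith), Real.rpow_two]
      _ ≤ _ := pow_le_pow_left₀ (Real.rpow_nonneg (by linarith) _) hk 2

/-- **Case I** with the threshold `a ^ (1 + 6 δ)`. -/
theorem caseI_zero (h9 : S6.LB9) : CaseIg 0 :=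
  caseIg le_rfl (lbg_zero h9) Vale.Agent.P181.H539.up_stmt Vale.Agent.P181.H463.cut_rev_stmt

end Vale.Agent.P181.T8
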