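import Vale.Agent.P181.H310.LB7kNum
import Vale.Agent.P181.H727.TopA
import Vale.Agent.P181.H503.Num7
import Vale.Agent.P181.T7.Spec

set_option autoImplicit false

/-!
# P181, T8: LB7 with `m` digit rows, `m < r`: the degree `k` only satisfies `C (8 r m)^m N ≤ k^m`
-/

namespace Vale.Agent.P181.H310

open Finset
open Vale.Agent.P181.T4 (ex low ex_of_lt ex_anti low_anti sum_split)
open Vale.Agent.P181.H463 (gt)
open Vale.Agent.P181.H280 (plethMult)
open Vale.Agent.P181.T7 (Top7 low_le7)

/-- **(LB7k)** as `T7.LB7`, with `m` digit rows (`1 ≤ m < r`; `r = 2` allowed). -/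
def LB7k : Prop := ∀ (a k B n r N top m : ℕ) (mu : Fin n → ℕ), Antitone mu →
  ∑ i, mu i = k * B → n ≤ a → a ≤ N → 2 ≤ r → r ≤ n → 1 ≤ m → m < r →
  8 * r * (r + 5) ≤ k → 16 * r ^ 3 ≤ N →
  ex mu r + 4 * N * k ≤ ex mu (r - 1) → ex mu 0 ≤ 2 * (ex mu (r - 1) - ex mu r) →
  2 * ∑ i, low r mu i ≤ N * k → 365 * (8 * r * m) ^ m * N ≤ k ^ m →
  (top : ℝ) * ((k : ℝ) + 1) ^ a ≤ Real.exp N →
  top * gt (n - r) a (low r mu) ≤ plethMult B k n mu

theorem lb7k : LB7k := by
  intro a k B n r N top m mu hmu hsum hn haN hr hrn hm1 hmr hk hrN hy h0 hD hkN htop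
  set D := ∑ i, low r mu i with hDdef
  have hkpos : 0 < k := by
    have : 8 * r * (r + 5) = 8 * (r * r) + 40 * r := by ring
    omega
  have hr3 : r ≤ r ^ 3 := by
    calc r = r ^ 1 := (pow_one r).symm
      _ ≤ r ^ 3 := Nat.pow_le_pow_right (by omega) (by omega)
  have hN : 0 < N := by omega
  have ha : 0 < a := by omega
  have hexanti : Antitone (ex mu) := fun i j hij => ex_anti hmu hij
  have hsplit := sum_split hrn mu
  obtain ⟨w, t, typ, hw1, hw2, hw3, hw4, hT, hex, hroom, hcap, hB, hT1, hT2, hT3, hT4, hT5⟩ :=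
    lb7k_numbers hexanti (D := D) hr hm1 hmr hk hrN (by rw [← hsplit]; exact hsum) hy (by omega) hD
  -- the design of a type system
  let P : TypIx m (k / (8 * r * m)) 1 (N / 2) → Vale.Agent.P181.H727.Dat := fun u =>
    { R := r
      k := k
      N := N
      lam := ex mu
      w := fun i => w i
      u := typ u
      W := w 0
      Θ := N * k - D
      hlam := hexanti
      hR := by omega
      hu := fun q i hi => hT3 u q i hi
      h1 := fun i => by
        rw [hT1 u i i.2]
        exact hw1 i i.2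
      hpos := fun i => by
        have := hw4 i i.2
        omega
      hW := fun i => hw3 i i.2
      hN := fun i => hw4 i i.2
      hΘ := by
        rw [Finset.sum_comm]
        have h1 : ∑ i : Fin r, ∑ q : Fin N, typ u q i = ∑ i : Fin r, t i :=
          Finset.sum_congr rfl fun i _ => hT1 u i i.2
        rw [h1, Fin.sum_univ_eq_sum_range t r]
        exact hT
      hex := hex
      hroom := hroom
      hcap := fun i => hcap i i.2 }
  have hmm : ∀ u : TypIx m (k / (8 * r * m)) 1 (N / 2), ∀ i, n ≤ i → (P u).lam i = 0 := by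
    intro u i hi
    change ex mu i = 0
    unfold ex
    rw [dif_neg (by omega)]
  have key := low_le7 (m := n) (R := r) (N := N) (b := B) (k := k)
    (T := Σ i : Fin r, Fin (w i)) (cls := fun x => (x.1 : ℕ)) hrn (fun x => x.1.2)
    (U := TypIx m (k / (8 * r * m)) 1 (N / 2)) (fun u => Fin ((P u).lam 0))
    (fun u => (P u).top7 n (hmm u)) (fun _ q => bal N D q) t mu hsum
    (by
      simp only [Fintype.card_sigma, Fintype.card_fin]
      rw [Fin.sum_univ_eq_sum_range w r]
      exact hB)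
    (fun u i => by
      have h1 := (P u).top7_rows (hmm u) i
      rw [h1]
      change ex mu i = mu i
      rw [ex_of_lt mu i.2])
    (fun u x => (P u).top7_inc (hmm u) x)
    (fun u q => by
      have h1 : ∑ i ∈ range r, ((P u).top7 n (hmm u)).typ q i = ∑ i ∈ range r, typ u q i :=
        Finset.sum_congr rfl fun i hi => (P u).top7_typ (hmm u) q (Finset.mem_range.1 hi)
      rw [h1]
      exact hT2 u q)
    (fun _ i j => bal_bal N D i j)
    (fun u lo _ => (P u).top7_forced (hmm u) (fun i j hij => hw2 i i.2 j j.2 hij) t lo)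
    (fun u i hi => by
      have h1 : ∑ q, ((P u).top7 n (hmm u)).typ q i = ∑ q, typ u q i :=
        Finset.sum_congr rfl fun q _ => (P u).top7_typ (hmm u) q hi
      rw [h1]
      exact hT1 u i hi)
    (fun u u' ⟨σ, hσ⟩ => by
      refine (hT5 u' u σ fun q i hi => ?_).symm
      have h1 := hσ q i hi
      rw [(P u).top7_typ (hmm u) q hi, (P u').top7_typ (hmm u') (σ q) hi] at h1
      exact h1)
    (fun u q q' h => by
      refine hT4 u q q' fun i hi => ?_
      have h1 := h i hi
      rw [(P u).top7_typ (hmm u) q hi, (P u).top7_typ (hmm u) q' hi] at h1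
      exact h1)
  -- the count
  have hcard := card_typ_exp_k (k := k) (r := r) (N := N) (m := m) hr hm1 hkN (by omega)
  have hnum := Vale.Agent.P181.H503.num7_nat (n := n - r) (a := a) (N := N) (by omega) ha haN
    (eta := low r mu) (low_anti hmu r) top
    (Fintype.card (TypIx m (k / (8 * r * m)) 1 (N / 2))) (by
      refine le_trans ?_ hcard
      have hN' : (0 : ℝ) < N := by exact_mod_cast hN
      have h1 : ((∑ i, low r mu i : ℕ) : ℝ) / N ≤ k := by
        rw [div_le_iff₀ hN']
        have h2 : ((∑ i, low r mu i : ℕ) : ℝ) ≤ ((k * N : ℕ) : ℝ) := by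
          have h3 : ∑ i, low r mu i ≤ k * N := by
            have : k * N = N * k := Nat.mul_comm _ _
            omega
          exact_mod_cast h3
        push_cast at h2 ⊢
        exact h2
      have h2 : (1 + ((∑ i, low r mu i : ℕ) : ℝ) / N) ^ a ≤ ((k : ℝ) + 1) ^ a := by
        refine pow_le_pow_left₀ (by positivity) ?_ _
        linarith
      calc (top : ℝ) * (Real.exp N * (1 + ((∑ i, low r mu i : ℕ) : ℝ) / N) ^ a)
          ≤ (top : ℝ) * (Real.exp N * ((k : ℝ) + 1) ^ a) := by
            refine mul_le_mul_of_nonneg_left ?_ (Nat.cast_nonneg _)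
            exact mul_le_mul_of_nonneg_left h2 (Real.exp_pos _).le
        _ = Real.exp N * ((top : ℝ) * ((k : ℝ) + 1) ^ a) := by ring
        _ ≤ Real.exp N * Real.exp N := mul_le_mul_of_nonneg_left htop (Real.exp_pos _).le
        _ = Real.exp (2 * N) := by rw [← Real.exp_add]; congr 1; ring)
  have hC : 0 < (D + N - 1).choose (N - 1) := Nat.choose_pos (by omega)
  have hfin := hnum.trans key
  rw [Nat.mul_comm ((∑ i, low r mu i + N - 1).choose (N - 1)) (plethMult B k n mu)] at hfin
  exact Nat.le_of_mul_le_mul_right hfin hC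

/-- the literal of #16612 (`r - 1` digit rows) -/
theorem lb7k_full (a k B n r N top : ℕ) (mu : Fin n → ℕ) (hmu : Antitone mu)
    (hsum : ∑ i, mu i = k * B) (hn : n ≤ a) (haN : a ≤ N) (hr : 2 ≤ r) (hrn : r ≤ n)
    (hk : 8 * r * (r + 5) ≤ k) (hrN : 16 * r ^ 3 ≤ N)
    (hy : ex mu r + 4 * N * k ≤ ex mu (r - 1)) (h0 : ex mu 0 ≤ 2 * (ex mu (r - 1) - ex mu r))
    (hD : 2 * ∑ i, low r mu i ≤ N * k)
    (hkN : 2000 * (64 * r ^ 2) ^ (r - 1) * N ≤ k ^ (r - 1))
    (htop : (top : ℝ) * ((k : ℝ) + 1) ^ a ≤ Real.exp N) :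
    top * gt (n - r) a (low r mu) ≤ plethMult B k n mu := by
  refine lb7k a k B n r N top (r - 1) mu hmu hsum hn haN hr hrn (by omega) (by omega) hk hrN hy
    h0 hD (le_trans ?_ hkN) htop
  refine Nat.mul_le_mul_right _ (Nat.mul_le_mul (by norm_num) (Nat.pow_le_pow_left ?_ _))
  calc 8 * r * (r - 1) ≤ 8 * r * r := Nat.mul_le_mul_left _ (Nat.sub_le _ _)
    _ ≤ 64 * r ^ 2 := by nlinarith

end Vale.Agent.P181.H310
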