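import Vale.Agent.P181.H310.CaseC4
import Vale.Agent.P181.H403.T8All

set_option autoImplicit false

/-!
# P181, T8: case (C): `(ex lam 2) ^ 2 * below 3 lam ≥ a ^ (4 + ε)`
-/

open Filter

namespace Vale.Agent.P181.H310

open Vale.Agent.P181.T4 (ex low ex_of_lt ex_anti low_anti sum_split)
open Vale.Agent.P181.T7 (below below_eq below_succ below_anti ex_le_below)
open Vale.Agent.P181.H280 (plethMult)

/-- the number of steps suffices -/
lemma steps_small {X : ℝ} (hX : 5000 ≤ X) {B : ℕ} (hB : X ^ 2 - 1 < B) (h3 : 3 ≤ B) :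
    (1 - 1 / X) ^ (B - 3) < 1 / X ^ 4 := by
  have hX0 : 0 < X := by linarith
  have h1 : 0 ≤ 1 - 1 / X := by
    rw [sub_nonneg, div_le_one hX0]
    linarith
  have h2 : 1 - 1 / X ≤ Real.exp (-(1 / X)) := by
    have := Real.add_one_le_exp (-(1 / X))
    linarith
  have h4 : (1 - 1 / X) ^ (B - 3) ≤ Real.exp (-(X - 1)) := by
    calc (1 - 1 / X) ^ (B - 3) ≤ (Real.exp (-(1 / X))) ^ (B - 3) := pow_le_pow_left₀ h1 h2 _
      _ = Real.exp (-(((B - 3 : ℕ) : ℝ) / X)) := by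
          rw [← Real.exp_nat_mul]
          congr 1
          ring
      _ ≤ Real.exp (-(X - 1)) := by
          rw [Real.exp_le_exp]
          have h6 : X - 1 ≤ ((B - 3 : ℕ) : ℝ) / X := by
            rw [le_div_iff₀ hX0, Nat.cast_sub h3]
            push_cast
            nlinarith
          linarith
  refine lt_of_le_of_lt h4 ?_
  rw [Real.exp_neg, ← one_div]
  apply one_div_lt_one_div_of_lt (by positivity)
  have h5 := Real.pow_div_factorial_le_exp (X - 1) (by linarith) 5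
  refine lt_of_lt_of_le ?_ h5
  have h6 : (X / 2) ^ 5 ≤ (X - 1) ^ 5 := pow_le_pow_left₀ (by positivity) (by linarith) 5
  have h7 : ((Nat.factorial 5 : ℕ) : ℝ) = 120 := by norm_num [Nat.factorial]
  rw [h7, lt_div_iff₀ (by norm_num)]
  refine lt_of_lt_of_le ?_ h6
  have h8 : 0 < X ^ 4 := by positivity
  calc X ^ 4 * 120 < (X / 32) * X ^ 4 := by
        have : (120 : ℝ) < X / 32 := by linarith
        nlinarith
    _ = (X / 2) ^ 5 := by ring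

/-- the split at row `3` -/
lemma split_three {a : ℕ} {lam : Fin a → ℕ} (hlam : Antitone lam) {X : ℝ} (hX : 5000 ≤ X)
    (hD : (0 : ℝ) < below 3 lam) :
    (∃ R : ℕ, (R : ℝ) ≤ X ^ 2 ∧ (below 3 lam : ℝ) ≤ below R lam * X ^ 4 ∧
      X * (ex lam R : ℝ) ≤ below R lam) ∨
    ∃ R1 : ℕ, 4 ≤ R1 ∧ (R1 : ℝ) ≤ X ^ 2 ∧ (below R1 lam : ℝ) * X ^ 4 ≤ below 3 lam := by
  have hX0 : 0 < X := by linarith
  have hX4 : 0 < X ^ 4 := by positivity
  obtain ⟨B, hB⟩ : ∃ B : ℕ, B = ⌊X ^ 2⌋₊ := ⟨_, rfl⟩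
  have hBX : (B : ℝ) ≤ X ^ 2 := by rw [hB]; exact Nat.floor_le (by positivity)
  have hBX2 : X ^ 2 - 1 < B := by
    have := Nat.lt_floor_add_one (X ^ 2)
    rw [← hB] at this
    linarith
  have h3 : 3 ≤ B := by
    have : (3 : ℝ) ≤ B := by nlinarith
    exact_mod_cast this
  have hst := steps_small hX hBX2 h3
  have hdet := T8.split_det8 hlam 3 (X := X) (θ := (below 3 lam : ℝ) / X ^ 4) (G := 0)
    (by linarith) B h3 (by
      calc (1 - 1 / X) ^ (B - 3) * (below 3 lam : ℝ) < 1 / X ^ 4 * below 3 lam :=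
            mul_lt_mul_of_pos_right hst hD
        _ = _ := by ring) (by
      rw [zero_mul, add_zero]
      apply div_le_div_of_nonneg_left hD.le hX0
      calc X = X ^ 1 := by ring
        _ ≤ X ^ 4 := c_pow hX 1 4 (by norm_num)) (by
      apply div_le_self hD.le
      exact one_le_pow₀ (by linarith))
  rcases hdet with ⟨R, h1, h2, h4⟩ | ⟨R1, r, h1, h2, h4, h5, -⟩
  · left
    refine ⟨R, ?_, ?_, h4⟩
    · have : (R : ℝ) ≤ B := by exact_mod_cast h1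
      linarith
    · exact (div_le_iff₀ hX4).1 h2
  · right
    refine ⟨R1, by omega, ?_, ?_⟩
    · have : (R1 : ℝ) ≤ B := by exact_mod_cast h4
      linarith
    · exact ((lt_div_iff₀ hX4).1 h5).le

/-- eventual inequalities -/
lemma ev_caseC {δ : ℝ} (hδ : 0 < δ) : ∀ᶠ a : ℕ in atTop,
    5000 ≤ (a : ℝ) ^ δ ∧ 10 * Real.log a ≤ (a : ℝ) ^ δ := by
  have h1 : ∀ᶠ x : ℝ in atTop, 5000 ≤ x ^ δ := (tendsto_rpow_atTop hδ).eventually_ge_atTop 5000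
  have h3 : ∀ᶠ x : ℝ in atTop, ‖Real.log x‖ ≤ 1 / 10 * ‖x ^ δ‖ :=
    (isLittleO_log_rpow_atTop hδ).bound (by norm_num)
  have h4 : ∀ᶠ x : ℝ in atTop, 5000 ≤ x ^ δ ∧ 10 * Real.log x ≤ x ^ δ := by
    filter_upwards [h1, h3, eventually_ge_atTop (1 : ℝ)] with x hx1 hx3 hx0
    refine ⟨hx1, ?_⟩
    rw [Real.norm_of_nonneg (Real.rpow_nonneg (by linarith) δ),
      Real.norm_of_nonneg (Real.log_nonneg hx0)] at hx3
    linarith
  exact tendsto_natCast_atTop_atTop.eventually h4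

/-- **case (C)** -/
def CaseC : Prop := ∀ ε : ℝ, 0 < ε → ∀ᶠ a : ℕ in atTop, ∀ b : ℕ, (a : ℝ) ^ (1 + ε) ≤ b →
  ∀ lam : Fin a → ℕ, Antitone lam → ∑ i, lam i = a * b →
  (a : ℝ) ^ (4 + ε) ≤ (ex lam 2 : ℝ) ^ 2 * below 3 lam →
  plethMult a b a lam ≤ plethMult b a a lam

/-- case (C) for one `a` -/
lemma caseC_one {a : ℕ} {δ ε : ℝ} (hδ0 : 0 < δ) (hδ1 : δ ≤ 1 / 100) (hδ : 60 * δ ≤ ε)
    (f2 : ∀ b : ℕ, (a : ℝ) ^ (1 + 2 * δ) ≤ b → ∀ lam : Fin a → ℕ, Antitone lam →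
      ∑ i, lam i = a * b → (a : ℝ) ^ (1 + 1 / 2 + 2 * δ) ≤ below 2 lam →
      plethMult a b a lam ≤ plethMult b a a lam)
    (f3 : ∀ b : ℕ, (a : ℝ) ^ (1 + 2 * δ) ≤ b → ∀ lam : Fin a → ℕ, Antitone lam →
      ∑ i, lam i = a * b → (a : ℝ) ^ (1 + 1 / 3 + 2 * δ) ≤ below 3 lam →
      plethMult a b a lam ≤ plethMult b a a lam)
    (hI : ∀ (b R : ℕ) (lam : Fin a → ℕ), b ≤ a ^ 2 → (a : ℝ) ^ (1 + 9 * δ) ≤ b →
      Antitone lam → ∑ i, lam i = a * b → (R : ℝ) ≤ (a : ℝ) ^ (2 * δ) →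
      (a : ℝ) ^ (1 + 0 + 6 * δ) ≤ below R lam → (a : ℝ) ^ δ * ex lam R ≤ below R lam →
      plethMult a b a lam ≤ plethMult b a a lam)
    (hX : 5000 ≤ (a : ℝ) ^ δ) (hlg : 10 * Real.log a ≤ (a : ℝ) ^ δ) (ha : 2 ≤ a) (b : ℕ)
    (hb2 : b ≤ a ^ 2) (hb : (a : ℝ) ^ (1 + ε) ≤ b) (lam : Fin a → ℕ) (hlam : Antitone lam)
    (hsum : ∑ i, lam i = a * b)
    (hLD : (a : ℝ) ^ (4 + ε) ≤ (ex lam 2 : ℝ) ^ 2 * below 3 lam) :
    plethMult a b a lam ≤ plethMult b a a lam := by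
  have ha1 : (1 : ℝ) ≤ a := by exact_mod_cast (by omega : 1 ≤ a)
  have ha0 : (0 : ℝ) < a := by linarith
  have hbm : ∀ s : ℝ, s ≤ 1 + ε → (a : ℝ) ^ s ≤ b := fun s hs =>
    (Real.rpow_le_rpow_of_exponent_le ha1 hs).trans hb
  by_cases hA : (a : ℝ) ^ (1 + 1 / 2 + 2 * δ) ≤ below 2 lam
  · exact f2 b (hbm _ (by linarith)) lam hlam hsum hA
  by_cases hB : (a : ℝ) ^ (1 + 1 / 3 + 2 * δ) ≤ below 3 lam
  · exact f3 b (hbm _ (by linarith)) lam hlam hsum hB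
  push Not at hA hB
  obtain ⟨X, hXdef⟩ : ∃ X : ℝ, X = (a : ℝ) ^ δ := ⟨_, rfl⟩
  rw [← hXdef] at hX hlg
  have hX0 : 0 < X := by linarith
  have hpow : ∀ s : ℝ, ∀ n : ℕ, (a : ℝ) ^ (s + n * δ) = (a : ℝ) ^ s * X ^ n := by
    intro s n
    rw [hXdef, Real.rpow_add ha0, mul_comm (n : ℝ) δ, Real.rpow_mul ha0.le, Real.rpow_natCast]
  have e9 : (a : ℝ) * X ^ 9 = (a : ℝ) ^ (1 + 9 * δ) := by
    have := hpow 1 9
    rw [Real.rpow_one] at this
    rw [← this]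
    norm_num
  have e60 : (a : ℝ) ^ 4 * X ^ 60 = (a : ℝ) ^ (4 + 60 * δ) := by
    have := hpow ((4 : ℕ) : ℝ) 60
    rw [Real.rpow_natCast] at this
    rw [← this]
    norm_num
  have hb' : (a : ℝ) * X ^ 9 ≤ b := by
    rw [e9]
    exact hbm _ (by linarith)
  have hXa : X ^ 9 ≤ a := by
    have h1 := hpow 0 9
    rw [Real.rpow_zero, one_mul, zero_add] at h1
    rw [← h1]
    calc (a : ℝ) ^ (((9 : ℕ) : ℝ) * δ) ≤ (a : ℝ) ^ (1 : ℝ) := by
          apply Real.rpow_le_rpow_of_exponent_le ha1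
          push_cast
          linarith
      _ = a := Real.rpow_one _
  have hLD' : (a : ℝ) ^ 4 * X ^ 60 ≤ (ex lam 2 : ℝ) ^ 2 * below 3 lam := by
    rw [e60]
    exact (Real.rpow_le_rpow_of_exponent_le ha1 (by linarith)).trans hLD
  have hL2 : (ex lam 2 : ℝ) ^ 2 ≤ (a : ℝ) ^ 3 * X ^ 4 := by
    have h1 : (ex lam 2 : ℝ) ≤ (a : ℝ) ^ (1 + 1 / 2 + 2 * δ) := by
      have h2 : (ex lam 2 : ℝ) ≤ below 2 lam := by exact_mod_cast ex_le_below lam 2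
      linarith
    have h2 : ((a : ℝ) ^ (1 + 1 / 2 + 2 * δ)) ^ 2 = (a : ℝ) ^ 3 * X ^ 4 := by
      have h3 := hpow ((3 : ℕ) : ℝ) 4
      rw [Real.rpow_natCast] at h3
      rw [← h3, ← Real.rpow_natCast, ← Real.rpow_mul ha0.le]
      congr 1
      push_cast
      ring
    rw [← h2]
    exact pow_le_pow_left₀ (Nat.cast_nonneg _) h1 2
  have hD3 : (below 3 lam : ℝ) ^ 3 ≤ (a : ℝ) ^ 4 * X ^ 6 := by
    have h2 : ((a : ℝ) ^ (1 + 1 / 3 + 2 * δ)) ^ 3 = (a : ℝ) ^ 4 * X ^ 6 := by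
      have h3 := hpow ((4 : ℕ) : ℝ) 6
      rw [Real.rpow_natCast] at h3
      rw [← h3, ← Real.rpow_natCast, ← Real.rpow_mul ha0.le]
      congr 1
      push_cast
      ring
    rw [← h2]
    exact pow_le_pow_left₀ (Nat.cast_nonneg _) hB.le 3
  have hD00 : (0 : ℝ) ≤ below 3 lam := Nat.cast_nonneg _
  have hDge : (a : ℝ) * X ^ 56 ≤ below 3 lam := c_D hX ha1 hL2 hLD' hD00
  have hD0 : (0 : ℝ) < below 3 lam := lt_of_lt_of_le (by positivity) hDge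
  rcases split_three hlam hX hD0 with ⟨R, h1, h2, h3⟩ | ⟨R1, h1, h2, h3⟩
  · have e2 : (a : ℝ) ^ (2 * δ) = X ^ 2 := by
      have := hpow 0 2
      rw [Real.rpow_zero, zero_add, one_mul] at this
      exact_mod_cast this
    have e6 : (a : ℝ) ^ (1 + 0 + 6 * δ) = a * X ^ 6 := by
      have := hpow 1 6
      rw [Real.rpow_one] at this
      rw [← this]
      norm_num
    refine hI b R lam hb2 (by rw [← e9]; exact hb') hlam hsum (by rw [e2]; exact h1) ?_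
      (by rw [← hXdef]; exact h3)
    rw [e6]
    have h4 : (a * X ^ 6) * X ^ 4 ≤ below R lam * X ^ 4 := by
      refine le_trans ?_ (hDge.trans h2)
      calc (a * X ^ 6) * X ^ 4 = a * X ^ 10 := by ring
        _ ≤ a * X ^ 56 := by
            have := c_pow hX 10 56 (by norm_num)
            gcongr
    exact le_of_mul_le_mul_right h4 (by positivity)
  · exact caseC_real ha hX hXa hlg hb2 hb' hlam hsum hL2 hD3 hLD' h1 h2 h3

/-- **case (C)**, from S6.LB9. -/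
theorem caseC (h9 : S6.LB9) : CaseC := by
  intro ε hε
  obtain ⟨δ, hδ⟩ : ∃ δ : ℝ, δ = min (ε / 60) (1 / 100) := ⟨_, rfl⟩
  have hδ0 : 0 < δ := by rw [hδ]; exact lt_min (by positivity) (by norm_num)
  have hδ1 : δ ≤ 1 / 100 := by rw [hδ]; exact min_le_right _ _
  have hδ2 : 60 * δ ≤ ε := by
    have := min_le_left (ε / 60) (1 / 100)
    rw [← hδ] at this
    linarith
  filter_upwards [T8.f8 h9 (t := 1 / 2) (j := 2) (by norm_num) le_rfl le_rfl (by norm_num)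
    (2 * δ) (by linarith), T8.f8 h9 (t := 1 / 3) (j := 3) (by norm_num) (by norm_num)
    (by norm_num) (by norm_num) (2 * δ) (by linarith), T8.caseI_zero h9 δ hδ0 hδ1,
    ev_caseC hδ0, eventually_ge_atTop 2] with a f2 f3 hI ⟨hX, hlg⟩ ha b hb lam hlam hsum hLD
  by_cases hb2 : b ≤ a ^ 2
  · exact caseC_one hδ0 hδ1 hδ2 f2 f3 hI hX hlg ha b hb2 hb lam hlam hsum hLD
  · apply H463.big_stmt
    have h5 : (a - 1) ^ 2 ≤ a ^ 2 := Nat.pow_le_pow_left (Nat.sub_le a 1) 2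
    omega

/-- 403's form. -/
theorem f34 (h9 : S6.LB9) : ∀ ε : ℝ, 0 < ε → ∀ᶠ a : ℕ in atTop, ∀ b : ℕ,
    (a : ℝ) ^ (1 + ε) ≤ b → ∀ lam : Fin a → ℕ, Antitone lam → ∑ i, lam i = a * b →
    (a : ℝ) ^ (4 + ε) ≤ (ex lam 2 : ℝ) ^ 2 * ex lam 3 →
    plethMult a b a lam ≤ plethMult b a a lam := by
  intro ε hε
  filter_upwards [caseC h9 ε hε] with a h b hb lam hlam hsum hLD
  refine h b hb lam hlam hsum (hLD.trans ?_)
  have h2 : (ex lam 3 : ℝ) ≤ below 3 lam := by exact_mod_cast ex_le_below lam 3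
  gcongr

end Vale.Agent.P181.H310
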