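import Vale.Agent.P181.H12.Cols

set_option autoImplicit false

/-!
# P181: the columns of the fixed part, any number `r` of heads
-/

open scoped Classical

namespace Vale.Agent.P181.H310

open Finset Vale.Agent.P181.T4 Vale.Agent.P181.H463 Vale.Agent.P181.H12

variable {n : ℕ} {lam : Fin n → ℕ} (hlam : Antitone lam)

/-- the rows of the columns of `F` -/
noncomputable def muR (r : ℕ) (lam : Fin n → ℕ) (F : Finset (Fin (ex lam 0)))
    (i : Fin (n - r)) : ℕ :=
  (univ.filter fun c : Fin (ex lam 0) => c ∈ F ∧ r + (i : ℕ) < colLen n (ex lam) c).card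

/-- the rows of the columns outside `F` -/
noncomputable def etaR (r : ℕ) (lam : Fin n → ℕ) (F : Finset (Fin (ex lam 0)))
    (i : Fin (n - r)) : ℕ :=
  (univ.filter fun c : Fin (ex lam 0) => c ∉ F ∧ r + (i : ℕ) < colLen n (ex lam) c).card

lemma muR_anti (r : ℕ) (F : Finset (Fin (ex lam 0))) : Antitone (muR r lam F) := by
  intro i j hij
  have h : (i : ℕ) ≤ j := hij
  refine card_le_card ?_
  intro c hc
  rw [mem_filter] at hc ⊢
  exact ⟨hc.1, hc.2.1, by omega⟩

lemma etaR_anti (r : ℕ) (F : Finset (Fin (ex lam 0))) : Antitone (etaR r lam F) := by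
  intro i j hij
  have h : (i : ℕ) ≤ j := hij
  refine card_le_card ?_
  intro c hc
  rw [mem_filter] at hc ⊢
  exact ⟨hc.1, hc.2.1, by omega⟩

include hlam in
lemma eta_add_muR (r : ℕ) (F : Finset (Fin (ex lam 0))) (i : Fin (n - r)) :
    etaR r lam F i + muR r lam F i = low r lam i := by
  have hle : ex lam (r + i) ≤ ex lam 0 := ex_anti hlam (Nat.zero_le _)
  have h1 : ((univ : Finset (Fin (ex lam 0))).filter
      fun c : Fin (ex lam 0) => (c : ℕ) < ex lam (r + i)).card = low r lam i := card_fin_lt hle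
  rw [← h1, etaR, muR, ← card_union_of_disjoint]
  · congr 1
    ext c
    simp only [mem_union, mem_filter, mem_univ, true_and, lt_colLen_ex hlam]
    tauto
  · rw [disjoint_left]
    intro c hc hc'
    rw [mem_filter] at hc hc'
    exact hc.2.1 hc'.2.1

include hlam in
lemma sum_eta_muR (r : ℕ) (F : Finset (Fin (ex lam 0))) :
    ∑ i, etaR r lam F i + ∑ i, muR r lam F i = ∑ i, low r lam i := by
  rw [← Finset.sum_add_distrib]
  exact Finset.sum_congr rfl fun i _ => eta_add_muR hlam r F i

lemma sum_muR (r : ℕ) (F : Finset (Fin (ex lam 0))) :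
    ∑ i, muR r lam F i = ∑ c ∈ F, (colLen n (ex lam) c - r) := by
  simp only [muR, card_filter]
  rw [sum_comm]
  rw [← Finset.sum_subset (Finset.subset_univ F)]
  · refine Finset.sum_congr rfl fun c hc => ?_
    simp only [hc, true_and]
    rw [← card_filter]
    have h1 := colLen_le n (ex lam) c
    have h2 := card_fin_lt (n := n - r) (m := colLen n (ex lam) c - r) (by omega)
    rw [← h2]
    congr 1
    ext i
    simp only [mem_filter, mem_univ, true_and]
    omega
  · intro c _ hc
    simp [hc]

include hlam in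
lemma mu_FIR (r x y : ℕ) (i : Fin (n - r)) :
    muR r lam (FI lam x y) i = min y (ex lam (r + i)) - x := by
  have hle : ex lam (r + i) ≤ ex lam 0 := ex_anti hlam (Nat.zero_le _)
  rw [← card_fin_Ico (n := ex lam 0) (x := x) (y := min y (ex lam (r + i))) (by omega), muR]
  congr 1
  ext c
  simp only [FI, mem_filter, mem_univ, true_and, lt_colLen_ex hlam, lt_min_iff]
  tauto

include hlam in
/-- Choice of the end of the interval. -/
lemma exists_yR {r x Bt nmax : ℕ} (hn : ∀ c, x ≤ c → colLen n (ex lam) c - r ≤ nmax)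
    (hpos : 0 < nmax) (hA : Bt ≤ ∑ i : Fin (n - r), (ex lam (r + i) - x)) :
    ∃ y, Bt ≤ ∑ c ∈ FI lam x y, (colLen n (ex lam) c - r) ∧
      ∑ c ∈ FI lam x y, (colLen n (ex lam) c - r) < Bt + nmax := by
  have hex : ∃ y, Bt ≤ ∑ c ∈ FI lam x y, (colLen n (ex lam) c - r) := by
    refine ⟨ex lam 0, ?_⟩
    rw [← sum_muR]
    refine hA.trans (le_of_eq ?_)
    refine Finset.sum_congr rfl fun i _ => ?_
    rw [mu_FIR hlam, min_eq_right (ex_anti hlam (Nat.zero_le _))]
  refine ⟨Nat.find hex, Nat.find_spec hex, ?_⟩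
  rcases Nat.eq_zero_or_pos (Nat.find hex) with h0 | h0
  · rw [h0]
    have : FI lam x 0 = ∅ := by
      ext c
      simp [FI]
    rw [this, Finset.sum_empty]
    omega
  · obtain ⟨y, hy⟩ : ∃ y, Nat.find hex = y + 1 := ⟨Nat.find hex - 1, by omega⟩
    have h1 := Nat.find_min hex (m := y) (by omega)
    push Not at h1
    rw [hy]
    by_cases hc : x ≤ y ∧ y < ex lam 0
    · have h2 : FI lam x (y + 1) = insert ⟨y, hc.2⟩ (FI lam x y) := by
        ext c
        simp only [FI, mem_insert, mem_filter, mem_univ, true_and, Fin.ext_iff]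
        omega
      have h3 : (⟨y, hc.2⟩ : Fin (ex lam 0)) ∉ FI lam x y := by
        simp [FI]
      rw [h2, Finset.sum_insert h3]
      have := hn y hc.1
      simp only
      omega
    · have h2 : FI lam x (y + 1) = FI lam x y := by
        ext c
        have := c.2
        simp only [FI, mem_filter, mem_univ, true_and]
        omega
      rw [h2]
      omega

end Vale.Agent.P181.H310
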