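import Mathlib

set_option autoImplicit false

/-!
# P181, T7: the gap lemma ([GAP] of 412 #13698)

Rows are numbered from `0`: `lam j` is the row `j + 1`; `D n lam j = ∑_{j ≤ i < n} lam i` is the
number of cells below the row `j` (1-indexed), i.e. in the rows `≥ j` (0-indexed).
-/

namespace Vale.Agent.P181.H310

/-- cells in the rows `≥ j` -/
def D (n : ℕ) (lam : ℕ → ℕ) (j : ℕ) : ℕ := ∑ i ∈ Finset.Ico j n, lam i

lemma D_succ {n : ℕ} {lam : ℕ → ℕ} {j : ℕ} (hj : j < n) :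
    D n lam j = lam j + D n lam (j + 1) := by
  unfold D
  rw [Finset.sum_eq_sum_Ico_succ_bot hj]

lemma D_ge (n : ℕ) (lam : ℕ → ℕ) {j : ℕ} (hj : n ≤ j) : D n lam j = 0 := by
  unfold D
  rw [Finset.Ico_eq_empty_of_le hj, Finset.sum_empty]

lemma D_anti (n : ℕ) (lam : ℕ → ℕ) : Antitone (D n lam) := by
  intro i j hij
  exact Finset.sum_le_sum_of_subset (Finset.Ico_subset_Ico_left hij)

lemma lam_le_D {n : ℕ} {lam : ℕ → ℕ} (h0 : ∀ i, n ≤ i → lam i = 0) (j : ℕ) :
    lam j ≤ D n lam j := by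
  by_cases hj : j < n
  · rw [D_succ hj]
    exact Nat.le_add_right _ _
  · rw [h0 j (by omega)]
    exact Nat.zero_le _

/-- The sum over a window is at most its length times the first row. -/
lemma D_window {n : ℕ} {lam : ℕ → ℕ} (anti : Antitone lam) (i k : ℕ) :
    D n lam i ≤ k * lam i + D n lam (i + k) := by
  induction k with
  | zero => simp
  | succ k ih =>
    have h1 : D n lam (i + k) ≤ lam i + D n lam (i + (k + 1)) := by
      rw [← add_assoc]
      by_cases h : i + k < n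
      · rw [D_succ h]
        have := anti (Nat.le_add_right i k)
        omega
      · rw [D_ge n lam (by omega)]
        exact Nat.zero_le _
    calc D n lam i ≤ k * lam i + D n lam (i + k) := ih
      _ ≤ k * lam i + (lam i + D n lam (i + (k + 1))) := by omega
      _ = (k + 1) * lam i + D n lam (i + (k + 1)) := by ring

/-- Small gaps: `lam j ≥ (1 - (j - i) / X ^ 3) lam i`. -/
lemma small_gaps {lam : ℕ → ℕ} (anti : Antitone lam) {X : ℝ} (hX : 0 < X) {i k : ℕ}
    (h : ∀ j, i ≤ j → j < i + k → X ^ 3 * ((lam j : ℝ) - (lam (j + 1) : ℝ)) < (lam j : ℝ)) :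
    (1 - (k : ℝ) / X ^ 3) * (lam i : ℝ) ≤ (lam (i + k) : ℝ) := by
  induction k with
  | zero => simp
  | succ k ih =>
    have ih' := ih (fun j h1 h2 => h j h1 (by omega))
    have h1 := h (i + k) (by omega) (by omega)
    have h2 : (lam (i + k) : ℝ) ≤ (lam i : ℝ) := by exact_mod_cast anti (Nat.le_add_right i k)
    have hX3 : 0 < X ^ 3 := by positivity
    have h3 : (lam (i + k) : ℝ) - (lam (i + k + 1) : ℝ) ≤ (lam i : ℝ) / X ^ 3 := by
      rw [le_div_iff₀ hX3]
      nlinarith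
    have h4 : (1 - ((k + 1 : ℕ) : ℝ) / X ^ 3) * (lam i : ℝ) =
        (1 - (k : ℝ) / X ^ 3) * (lam i : ℝ) - (lam i : ℝ) / X ^ 3 := by
      push_cast
      field_simp
      ring
    rw [h4]
    have h5 : i + (k + 1) = i + k + 1 := by ring
    rw [h5]
    linarith

/-- **The gap lemma.** `X = a ^ δ`, `Y = a ^ (1 + 4 c)`, `B ≥ 1 + X log (D_0 / Y)`. Either the whole
partition is bulk (`R_1 = 0`), or there is a row `R = r + 1 ≤ B` with a large gap `g_R`, whose tail
is bulk or tiny. -/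
theorem gap {n : ℕ} {lam : ℕ → ℕ} (anti : Antitone lam) (h0 : ∀ i, n ≤ i → lam i = 0)
    {X Y B : ℝ} (hX : 2 ≤ X) (hY : 0 < Y) (hB1 : 1 ≤ B)
    (hB : 1 + X * Real.log ((D n lam 0 : ℝ) / Y) ≤ B) (hB2 : 2 * B ≤ X ^ 3)
    (hBY : (2 * B + 1) * Y ≤ (D n lam 0 : ℝ)) :
    X * (lam 0 : ℝ) ≤ (D n lam 0 : ℝ) ∨
    ∃ r : ℕ, ((r + 1 : ℕ) : ℝ) ≤ B ∧ 0 < lam r ∧
      (lam r : ℝ) ≤ X ^ 3 * ((lam r : ℝ) - (lam (r + 1) : ℝ)) ∧
      (D n lam (r + 1) : ℝ) < X * (lam r : ℝ) ∧
      (D n lam (r + 1) : ℝ) ≤ X ^ 4 * ((lam r : ℝ) - (lam (r + 1) : ℝ)) ∧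
      (∀ j ≤ r, (D n lam j : ℝ) < X * (lam j : ℝ) ∧ Y ≤ (D n lam j : ℝ)) ∧
      (X / 2 * (lam (r + 1) : ℝ) ≤ (D n lam (r + 1) : ℝ) ∨
        (D n lam (r + 1) : ℝ) ≤ (2 * B + 1) * Y) := by
  classical
  have hX0 : 0 < X := by linarith
  have hX3 : 0 < X ^ 3 := by positivity
  have hD0 : 0 < (D n lam 0 : ℝ) := by nlinarith
  have hex : ∃ j, X * (lam j : ℝ) ≤ (D n lam j : ℝ) ∨ (D n lam j : ℝ) < Y :=
    ⟨n, Or.inr (by rw [D_ge n lam le_rfl]; simpa using hY)⟩
  set R1 := Nat.find hex with hR1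
  have hP : X * (lam R1 : ℝ) ≤ (D n lam R1 : ℝ) ∨ (D n lam R1 : ℝ) < Y := Nat.find_spec hex
  have hlt : ∀ j < R1, (D n lam j : ℝ) < X * (lam j : ℝ) ∧ Y ≤ (D n lam j : ℝ) := by
    intro j hj
    have h1 := Nat.find_min hex hj
    push Not at h1
    exact h1
  rcases Nat.eq_zero_or_pos R1 with hz | hpos
  · left
    rcases hP with h | h
    · rwa [hz] at h
    · rw [hz] at h
      nlinarith
  right
  -- the bound of `R1`
  have hdec : ∀ j ≤ R1, (D n lam j : ℝ) ≤ (D n lam 0 : ℝ) * (1 - 1 / X) ^ j := by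
    intro j
    induction j with
    | zero => intro _; simp
    | succ j ih =>
      intro hj
      obtain ⟨h1, h2⟩ := hlt j (by omega)
      have ih' := ih (by omega)
      have hjn : j < n := by
        by_contra h3
        rw [D_ge n lam (by omega)] at h2
        simp at h2
        linarith
      have h3 : (D n lam j : ℝ) = (lam j : ℝ) + (D n lam (j + 1) : ℝ) := by
        exact_mod_cast D_succ hjn
      have h4 : (D n lam j : ℝ) / X < (lam j : ℝ) := by
        rw [div_lt_iff₀ hX0]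
        linarith
      have h5 : (D n lam (j + 1) : ℝ) ≤ (D n lam j : ℝ) * (1 - 1 / X) := by
        have : (D n lam j : ℝ) * (1 - 1 / X) = (D n lam j : ℝ) - (D n lam j : ℝ) / X := by ring
        rw [this]
        linarith
      have h6 : 0 ≤ 1 - 1 / X := by
        rw [sub_nonneg, div_le_one hX0]
        linarith
      calc (D n lam (j + 1) : ℝ) ≤ (D n lam j : ℝ) * (1 - 1 / X) := h5
        _ ≤ ((D n lam 0 : ℝ) * (1 - 1 / X) ^ j) * (1 - 1 / X) :=
          mul_le_mul_of_nonneg_right ih' h6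
        _ = _ := by ring
  have hR1B : (R1 : ℝ) ≤ B := by
    have h1 := (hlt (R1 - 1) (by omega)).2
    have h2 := hdec (R1 - 1) (by omega)
    have h3 : (1 - 1 / X) ^ (R1 - 1) ≤ Real.exp (-((R1 - 1 : ℕ) : ℝ) / X) := by
      have h4 : 1 - 1 / X ≤ Real.exp (-(1 / X)) := by
        have := Real.add_one_le_exp (-(1 / X))
        linarith
      have h5 : 0 ≤ 1 - 1 / X := by
        rw [sub_nonneg, div_le_one hX0]
        linarith
      calc (1 - 1 / X) ^ (R1 - 1) ≤ (Real.exp (-(1 / X))) ^ (R1 - 1) :=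
            pow_le_pow_left₀ h5 h4 _
        _ = Real.exp (-((R1 - 1 : ℕ) : ℝ) / X) := by
            rw [← Real.exp_nat_mul]
            congr 1
            ring
    have h4 : Y ≤ (D n lam 0 : ℝ) * Real.exp (-((R1 - 1 : ℕ) : ℝ) / X) :=
      h1.trans (h2.trans (mul_le_mul_of_nonneg_left h3 hD0.le))
    have h5 : Real.exp (((R1 - 1 : ℕ) : ℝ) / X) ≤ (D n lam 0 : ℝ) / Y := by
      rw [le_div_iff₀ hY]
      have h6 : Real.exp (((R1 - 1 : ℕ) : ℝ) / X) * Real.exp (-((R1 - 1 : ℕ) : ℝ) / X) = 1 := by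
        rw [← Real.exp_add]
        have : ((R1 - 1 : ℕ) : ℝ) / X + -((R1 - 1 : ℕ) : ℝ) / X = 0 := by ring
        rw [this, Real.exp_zero]
      have h7 := mul_le_mul_of_nonneg_left h4 (Real.exp_pos (((R1 - 1 : ℕ) : ℝ) / X)).le
      calc Real.exp (((R1 - 1 : ℕ) : ℝ) / X) * Y
          ≤ Real.exp (((R1 - 1 : ℕ) : ℝ) / X) *
            ((D n lam 0 : ℝ) * Real.exp (-((R1 - 1 : ℕ) : ℝ) / X)) := h7
        _ = (D n lam 0 : ℝ) * (Real.exp (((R1 - 1 : ℕ) : ℝ) / X) *
            Real.exp (-((R1 - 1 : ℕ) : ℝ) / X)) := by ring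
        _ = (D n lam 0 : ℝ) := by rw [h6, mul_one]
    have h6 : ((R1 - 1 : ℕ) : ℝ) / X ≤ Real.log ((D n lam 0 : ℝ) / Y) := by
      rw [Real.le_log_iff_exp_le (by positivity)]
      exact h5
    have h7 : ((R1 - 1 : ℕ) : ℝ) ≤ X * Real.log ((D n lam 0 : ℝ) / Y) := by
      rw [div_le_iff₀ hX0] at h6
      linarith
    have h8 : ((R1 - 1 : ℕ) : ℝ) = (R1 : ℝ) - 1 := by
      rw [Nat.cast_sub (by omega)]
      simp
    linarith
  have hkX : ∀ k : ℕ, k ≤ R1 → (k : ℝ) / X ^ 3 ≤ 1 / 2 := by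
    intro k hk
    rw [div_le_iff₀ hX3]
    have : (k : ℝ) ≤ R1 := by exact_mod_cast hk
    linarith
  -- existence of a gap
  have hgap : ∃ r < R1, (lam r : ℝ) ≤ X ^ 3 * ((lam r : ℝ) - (lam (r + 1) : ℝ)) := by
    by_contra hno
    push Not at hno
    have h1 := small_gaps (i := 0) (k := R1) anti hX0 (fun j _ h2 => hno j (by omega))
    rw [zero_add] at h1
    have hk := hkX R1 le_rfl
    obtain ⟨h2, h2'⟩ := hlt 0 hpos
    have hl0 : 0 < (lam 0 : ℝ) := by
      by_contra h3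
      push Not at h3
      nlinarith
    rcases hP with h | h
    · -- bulk at `R1`
      have h3 : (R1 : ℝ) * (lam R1 : ℝ) + (D n lam R1 : ℝ) ≤ (D n lam 0 : ℝ) := by
        have h4 : ∀ k ≤ R1, k * lam R1 + D n lam k ≤ D n lam 0 := by
          intro k
          induction k with
          | zero => intro _; simp
          | succ k ih =>
            intro hk2
            have ih' := ih (by omega)
            have hkn : k < n := by
              by_contra h5
              have h6 := (hlt k (by omega)).2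
              rw [D_ge n lam (by omega)] at h6
              simp at h6
              linarith
            have h5 := D_succ (lam := lam) hkn
            have h6 : lam R1 ≤ lam k := anti (by omega)
            have h7 : (k + 1) * lam R1 = k * lam R1 + lam R1 := by ring
            omega
        exact_mod_cast h4 R1 le_rfl
      have h4 : (X + R1) * (lam R1 : ℝ) < X * (lam 0 : ℝ) := by nlinarith
      have h5 : (X + R1) * ((1 - (R1 : ℝ) / X ^ 3) * (lam 0 : ℝ)) ≤ (X + R1) * (lam R1 : ℝ) :=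
        mul_le_mul_of_nonneg_left h1 (by positivity)
      have h6 : (X + R1) * (1 - (R1 : ℝ) / X ^ 3) < X := by
        by_contra h7
        push Not at h7
        have := mul_le_mul_of_nonneg_right h7 hl0.le
        nlinarith
      have h7 : X * ((R1 : ℝ) / X ^ 3) ≤ (R1 : ℝ) / 4 := by
        have h8 : X * ((R1 : ℝ) / X ^ 3) = (R1 : ℝ) / X ^ 2 := by
          field_simp
        rw [h8]
        apply div_le_div_of_nonneg_left (Nat.cast_nonneg _) (by norm_num)
        nlinarith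
      have h8 : (R1 : ℝ) * ((R1 : ℝ) / X ^ 3) ≤ (R1 : ℝ) / 2 := by
        have := mul_le_mul_of_nonneg_left hk (Nat.cast_nonneg (α := ℝ) R1)
        linarith
      have h9 : (0 : ℝ) < R1 := by exact_mod_cast hpos
      nlinarith
    · -- tiny at `R1`
      have h3 : (lam R1 : ℝ) ≤ (D n lam R1 : ℝ) := by exact_mod_cast lam_le_D h0 R1
      have h4 : (lam 0 : ℝ) ≤ 2 * Y := by nlinarith
      have h5 : (D n lam 0 : ℝ) ≤ (R1 : ℝ) * (lam 0 : ℝ) + (D n lam R1 : ℝ) := by
        have := D_window (n := n) anti 0 R1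
        rw [zero_add] at this
        exact_mod_cast this
      have h6 : (R1 : ℝ) * (lam 0 : ℝ) ≤ B * (2 * Y) :=
        mul_le_mul hR1B h4 hl0.le (by linarith)
      nlinarith
  -- the last gap
  obtain ⟨r0, hr0, hg0⟩ := hgap
  set S := (Finset.range R1).filter
    (fun r => (lam r : ℝ) ≤ X ^ 3 * ((lam r : ℝ) - (lam (r + 1) : ℝ))) with hS
  have hne : S.Nonempty := ⟨r0, by rw [hS, Finset.mem_filter, Finset.mem_range]; exact ⟨hr0, hg0⟩⟩
  set r := S.max' hne with hr
  have hrS : r ∈ S := S.max'_mem hne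
  rw [hS, Finset.mem_filter, Finset.mem_range] at hrS
  obtain ⟨hrR, hgr⟩ := hrS
  have hafter : ∀ j, r + 1 ≤ j → j < r + 1 + (R1 - (r + 1)) →
      X ^ 3 * ((lam j : ℝ) - (lam (j + 1) : ℝ)) < (lam j : ℝ) := by
    intro j h1 h2
    by_contra h3
    push Not at h3
    have h4 : j ∈ S := by
      rw [hS, Finset.mem_filter, Finset.mem_range]
      exact ⟨by omega, h3⟩
    have h5 := S.le_max' j h4
    omega
  have h1 := small_gaps anti hX0 hafter
  rw [show r + 1 + (R1 - (r + 1)) = R1 by omega] at h1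
  have hk := hkX (R1 - (r + 1)) (by omega)
  have hhalf : (lam (r + 1) : ℝ) / 2 ≤ (lam R1 : ℝ) := by
    have h2 : (0 : ℝ) ≤ (lam (r + 1) : ℝ) := Nat.cast_nonneg _
    nlinarith
  obtain ⟨hr1, hr2⟩ := hlt r hrR
  have hDr : (D n lam (r + 1) : ℝ) ≤ (D n lam r : ℝ) := by
    exact_mod_cast D_anti n lam (Nat.le_succ r)
  have hlr : 0 < (lam r : ℝ) := by
    by_contra h3
    push Not at h3
    nlinarith
  refine ⟨r, ?_, by exact_mod_cast hlr, hgr, by linarith, ?_, fun j hj => hlt j (by omega), ?_⟩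
  · have : ((r + 1 : ℕ) : ℝ) ≤ R1 := by exact_mod_cast hrR
    linarith
  · have h3 : X * (lam r : ℝ) ≤ X * (X ^ 3 * ((lam r : ℝ) - (lam (r + 1) : ℝ))) :=
      mul_le_mul_of_nonneg_left hgr hX0.le
    nlinarith
  · rcases hP with h | h
    · left
      have h3 : (D n lam R1 : ℝ) ≤ (D n lam (r + 1) : ℝ) := by
        exact_mod_cast D_anti n lam (show r + 1 ≤ R1 by omega)
      nlinarith
    · right
      have h3 : (lam R1 : ℝ) ≤ (D n lam R1 : ℝ) := by exact_mod_cast lam_le_D h0 R1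
      have h4 : (lam (r + 1) : ℝ) ≤ 2 * Y := by linarith
      have h5 : (D n lam (r + 1) : ℝ) ≤
          ((R1 - (r + 1) : ℕ) : ℝ) * (lam (r + 1) : ℝ) + (D n lam R1 : ℝ) := by
        have := D_window (n := n) anti (r + 1) (R1 - (r + 1))
        rw [show r + 1 + (R1 - (r + 1)) = R1 by omega] at this
        exact_mod_cast this
      have h6 : ((R1 - (r + 1) : ℕ) : ℝ) ≤ B := by
        have : ((R1 - (r + 1) : ℕ) : ℝ) ≤ (R1 : ℝ) := by exact_mod_cast Nat.sub_le _ _
        linarith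
      have h7 : ((R1 - (r + 1) : ℕ) : ℝ) * (lam (r + 1) : ℝ) ≤ B * (2 * Y) :=
        mul_le_mul h6 h4 (Nat.cast_nonneg _) (by linarith)
      nlinarith

end Vale.Agent.P181.H310
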