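import Vale.Agent.P181.H310.LB10Num
import Vale.Agent.P181.H310.Cols10
import Vale.Agent.P181.H12.GtAdd
import Vale.Agent.P181.H727.TopA
import Vale.Agent.P181.H503.Num7
import Vale.Agent.P181.T7.Spec

set_option autoImplicit false

/-!
# P181, T8: LB10, LB7 with `m` digit rows and `K` classes of contents: only
`K * (k / (16 r m)) ^ m ≥ C N` is needed
-/

open scoped Classical

namespace Vale.Agent.P181.H310

open Finset
open Vale.Agent.P181.T4 (ex low ex_of_lt ex_anti low_anti sum_split)
open Vale.Agent.P181.H463 (gt)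
open Vale.Agent.P181.H280 (plethMult)
open Vale.Agent.P181.H12 (colLen lt_colLen_ex exists_fix gt_add_le low_le_fix)

/-- **(LB10)** -/
theorem lb10 {a k B n r N top m h K P nmax cost : ℕ} (mu : Fin n → ℕ)
    (F : Finset (Fin (ex mu 0))) (hmu : Antitone mu) (hsum : ∑ i, mu i = k * B) (hn : n ≤ a)
    (haN : a ≤ N) (hr : 2 ≤ r) (hrn : r ≤ n) (hm1 : 1 ≤ m) (hmr : m < r)
    (hk : 8 * r * (r + 5) ≤ k) (hrN : 16 * r ^ 3 ≤ N)
    (hh : 16 * r * m * h ≤ k) (hK : 24 * r * K ≤ k) (hNK : N = K * P * 2)
    (hhP : 55 * P < (h + 1) ^ m)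
    (hBK : 3 * (P * (K * (K - 1))) ≤ ∑ c ∈ F, (colLen n (ex mu) c - r))
    (hnm : ∀ c ∈ F, colLen n (ex mu) c - r ≤ nmax) (hnN : nmax ≤ N)
    (hroom : nmax * (2 * (3 * K + (∑ c ∈ F, (colLen n (ex mu) c - r) -
      3 * (P * (K * (K - 1)))) / N + 1)) < ∑ c ∈ F, (colLen n (ex mu) c - r))
    (hy : ex mu r + 4 * N * k ≤ ex mu (r - 1)) (h0 : ex mu 0 ≤ 2 * (ex mu (r - 1) - ex mu r))
    (hD : 2 * ∑ i, low r mu i ≤ N * k)
    (hcost : gt (n - r) a (muR r mu F) ≤ cost)
    (htop : (top : ℝ) * cost * ((k : ℝ) + 1) ^ a ≤ Real.exp N) :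
    top * gt (n - r) a (low r mu) ≤ plethMult B k n mu := by
  set D := ∑ i, low r mu i with hDdef
  set BF := ∑ c ∈ F, (colLen n (ex mu) c - r) with hBF
  have hkpos : 0 < k := by
    have : 8 * r * (r + 5) = 8 * (r * r) + 40 * r := by ring
    omega
  have hr3 : r ≤ r ^ 3 := by
    calc r = r ^ 1 := (pow_one r).symm
      _ ≤ r ^ 3 := Nat.pow_le_pow_right (by omega) (by omega)
  have hN : 0 < N := by omega
  have ha : 0 < a := by omega
  have hP1 : 1 ≤ P := by
    by_contra h1
    have : P = 0 := by omega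
    rw [this] at hNK
    omega
  have hexanti : Antitone (ex mu) := fun i j hij => ex_anti hmu hij
  have hsplit := sum_split hrn mu
  have hηB : ∑ i, etaR r mu F i + BF = D := by
    rw [hDdef, ← sum_eta_muR hmu r F, sum_muR]
  obtain ⟨w, t, cq, dq, typ, hw1, hw2, hw3, hw4, hT, hex, hroom', hcap, hB, hcsum, hcle, hdsum,
    hbal, hT1, hT2, hT3, hT4, hT5⟩ :=
    lb10_numbers hexanti (D := D) (D' := ∑ i, etaR r mu F i) (BF := BF) hr hm1 hmr hk hrN hh hK hNK
      hηB hBK (by rw [← hsplit]; exact hsum) hy (by omega) hD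
  obtain ⟨fx, hfx1, hfx2⟩ := exists_fix (N := N) (C := Fin (ex mu 0))
    (fun c => colLen n (ex mu) c - r) F cq nmax
    (3 * K + (BF - 3 * (P * (K * (K - 1)))) / N + 1) hN hnm hnN hcle (by rw [hcsum]) hroom
  -- the design of a type system
  let Dt : TypIx m h K P → Vale.Agent.P181.H727.Dat := fun u =>
    { R := r
      k := k
      N := N
      lam := ex mu
      w := fun i => w i
      u := typ u
      W := w 0
      Θ := N * k - D
      hlam := hexanti
      hR := by omega
      hu := fun q i hi => hT3 u q i hi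
      h1 := fun i => by
        rw [hT1 u i i.2]
        exact hw1 i i.2
      hpos := fun i => by
        have := hw4 i i.2
        omega
      hW := fun i => hw3 i i.2
      hN := fun i => hw4 i i.2
      hΘ := by
        rw [Finset.sum_comm]
        have h1 : ∑ i : Fin r, ∑ q : Fin N, typ u q i = ∑ i : Fin r, t i :=
          Finset.sum_congr rfl fun i _ => hT1 u i i.2
        rw [h1, Fin.sum_univ_eq_sum_range t r]
        exact hT
      hex := hex
      hroom := hroom'
      hcap := fun i => hcap i i.2 }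
  have hmm : ∀ i, n ≤ i → ex mu i = 0 := by
    intro i hi
    unfold ex
    rw [dif_neg (by omega)]
  have htyp : ∀ u (q : Fin N) (i : ℕ), i < r → ((Dt u).top7 n hmm).typ q i = typ u q i :=
    fun u q i hi => (Dt u).top7_typ hmm q hi
  have key := low_le_fix (m := n) (R := r) (N := N) (b := B) (k := k)
    (T := Σ i : Fin r, Fin (w i)) (cls := fun x => (x.1 : ℕ)) (fun x => x.1.2)
    (U := TypIx m h K P) (fun _ => Fin (ex mu 0))
    (fun u => (Dt u).top7 n hmm) (fun _ => F) (etaR r mu F) (fun _ => fx)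
    (fun _ c hc => hfx1 c hc) (fun _ => dq) t mu
    (by
      simp only [Fintype.card_sigma, Fintype.card_fin]
      rw [Fin.sum_univ_eq_sum_range w r]
      exact hB)
    (fun u i => by
      have h1 := (Dt u).top7_rows hmm i
      rw [h1]
      change ex mu i = mu i
      rw [ex_of_lt mu i.2])
    (fun u i => by
      rw [etaR]
      congr 1
      ext c
      simp only [mem_filter, mem_univ, true_and]
      exact Iff.rfl)
    (fun u x => (Dt u).top7_inc hmm x)
    (fun u q => by
      have h1 : ∑ i ∈ range r, ((Dt u).top7 n hmm).typ q i = ∑ i ∈ range r, typ u q i :=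
        Finset.sum_congr rfl fun i hi => htyp u q i (Finset.mem_range.1 hi)
      have g2 : ∑ c ∈ F, (univ.filter fun s => fx c s = q).card = cq q := hfx2 q
      have g3 : ∑ i ∈ range r, ((Dt u).top7 n hmm).typ q i +
          (dq q + ∑ c ∈ F, (univ.filter fun s => fx c s = q).card) = k := by
        rw [h1, g2]
        exact hT2 u q
      exact g3)
    (fun _ => hbal)
    (fun _ => hdsum)
    (fun u lo => (Dt u).top7_forced hmm (fun i j hij => hw2 i i.2 j j.2 hij) t lo)
    (fun u i hi => by
      have h1 : ∑ q, ((Dt u).top7 n hmm).typ q i = ∑ q, typ u q i :=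
        Finset.sum_congr rfl fun q _ => htyp u q i hi
      exact h1.trans (hT1 u i hi))
    (fun u u' ⟨σ, hσ⟩ => by
      refine (hT5 u' u σ fun q i hi => ?_).symm
      exact (htyp u q i hi).symm.trans ((hσ q i hi).trans (htyp u' (σ q) i hi)))
    (fun u q q' hqq => by
      refine hT4 u q q' fun i hi => ?_
      exact (htyp u q i hi).symm.trans ((hqq i hi).trans (htyp u q' i hi)))
  -- the count
  have hcard := card_typ_exp_K (K := K) (P := P) (N := N) hm1 hNK hP1 hhP
  have hηD : ∑ i, etaR r mu F i ≤ D := by omega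
  have hnum := Vale.Agent.P181.H503.num7_nat (n := n - r) (a := a) (N := N) (by omega) ha haN
    (eta := etaR r mu F) (etaR_anti r F) (top * cost)
    (Fintype.card (TypIx m h K P)) (by
      refine le_trans ?_ hcard
      have hN' : (0 : ℝ) < N := by exact_mod_cast hN
      have h1 : ((∑ i, etaR r mu F i : ℕ) : ℝ) / N ≤ k := by
        rw [div_le_iff₀ hN']
        have h2 : ((∑ i, etaR r mu F i : ℕ) : ℝ) ≤ ((k * N : ℕ) : ℝ) := by
          have h3 : ∑ i, etaR r mu F i ≤ k * N := by
            have : k * N = N * k := Nat.mul_comm _ _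
            omega
          exact_mod_cast h3
        push_cast at h2 ⊢
        exact h2
      have h2 : (1 + ((∑ i, etaR r mu F i : ℕ) : ℝ) / N) ^ a ≤ ((k : ℝ) + 1) ^ a := by
        refine pow_le_pow_left₀ (by positivity) ?_ _
        linarith
      calc ((top * cost : ℕ) : ℝ) *
            (Real.exp N * (1 + ((∑ i, etaR r mu F i : ℕ) : ℝ) / N) ^ a)
          ≤ ((top * cost : ℕ) : ℝ) * (Real.exp N * ((k : ℝ) + 1) ^ a) := by
            refine mul_le_mul_of_nonneg_left ?_ (Nat.cast_nonneg _)
            exact mul_le_mul_of_nonneg_left h2 (Real.exp_pos _).le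
        _ = Real.exp N * ((top : ℝ) * cost * ((k : ℝ) + 1) ^ a) := by push_cast; ring
        _ ≤ Real.exp N * Real.exp N := mul_le_mul_of_nonneg_left htop (Real.exp_pos _).le
        _ = Real.exp (2 * N) := by rw [← Real.exp_add]; congr 1; ring)
  have hC : 0 < (∑ i, etaR r mu F i + N - 1).choose (N - 1) := Nat.choose_pos (by omega)
  have hlow : gt (n - r) a (low r mu) ≤ cost * gt (n - r) a (etaR r mu F) := by
    have e : low r mu = fun i => etaR r mu F i + muR r mu F i := by
      funext i
      exact (eta_add_muR hmu r F i).symm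
    rw [e]
    refine (gt_add_le a (etaR_anti r F) (muR_anti r F)).trans ?_
    rw [Nat.mul_comm]
    exact Nat.mul_le_mul_right _ hcost
  have hfin := hnum.trans key
  rw [Nat.mul_comm ((∑ i, etaR r mu F i + N - 1).choose (N - 1)) (plethMult B k n mu)] at hfin
  have h5 := Nat.le_of_mul_le_mul_right hfin hC
  calc top * gt (n - r) a (low r mu) ≤ top * (cost * gt (n - r) a (etaR r mu F)) :=
        Nat.mul_le_mul_left _ hlow
    _ = top * cost * gt (n - r) a (etaR r mu F) := by ring
    _ ≤ _ := h5

end Vale.Agent.P181.H310
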