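import Vale.Agent.P181.H310.LB7kNum
import Vale.Agent.P181.H12.Nums

set_option autoImplicit false

/-!
# P181, T8/LB10: the numbers with `m` digit rows and `K` classes of contents
-/

namespace Vale.Agent.P181.H310

open Finset

/-- number of type sets, `K` classes, `m` digit rows. -/
theorem card_typ_exp_K {h K P N m : ℕ} (hm : 1 ≤ m) (hN : N = K * P * 2) (hP1 : 1 ≤ P)
    (hhP : 55 * P < (h + 1) ^ m) :
    Real.exp (2 * N) ≤ (Fintype.card (TypIx m h K P) : ℝ) := by
  have h1 := card_typIx_ge m h K P (by omega)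
  refine le_trans ?_ h1
  have hPpos : (0 : ℝ) < P := by exact_mod_cast hP1
  have h2 : Real.exp 4 ≤ (((h + 1) ^ m - 1 : ℕ) : ℝ) / P := by
    rw [le_div_iff₀ hPpos]
    have h3 : Real.exp 4 ≤ 55 := by
      have h4 : Real.exp 4 = Real.exp 1 ^ 4 := by
        rw [← Real.exp_nat_mul]; norm_num
      rw [h4]
      have h5 := Real.exp_one_lt_d9
      calc Real.exp 1 ^ 4 ≤ (2.7182818286 : ℝ) ^ 4 :=
            pow_le_pow_left₀ (Real.exp_pos 1).le h5.le 4
        _ ≤ 55 := by norm_num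
    have h6 : (((55 * P : ℕ)) : ℝ) ≤ (((h + 1) ^ m - 1 : ℕ) : ℝ) := by
      have : 55 * P ≤ (h + 1) ^ m - 1 := by omega
      exact_mod_cast this
    calc Real.exp 4 * P ≤ 55 * P := mul_le_mul_of_nonneg_right h3 hPpos.le
      _ = ((55 * P : ℕ) : ℝ) := by push_cast; ring
      _ ≤ _ := h6
  calc Real.exp (2 * N) = Real.exp (((K * P : ℕ) : ℝ) * 4) := by
        congr 1
        rw [hN]
        push_cast
        ring
    _ = Real.exp 4 ^ (K * P) := by rw [Real.exp_nat_mul]
    _ ≤ _ := pow_le_pow_left₀ (Real.exp_pos 4).le h2 (K * P)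

/-- all numbers of the design, `m` digit rows, `K` classes. -/
theorem lb10_numbers {μ : ℕ → ℕ} (hμ : Antitone μ) {k B r N D m h K P D' BF : ℕ} (hr : 2 ≤ r)
    (hm : 1 ≤ m) (hmr : m < r)
    (hk : 8 * r * (r + 5) ≤ k) (hrN : 16 * r ^ 3 ≤ N)
    (hh1 : 16 * r * m * h ≤ k) (hK : 24 * r * K ≤ k) (hNK : N = K * P * 2)
    (hηB : D' + BF = D) (hBK : 3 * (P * (K * (K - 1))) ≤ BF)
    (hsum : ∑ i ∈ range r, μ i + D = k * B) (hy : μ r + 4 * N * k ≤ μ (r - 1))
    (h0 : μ 0 ≤ 2 * μ (r - 1)) (hD : 2 * D ≤ N * k) :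
    ∃ (w : ℕ → ℕ) (t : ℕ → ℕ) (cq dq : Fin N → ℕ) (typ : TypIx m h K P → Fin N → ℕ → ℕ),
      (∀ i < r, μ i = k * w i + t i) ∧
      (∀ i < r, ∀ j < r, i < j → w j < w i) ∧
      (∀ i < r, w i ≤ w 0) ∧ (∀ i < r, 2 * N ≤ w i) ∧
      ∑ i ∈ range r, t i = N * k - D ∧ μ r + (N * k - D) ≤ μ (r - 1) ∧
      r * w 0 + 2 * N + (N * k - D) ≤ μ (r - 1) ∧
      (∀ i < r, r * (w 0 / w i + 1) + 3 ≤ k) ∧
      ∑ i ∈ range r, w i + N = B ∧
      ∑ q, cq q = BF ∧ (∀ q, cq q ≤ 3 * K + (BF - 3 * (P * (K * (K - 1)))) / N + 1) ∧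
      ∑ q, dq q = D' ∧ (∀ i j, dq i ≤ dq j + 1) ∧
      (∀ u, ∀ i < r, ∑ q, typ u q i = t i) ∧
      (∀ u q, ∑ i ∈ range r, typ u q i + (dq q + cq q) = k) ∧
      (∀ u q, ∀ i < r, 2 ≤ typ u q i) ∧
      (∀ u q q', (∀ i < r, typ u q i = typ u q' i) → q = q') ∧
      (∀ u u' (ρ : Equiv.Perm (Fin N)), (∀ q, ∀ i < r, typ u' q i = typ u (ρ q) i) → u = u') := by
  have hk' : 56 * r ≤ k := by
    have h1 : 8 * r * 7 ≤ 8 * r * (r + 5) := Nat.mul_le_mul_left _ (by omega)
    omega
  have hkr2 : 8 * (r * r) + 40 * r ≤ k := by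
    have : 8 * r * (r + 5) = 8 * (r * r) + 40 * r := by ring
    omega
  have hkpos : 0 < k := by omega
  have hr3 : r ≤ r ^ 3 := by
    calc r = r ^ 1 := (pow_one r).symm
      _ ≤ r ^ 3 := Nat.pow_le_pow_right (by omega) (by omega)
  have hrN' : r ≤ N := by omega
  have hN : 0 < N := by omega
  set Θ := N * k - D with hΘ
  have hΘ1 : N * k ≤ 2 * Θ := by omega
  have hΘ2 : Θ ≤ N * k := Nat.sub_le _ _
  have hH4 : 4 * (N * k) ≤ μ (r - 1) := by
    have : 4 * N * k = 4 * (N * k) := by ring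
    omega
  have hμ0 : μ (r - 1) ≤ μ 0 := hμ (by omega)
  have hNB : N ≤ B := by
    have h1 : μ 0 ≤ ∑ i ∈ range r, μ i :=
      Finset.single_le_sum (f := μ) (fun i _ => Nat.zero_le _) (Finset.mem_range.2 (by omega))
    have h2 : k * N ≤ k * B := by
      have : k * N = N * k := Nat.mul_comm _ _
      omega
    exact Nat.le_of_mul_le_mul_left h2 hkpos
  have hsum' : ∑ i ∈ range r, μ i = k * (B - N) + Θ := by
    rw [Nat.mul_sub]
    have h1 : k * N ≤ k * B := Nat.mul_le_mul_left _ hNB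
    have h2 : k * N = N * k := Nat.mul_comm _ _
    omega
  have hkN1 : k * r ^ 3 * 16 ≤ N * k := by
    calc k * r ^ 3 * 16 = k * (16 * r ^ 3) := by ring
      _ ≤ k * N := Nat.mul_le_mul_left _ hrN
      _ = N * k := Nat.mul_comm _ _
  have hτ : k * r ^ 2 ≤ Θ / r := by
    rw [Nat.le_div_iff_mul_le (by omega)]
    have : k * r ^ 2 * r = k * r ^ 3 := by ring
    omega
  have hkr : k * r * 16 ≤ N * k := by
    have : k * r ≤ k * r ^ 3 := Nat.mul_le_mul_left _ hr3
    omega
  have hHH : Θ + k * r ≤ μ (r - 1) := by omega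
  obtain ⟨w, t, hw1, ht1, hw2, hw3, ht2, ht3, ht4⟩ :=
    exists_totals hμ hkpos (by omega) (by omega) hsum' hτ hHH
  have hΘr3 : Θ / r * 2 ≤ Θ := by
    calc Θ / r * 2 ≤ Θ / r * r := Nat.mul_le_mul_left _ hr
      _ ≤ Θ := Nat.div_mul_le_self _ _
  -- lower bound of the class sizes
  have hkw : ∀ i < r, μ (r - 1) ≤ k * w i + (Θ / r + k * r) := by
    intro i hi
    have h1 := hw1 i hi
    have h2 : μ (r - 1) ≤ μ i := hμ (by omega)
    have h3 : t i ≤ Θ / r + k * r := by
      rcases Nat.eq_zero_or_pos i with hi0 | hi0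
      · subst hi0
        omega
      · exact (ht2 i hi0 hi).2
    omega
  have hw2N : ∀ i < r, 2 * N ≤ w i := by
    intro i hi
    have h1 := hkw i hi
    have h2 : k * (2 * N) ≤ k * w i := by
      have : k * (2 * N) = 2 * (N * k) := by ring
      omega
    exact Nat.le_of_mul_le_mul_left h2 hkpos
  have hkw' : ∀ i < r, μ (r - 1) ≤ 2 * (k * w i) := by
    intro i hi
    have h1 := hkw i hi
    omega
  have hkw0 : k * w 0 ≤ 2 * μ (r - 1) := by
    have := hw1 0 (by omega)
    omega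
  have hW4 : ∀ i < r, w 0 ≤ 4 * w i := by
    intro i hi
    have h1 := hkw' i hi
    have h2 : k * w 0 ≤ k * (4 * w i) := by
      have : k * (4 * w i) = 4 * (k * w i) := by ring
      omega
    exact Nat.le_of_mul_le_mul_left h2 hkpos
  -- strictly decreasing
  have hanti : ∀ i j, i < j → j < r → w j < w i := by
    intro i j hij
    induction j, hij using Nat.le_induction with
    | base => intro hj; exact hw3 i hj
    | succ j _ ih =>
      intro hj
      exact lt_trans (hw3 j hj) (ih (by omega))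
  have hrw : 28 * (r * w 0) ≤ μ (r - 1) := by
    have h1 : (56 * r) * (r * w 0) ≤ k * (r * w 0) := Nat.mul_le_mul_right _ hk'
    have h2 : k * (r * w 0) = r * (k * w 0) := by ring
    have h3 : r * (k * w 0) ≤ r * (2 * μ (r - 1)) := Nat.mul_le_mul_left _ hkw0
    have h4 : (2 * r) * (28 * (r * w 0)) ≤ (2 * r) * μ (r - 1) := by
      calc (2 * r) * (28 * (r * w 0)) = (56 * r) * (r * w 0) := by ring
        _ ≤ k * (r * w 0) := h1
        _ = r * (k * w 0) := h2
        _ ≤ r * (2 * μ (r - 1)) := h3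
        _ = (2 * r) * μ (r - 1) := by ring
    exact Nat.le_of_mul_le_mul_left h4 (by omega)
  have hNk : N ≤ N * k := Nat.le_mul_of_pos_right _ hkpos
  have hNk64 : 56 * N ≤ N * k := by
    calc 56 * N = N * 56 := Nat.mul_comm _ _
      _ ≤ N * k := Nat.mul_le_mul_left _ (by omega)
  -- types
  have hhr : 16 * (m * h * r) ≤ k := by
    have : 16 * r * m * h = 16 * (m * h * r) := by ring
    omega
  have hNhr : 16 * (N * (m * h * r)) ≤ N * k := by
    calc 16 * (N * (m * h * r)) = N * (16 * (m * h * r)) := by ring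
      _ ≤ N * k := Nat.mul_le_mul_left _ hhr
  have hNhr' : N * (h * r) ≤ N * (m * h * r) := by
    refine Nat.mul_le_mul_left _ (Nat.mul_le_mul_right _ ?_)
    exact Nat.le_mul_of_pos_left _ hm
  have hNrr : 8 * (N * (r * r)) + 40 * (N * r) ≤ N * k := by
    calc 8 * (N * (r * r)) + 40 * (N * r) = N * (8 * (r * r) + 40 * r) := by ring
      _ ≤ N * k := Nat.mul_le_mul_left _ hkr2
  have hNKr : 24 * (N * (r * K)) ≤ N * k := by
    calc 24 * (N * (r * K)) = N * (24 * r * K) := by ring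
      _ ≤ N * k := Nat.mul_le_mul_left _ hK
  have hti : ∀ i, 1 ≤ i → i < r → 2 + 2 * h ≤ t i / N := by
    intro i hi1 hi
    rw [Nat.le_div_iff_mul_le hN]
    refine le_trans ?_ (ht2 i hi1 hi).1
    rw [Nat.le_div_iff_mul_le (by omega)]
    have : (2 + 2 * h) * N * r = 2 * (N * r) + 2 * (N * (h * r)) := by ring
    rw [this]
    omega
  -- letters and contents
  have hcardN : Fintype.card (Fin K × Fin P × Bool) = N := by
    rw [Fintype.card_prod, Fintype.card_prod, Fintype.card_fin, Fintype.card_fin,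
      Fintype.card_bool, hNK, mul_assoc]
  let ι : (Fin K × Fin P × Bool) ≃ Fin N := Fintype.equivFinOfCardEq hcardN
  set G := BF - 3 * (P * (K * (K - 1))) with hG
  let cq : Fin N → ℕ := fun q => 3 * ((ι.symm q).1 : ℕ) + (G / N + if (q : ℕ) < G % N then 1 else 0)
  let dq : Fin N → ℕ := fun q => D' / N + if (q : ℕ) < D' % N then 1 else 0
  have hcsum : ∑ q, cq q = BF := by
    have h4 : ∑ q : Fin N, ((ι.symm q).1 : ℕ) = P * (K * (K - 1)) := by
      rw [← H12.sum_cls K P]
      exact Equiv.sum_comp ι.symm (fun z : Fin K × Fin P × Bool => (z.1 : ℕ))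
    simp only [cq]
    rw [Finset.sum_add_distrib, ← Finset.mul_sum, h4, H12.sum_bal N G hN]
    omega
  have hdsum : ∑ q, dq q = D' := H12.sum_bal N D' hN
  have hkq : ∀ q : Fin N, ((ι.symm q).1 : ℕ) < K := fun q => (ι.symm q).1.2
  have hcle : ∀ q, cq q ≤ 3 * K + G / N + 1 := by
    intro q
    have := hkq q
    simp only [cq]
    split_ifs <;> omega
  have hGD : G / N + D' / N ≤ D / N := by
    rw [Nat.le_div_iff_mul_le hN, add_mul]
    have h4 := Nat.div_mul_le_self G N
    have h5 := Nat.div_mul_le_self D' N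
    omega
  have hcd : ∀ q, dq q + cq q ≤ D / N + 3 * K + 2 := by
    intro q
    have := hkq q
    simp only [cq, dq]
    split_ifs <;> omega
  have hDN2 : D / N ≤ k / 2 := by
    have h3 : D / N ≤ (N * k / 2) / N := Nat.div_le_div_right (by omega)
    rwa [Nat.div_div_eq_div_mul, Nat.mul_comm 2 N, Nat.mul_div_mul_left _ _ hN] at h3
  have hK24 : 48 * K ≤ k := by
    have : 24 * 2 * K ≤ 24 * r * K := Nat.mul_le_mul_right _ (Nat.mul_le_mul_left _ hr)
    omega
  have hcdk : ∀ q, dq q + cq q ≤ k := by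
    intro q
    have := hcd q
    omega
  let s : Fin N → ℕ := fun q => k - (dq q + cq q)
  have hs : ∀ q, s q + (dq q + cq q) = k := by
    intro q
    have := hcdk q
    simp only [s]
    omega
  have hssum : ∑ q, s q + D = N * k := by
    have h4 : ∑ q, (s q + (dq q + cq q)) = N * k := by
      rw [Finset.sum_congr rfl fun q _ => hs q]
      simp
    rw [Finset.sum_add_distrib, Finset.sum_add_distrib, hdsum, hcsum] at h4
    rw [← h4, ← hηB]
  have hst : ∑ i ∈ range r, t i = ∑ q : Fin N, s q := by omega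
  have hsumdiv : N * ∑ i ∈ Ico 1 r, (t i / N + 1) ≤ (Θ - t 0) + N * (r - 1) := by
    rw [Finset.mul_sum]
    have h1 : ∑ i ∈ Ico 1 r, N * (t i / N + 1) ≤ ∑ i ∈ Ico 1 r, (t i + N) := by
      refine Finset.sum_le_sum fun i _ => ?_
      have := Nat.mul_div_le (t i) N
      rw [Nat.mul_add, Nat.mul_one]
      omega
    refine h1.trans ?_
    rw [Finset.sum_add_distrib, Finset.sum_const, smul_eq_mul]
    have h2 : (Ico 1 r).card = r - 1 := by simp
    rw [h2]
    have h3 : ∑ i ∈ range r, t i = t 0 + ∑ i ∈ Ico 1 r, t i := by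
      rw [Finset.range_eq_Ico, Finset.sum_eq_sum_Ico_succ_bot (by omega)]
    have h4 : (r - 1) * N = N * (r - 1) := Nat.mul_comm _ _
    omega
  have ht0Θ : t 0 ≤ Θ := by
    have := Nat.div_le_self Θ r
    omega
  have ht0 : N * (r + 3 + 2 * (m * h) + 3 * K) ≤ t 0 := by
    have h1 : N * (r + 3 + 2 * (m * h) + 3 * K) + k * r ^ 2 ≤ Θ / r := by
      rw [Nat.le_div_iff_mul_le (by omega)]
      have h2 : (N * (r + 3 + 2 * (m * h) + 3 * K) + k * r ^ 2) * r =
          N * (r * r) + 3 * (N * r) + 2 * (N * (m * h * r)) + 3 * (N * (r * K)) + k * r ^ 3 := by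
        ring
      rw [h2]
      omega
    omega
  obtain ⟨typ, hT1, hT2, hT3, -, hT5, hT6⟩ := typ_family (R := r) (r := m) (h := h) (K := K)
    (P := P) s t hst hmr ι ι.injective (by
      intro k k' p p' b' he
      have g1 := hs (ι (k, p, b'))
      have g2 := hs (ι (k', p', b'))
      have g3 : dq (ι (k, p, b')) + cq (ι (k, p, b')) = dq (ι (k', p', b')) + cq (ι (k', p', b')) := by
        omega
      simp only [dq, cq, Equiv.symm_apply_apply] at g3
      apply Fin.ext
      split_ifs at g3 <;> omega) (by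
      intro q q' _ hq
      exact absurd (ι.apply_symm_apply q) (hq (ι.symm q))) (lo := 2)
    (fun i hi1 hi2 => hti i hi1 (by omega))
    (fun i hi1 hi2 => le_trans (by omega) (hti i (by omega) hi2))
    (fun q => by
      have h1 : N * (2 + 2 * (m * h) + ∑ i ∈ Ico 1 r, (t i / N + 1)) ≤ N * s q := by
        have g1 : N * s q + N * (dq q + cq q) = N * k := by
          rw [← Nat.mul_add, hs q]
        have g2 : N * (dq q + cq q) ≤ D + N * (3 * K + 2) := by
          have g3 := Nat.mul_le_mul_left N (hcd q)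
          have g4 := Nat.mul_div_le D N
          have g5 : N * (D / N + 3 * K + 2) = N * (D / N) + N * (3 * K + 2) := by ring
          omega
        rw [Nat.mul_add]
        have h3 : N * (2 + 2 * (m * h)) + N * (r - 1) + N * (3 * K + 2) =
            N * (r + 3 + 2 * (m * h) + 3 * K) := by
          obtain ⟨e, rfl⟩ : ∃ e, r = e + 1 := ⟨r - 1, by omega⟩
          rw [Nat.add_sub_cancel]; ring
        omega
      exact Nat.le_of_mul_le_mul_left h1 hN)
  refine ⟨w, t, cq, dq, typ, hw1, fun i hi j hj hij => hanti i j hij hj, ?_, hw2N, ht1, ?_, ?_, ?_,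
    ?_, hcsum, hcle, hdsum, ?_, hT1, ?_, hT3, hT5, hT6⟩
  · intro i hi
    rcases Nat.eq_zero_or_pos i with hi0 | hi0
    · rw [hi0]
    · exact (hanti 0 i hi0 hi).le
  · have : 4 * N * k = 4 * (N * k) := by ring
    omega
  · omega
  · intro i hi
    have h1 : w 0 / w i ≤ 4 := by
      have h2 := hw2N i hi
      calc w 0 / w i ≤ 4 * w i / w i := Nat.div_le_div_right (hW4 i hi)
        _ = 4 := Nat.mul_div_cancel _ (by omega)
    have h3 : r * (w 0 / w i + 1) ≤ r * 5 := Nat.mul_le_mul_left _ (by omega)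
    have h4 : 2 * 2 ≤ r * r := Nat.mul_le_mul hr hr
    omega
  · rw [hw2]
    omega
  · intro i j
    simp only [dq]
    split_ifs <;> omega
  · intro u q
    rw [hT2 u q, hs q]

end Vale.Agent.P181.H310
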