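import Mathlib

set_option autoImplicit false

/-!
# P181, T7/LB7: class sizes and totals of the marks

`μ i = k * w i + t i`, `w` strictly decreasing, `t i` close to `Θ / r`, `∑ t i = Θ`.
-/

namespace Vale.Agent.P181.H310

open Finset

theorem exists_totals {μ : ℕ → ℕ} (hμ : Antitone μ) {k r M Θ : ℕ} (hk : 0 < k) (hr : 2 ≤ r)
    (hrk : r ≤ k) (hsum : ∑ i ∈ range r, μ i = k * M + Θ) (hτ : k * r ^ 2 ≤ Θ / r)
    (hH : Θ + k * r ≤ μ (r - 1)) :
    ∃ w t : ℕ → ℕ, (∀ i < r, μ i = k * w i + t i) ∧ ∑ i ∈ range r, t i = Θ ∧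
      ∑ i ∈ range r, w i = M ∧ (∀ i, i + 1 < r → w (i + 1) < w i) ∧
      (∀ i, 1 ≤ i → i < r → Θ / r ≤ t i ∧ t i ≤ Θ / r + k * r) ∧
      Θ / r ≤ t 0 + k * r ^ 2 ∧ t 0 ≤ Θ / r := by
  set τ := Θ / r with hτdef
  have hrpos : 0 < r := by omega
  have hτΘ : τ ≤ Θ := Nat.div_le_self _ _
  have hτr : r * τ ≤ Θ := Nat.mul_div_le Θ r
  have hτr' : Θ < r * τ + r := by
    have := Nat.lt_mul_div_succ Θ hrpos
    rw [Nat.mul_add, Nat.mul_one] at this
    exact this
  -- the rows `≥ 1`
  let t1 : ℕ → ℕ := fun i => τ + k * i + (μ i - τ) % k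
  let w1 : ℕ → ℕ := fun i => (μ i - τ) / k - i
  have hμr : ∀ i < r, Θ + k * r ≤ μ i := fun i hi => hH.trans (hμ (by omega))
  have hx : ∀ i < r, i < (μ i - τ) / k := by
    intro i hi
    rw [Nat.lt_div_iff_mul_lt hk]
    have h1 := hμr i hi
    have h2 : i * k + k ≤ k * r := by
      have : (i + 1) * k ≤ r * k := Nat.mul_le_mul_right _ (by omega)
      rw [Nat.add_mul, Nat.one_mul] at this
      rw [Nat.mul_comm k r]
      exact this
    rw [Nat.mul_comm]
    have h3 : k * i = i * k := Nat.mul_comm _ _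
    omega
  have h1 : ∀ i < r, μ i = k * w1 i + t1 i := by
    intro i hi
    have h2 := Nat.div_add_mod (μ i - τ) k
    have h3 := hx i hi
    have h4 := hμr i hi
    have h5 : k * w1 i + k * i = k * ((μ i - τ) / k) := by
      rw [← Nat.mul_add]
      congr 1
      change (μ i - τ) / k - i + i = _
      omega
    change μ i = k * w1 i + (τ + k * i + (μ i - τ) % k)
    omega
  have ht1 : ∀ i < r, τ + k * i ≤ t1 i ∧ t1 i ≤ τ + k * r := by
    intro i hi
    have h2 := Nat.mod_lt (μ i - τ) hk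
    have h3 : k * i + k ≤ k * r := by
      rw [← Nat.mul_succ]
      exact Nat.mul_le_mul_left _ hi
    change τ + k * i ≤ τ + k * i + (μ i - τ) % k ∧ τ + k * i + (μ i - τ) % k ≤ τ + k * r
    omega
  set S := ∑ i ∈ Ico 1 r, t1 i with hS
  set V := ∑ i ∈ Ico 1 r, w1 i with hV
  have hcard : (Ico 1 r).card = r - 1 := by simp
  have hSle : S ≤ (r - 1) * (τ + k * r) := by
    rw [hS, ← hcard, ← smul_eq_mul]
    exact Finset.sum_le_card_nsmul _ _ _ fun i hi => (ht1 i (Finset.mem_Ico.1 hi).2).2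
  have hSge : (r - 1) * (τ + k) ≤ S := by
    rw [hS, ← hcard, ← smul_eq_mul]
    refine Finset.card_nsmul_le_sum _ _ _ fun i hi => ?_
    have h2 := (ht1 i (Finset.mem_Ico.1 hi).2).1
    have h3 : k * 1 ≤ k * i := Nat.mul_le_mul_left _ (Finset.mem_Ico.1 hi).1
    omega
  have hSΘ : S + τ ≤ Θ + k * r ^ 2 := by
    obtain ⟨e, rfl⟩ : ∃ e, r = e + 1 := ⟨r - 1, by omega⟩
    rw [Nat.add_sub_cancel] at hSle
    nlinarith
  have hSΘ' : S ≤ Θ := by omega
  have hsumμ : ∑ i ∈ range r, μ i = μ 0 + (k * V + S) := by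
    rw [Finset.range_eq_Ico, Finset.sum_eq_sum_Ico_succ_bot hrpos]
    congr 1
    rw [hV, hS, Finset.mul_sum, ← Finset.sum_add_distrib]
    refine Finset.sum_congr (by simp) fun i hi => ?_
    exact h1 i (Finset.mem_Ico.1 hi).2
  have hμ0 := hμr 0 hrpos
  have hVM : V ≤ M := by
    have h2 : k * V ≤ k * M := by omega
    exact Nat.le_of_mul_le_mul_left h2 hk
  have hkV : k * V ≤ k * M := Nat.mul_le_mul_left _ hVM
  refine ⟨fun i => if i = 0 then M - V else w1 i, fun i => if i = 0 then Θ - S else t1 i,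
    ?_, ?_, ?_, ?_, ?_, ?_, ?_⟩
  · intro i hi
    rcases Nat.eq_zero_or_pos i with h0 | h0
    · subst h0
      simp only [if_true]
      rw [Nat.mul_sub]
      omega
    · simp only [show i ≠ 0 by omega, if_false]
      exact h1 i hi
  · rw [Finset.range_eq_Ico, Finset.sum_eq_sum_Ico_succ_bot hrpos]
    have : ∑ i ∈ Ico (0 + 1) r, (if i = 0 then Θ - S else t1 i) = S := by
      rw [hS]
      refine Finset.sum_congr (by simp) fun i hi => ?_
      rw [if_neg (by have := (Finset.mem_Ico.1 hi).1; omega)]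
    rw [this]
    simp only [if_true]
    omega
  · rw [Finset.range_eq_Ico, Finset.sum_eq_sum_Ico_succ_bot hrpos]
    have : ∑ i ∈ Ico (0 + 1) r, (if i = 0 then M - V else w1 i) = V := by
      rw [hV]
      refine Finset.sum_congr (by simp) fun i hi => ?_
      rw [if_neg (by have := (Finset.mem_Ico.1 hi).1; omega)]
    rw [this]
    simp only [if_true]
    omega
  · intro i hi
    rcases Nat.eq_zero_or_pos i with h0 | h0
    · subst h0
      simp only [zero_add, show (1 : ℕ) ≠ 0 by omega, if_false, if_true]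
      have h2 := h1 1 (by omega)
      have h3 := (ht1 1 (by omega)).1
      have h4 : μ 1 ≤ μ 0 := hμ (by omega)
      have h5 : k * (M - V) = k * M - k * V := Nat.mul_sub _ _ _
      have h6 : k * w1 1 < k * (M - V) := by
        rw [h5]
        have h7 : (r - 1) * (τ + k) = (r - 1) * τ + (r - 1) * k := Nat.mul_add _ _ _
        have h8 : r * τ = (r - 1) * τ + τ := by
          obtain ⟨e, rfl⟩ : ∃ e, r = e + 1 := ⟨r - 1, by omega⟩
          rw [Nat.add_sub_cancel]; ring
        have h9 : 1 * k ≤ (r - 1) * k := Nat.mul_le_mul_right _ (by omega)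
        rw [Nat.mul_one] at h3
        omega
      exact Nat.lt_of_mul_lt_mul_left h6
    · simp only [show i ≠ 0 by omega, show i + 1 ≠ 0 by omega, if_false]
      have h2 := hx (i + 1) hi
      have h3 : (μ (i + 1) - τ) / k ≤ (μ i - τ) / k :=
        Nat.div_le_div_right (Nat.sub_le_sub_right (hμ (by omega)) _)
      change (μ (i + 1) - τ) / k - (i + 1) < (μ i - τ) / k - i
      omega
  · intro i hi1 hi
    simp only [show i ≠ 0 by omega, if_false]
    have := ht1 i hi
    exact ⟨by omega, this.2⟩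
  · simp only [if_true]
    omega
  · simp only [if_true]
    have h7 : (r - 1) * (τ + k) = (r - 1) * τ + (r - 1) * k := Nat.mul_add _ _ _
    have h8 : r * τ = (r - 1) * τ + τ := by
      obtain ⟨e, rfl⟩ : ∃ e, r = e + 1 := ⟨r - 1, by omega⟩
      rw [Nat.add_sub_cancel]; ring
    have h9 : 1 * k ≤ (r - 1) * k := Nat.mul_le_mul_right _ (by omega)
    omega

end Vale.Agent.P181.H310
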