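import Vale.Agent.P181.H310.Typ
import Vale.Agent.P181.H310.Totals

set_option autoImplicit false

/-!
# P181, T7/LB7: the numbers
-/

namespace Vale.Agent.P181.H310

open Finset

/-- balanced contents -/
def bal (N D : ℕ) (q : Fin N) : ℕ := D / N + if (q : ℕ) < D % N then 1 else 0

lemma sum_bal {N : ℕ} (hN : 0 < N) (D : ℕ) : ∑ q, bal N D q = D := by
  unfold bal
  rw [Finset.sum_add_distrib, Finset.sum_const, card_univ, Fintype.card_fin, smul_eq_mul,
    Fin.sum_univ_eq_sum_range (fun q => if q < D % N then 1 else 0) N, ← Finset.card_filter]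
  have : (range N).filter (fun x => x < D % N) = range (D % N) := by
    ext x
    have := Nat.mod_lt D hN
    simp
    omega
  rw [this, card_range]
  exact Nat.div_add_mod D N

lemma bal_le (N D : ℕ) (q : Fin N) : bal N D q ≤ D / N + 1 := by
  unfold bal
  split_ifs <;> omega

lemma bal_ge (N D : ℕ) (q : Fin N) : D / N ≤ bal N D q := by
  unfold bal
  omega

lemma bal_bal (N D : ℕ) (q q' : Fin N) : bal N D q ≤ bal N D q' + 1 := by
  have := bal_le N D q
  have := bal_ge N D q'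
  omega

/-- the pairs -/
def pr (N : ℕ) (z : Fin 1 × Fin (N / 2) × Bool) : Fin N :=
  ⟨2 * z.2.1 + (if z.2.2 then 0 else 1), by
    have := z.2.1.isLt
    split_ifs <;> omega⟩

lemma pr_inj (N : ℕ) : Function.Injective (pr N) := by
  rintro ⟨k, p, b⟩ ⟨k', p', b'⟩ h
  have h1 := congrArg Fin.val h
  simp only [pr] at h1
  have hk : k = k' := Subsingleton.elim _ _
  subst hk
  cases b <;> cases b' <;> simp at h1 ⊢ <;> first | exact Fin.ext (by omega) | omega

lemma pr_left (N : ℕ) (q q' : Fin N) (h : q ≠ q') (h1 : ∀ z, pr N z ≠ q)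
    (h2 : ∀ z, pr N z ≠ q') : False := by
  have key : ∀ x : Fin N, (∀ z, pr N z ≠ x) → (x : ℕ) = 2 * (N / 2) := by
    intro x hx
    by_contra hne
    have hxl := x.isLt
    have hlt : (x : ℕ) / 2 < N / 2 := by omega
    refine hx (0, ⟨(x : ℕ) / 2, hlt⟩, decide ((x : ℕ) % 2 = 0)) ?_
    apply Fin.ext
    simp only [pr]
    by_cases h0 : (x : ℕ) % 2 = 0
    · simp only [h0, decide_true, if_true]
      omega
    · simp only [h0, decide_false]
      simp only [Bool.false_eq_true, if_false]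
      omega
  exact h (Fin.ext (by rw [key q h1, key q' h2]))

/-- number of type sets -/
theorem card_typ_exp {k r N : ℕ} (hr : 3 ≤ r) (hk : 8 * r * (r + 5) ≤ k)
    (hkN : 10 ^ 7 * r ^ 2 * N ≤ k ^ 2) (hN : 2 ≤ N) :
    Real.exp (2 * N) ≤ (Fintype.card (TypIx 2 (k / (32 * r)) 1 (N / 2)) : ℝ) := by
  set h := k / (32 * r) with hh
  have hk' : 64 * r ≤ k := by nlinarith
  have hh1 : 1 ≤ h := by
    rw [hh, Nat.one_le_div_iff (by omega)]
    omega
  have hh2 : k ≤ 64 * r * h := by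
    have h1 := Nat.lt_mul_div_succ k (show 0 < 32 * r by omega)
    rw [← hh] at h1
    nlinarith
  have hh3 : 2441 * N ≤ h ^ 2 := by
    have h1 : k ^ 2 ≤ (64 * r * h) ^ 2 := Nat.pow_le_pow_left hh2 2
    have h2 : r ^ 2 * (10 ^ 7 * N) ≤ r ^ 2 * (4096 * h ^ 2) := by
      calc r ^ 2 * (10 ^ 7 * N) = 10 ^ 7 * r ^ 2 * N := by ring
        _ ≤ k ^ 2 := hkN
        _ ≤ (64 * r * h) ^ 2 := h1
        _ = r ^ 2 * (4096 * h ^ 2) := by ring
    have h3 : 10 ^ 7 * N ≤ 4096 * h ^ 2 := Nat.le_of_mul_le_mul_left h2 (by positivity)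
    omega
  set P := N / 2 with hP
  have hP1 : 1 ≤ P := by omega
  have hP2 : 2 * P ≤ N := by omega
  have hP3 : N ≤ 3 * P := by omega
  have hv : h ^ 2 ≤ (h + 1) ^ 2 - 1 := by
    have : (h + 1) ^ 2 = h ^ 2 + 2 * h + 1 := by ring
    omega
  have h1 := card_typIx_ge 2 h 1 P (by omega)
  refine le_trans ?_ h1
  rw [one_mul]
  have hPpos : (0 : ℝ) < P := by exact_mod_cast hP1
  have h2 : Real.exp 6 ≤ (((h + 1) ^ 2 - 1 : ℕ) : ℝ) / P := by
    rw [le_div_iff₀ hPpos]
    have h3 : Real.exp 6 ≤ 729 := by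
      have h4 : Real.exp 6 = Real.exp 1 ^ 6 := by
        rw [← Real.exp_nat_mul]; norm_num
      rw [h4]
      have h5 : Real.exp 1 ≤ 3 := by
        have := Real.exp_one_lt_d9
        linarith
      calc Real.exp 1 ^ 6 ≤ 3 ^ 6 := pow_le_pow_left₀ (Real.exp_pos 1).le h5 6
        _ = 729 := by norm_num
    have h6 : (((729 * P : ℕ)) : ℝ) ≤ (((h + 1) ^ 2 - 1 : ℕ) : ℝ) := by
      have : 729 * P ≤ (h + 1) ^ 2 - 1 := by omega
      exact_mod_cast this
    calc Real.exp 6 * P ≤ 729 * P := mul_le_mul_of_nonneg_right h3 hPpos.le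
      _ = ((729 * P : ℕ) : ℝ) := by push_cast; ring
      _ ≤ _ := h6
  calc Real.exp (2 * N) ≤ Real.exp (P * 6) := by
        apply Real.exp_le_exp.2
        have : (N : ℝ) ≤ 3 * P := by exact_mod_cast hP3
        linarith
    _ = Real.exp 6 ^ P := by rw [Real.exp_nat_mul]
    _ ≤ _ := pow_le_pow_left₀ (Real.exp_pos 6).le h2 P

/-- all numbers of the design. -/
theorem lb7_numbers {μ : ℕ → ℕ} (hμ : Antitone μ) {k B r N D : ℕ} (hr : 3 ≤ r)
    (hk : 8 * r * (r + 5) ≤ k) (hrN : 16 * r ^ 3 ≤ N)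
    (hsum : ∑ i ∈ range r, μ i + D = k * B) (hy : μ r + 4 * N * k ≤ μ (r - 1))
    (h0 : μ 0 ≤ 2 * μ (r - 1)) (hD : 2 * D ≤ N * k) :
    ∃ (w : ℕ → ℕ) (t : ℕ → ℕ) (typ : TypIx 2 (k / (32 * r)) 1 (N / 2) → Fin N → ℕ → ℕ),
      (∀ i < r, μ i = k * w i + t i) ∧
      (∀ i < r, ∀ j < r, i < j → w j < w i) ∧
      (∀ i < r, w i ≤ w 0) ∧ (∀ i < r, 2 * N ≤ w i) ∧
      ∑ i ∈ range r, t i = N * k - D ∧ μ r + (N * k - D) ≤ μ (r - 1) ∧
      r * w 0 + 2 * N + (N * k - D) ≤ μ (r - 1) ∧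
      (∀ i < r, r * (w 0 / w i + 1) + 3 ≤ k) ∧
      ∑ i ∈ range r, w i + N = B ∧
      (∀ u, ∀ i < r, ∑ q, typ u q i = t i) ∧
      (∀ u q, ∑ i ∈ range r, typ u q i + bal N D q = k) ∧
      (∀ u q, ∀ i < r, 2 ≤ typ u q i) ∧
      (∀ u q q', (∀ i < r, typ u q i = typ u q' i) → q = q') ∧
      (∀ u u' (ρ : Equiv.Perm (Fin N)), (∀ q, ∀ i < r, typ u' q i = typ u (ρ q) i) → u = u') := by
  have hk' : 64 * r ≤ k := by nlinarith
  have hkr2 : 8 * (r * r) + 40 * r ≤ k := by
    have : 8 * r * (r + 5) = 8 * (r * r) + 40 * r := by ring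
    omega
  have hkpos : 0 < k := by omega
  have hr3 : r ≤ r ^ 3 := by
    calc r = r ^ 1 := (pow_one r).symm
      _ ≤ r ^ 3 := Nat.pow_le_pow_right (by omega) (by omega)
  have hrN' : r ≤ N := by omega
  have hN : 0 < N := by omega
  set Θ := N * k - D with hΘ
  have hΘ1 : N * k ≤ 2 * Θ := by omega
  have hΘ2 : Θ ≤ N * k := Nat.sub_le _ _
  have hH4 : 4 * (N * k) ≤ μ (r - 1) := by
    have : 4 * N * k = 4 * (N * k) := by ring
    omega
  have hμ0 : μ (r - 1) ≤ μ 0 := hμ (by omega)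
  have hNB : N ≤ B := by
    have h1 : μ 0 ≤ ∑ i ∈ range r, μ i :=
      Finset.single_le_sum (f := μ) (fun i _ => Nat.zero_le _) (Finset.mem_range.2 (by omega))
    have h2 : k * N ≤ k * B := by
      have : k * N = N * k := Nat.mul_comm _ _
      omega
    exact Nat.le_of_mul_le_mul_left h2 hkpos
  have hsum' : ∑ i ∈ range r, μ i = k * (B - N) + Θ := by
    rw [Nat.mul_sub]
    have h1 : k * N ≤ k * B := Nat.mul_le_mul_left _ hNB
    have h2 : k * N = N * k := Nat.mul_comm _ _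
    omega
  have hkN1 : k * r ^ 3 * 16 ≤ N * k := by
    calc k * r ^ 3 * 16 = k * (16 * r ^ 3) := by ring
      _ ≤ k * N := Nat.mul_le_mul_left _ hrN
      _ = N * k := Nat.mul_comm _ _
  have hτ : k * r ^ 2 ≤ Θ / r := by
    rw [Nat.le_div_iff_mul_le (by omega)]
    have : k * r ^ 2 * r = k * r ^ 3 := by ring
    omega
  have hkr : k * r * 16 ≤ N * k := by
    have : k * r ≤ k * r ^ 3 := Nat.mul_le_mul_left _ hr3
    omega
  have hHH : Θ + k * r ≤ μ (r - 1) := by omega
  obtain ⟨w, t, hw1, ht1, hw2, hw3, ht2, ht3, ht4⟩ :=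
    exists_totals hμ hkpos (by omega) (by omega) hsum' hτ hHH
  have hΘr3 : Θ / r * 3 ≤ Θ := by
    calc Θ / r * 3 ≤ Θ / r * r := Nat.mul_le_mul_left _ hr
      _ ≤ Θ := Nat.div_mul_le_self _ _
  -- lower bound of the class sizes
  have hkw : ∀ i < r, μ (r - 1) ≤ k * w i + (Θ / r + k * r) := by
    intro i hi
    have h1 := hw1 i hi
    have h2 : μ (r - 1) ≤ μ i := hμ (by omega)
    have h3 : t i ≤ Θ / r + k * r := by
      rcases Nat.eq_zero_or_pos i with hi0 | hi0
      · subst hi0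
        omega
      · exact (ht2 i hi0 hi).2
    omega
  have hw2N : ∀ i < r, 2 * N ≤ w i := by
    intro i hi
    have h1 := hkw i hi
    have h2 : k * (2 * N) ≤ k * w i := by
      have : k * (2 * N) = 2 * (N * k) := by ring
      omega
    exact Nat.le_of_mul_le_mul_left h2 hkpos
  have hkw' : ∀ i < r, μ (r - 1) ≤ 2 * (k * w i) := by
    intro i hi
    have h1 := hkw i hi
    omega
  have hkw0 : k * w 0 ≤ 2 * μ (r - 1) := by
    have := hw1 0 (by omega)
    omega
  have hW4 : ∀ i < r, w 0 ≤ 4 * w i := by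
    intro i hi
    have h1 := hkw' i hi
    have h2 : k * w 0 ≤ k * (4 * w i) := by
      have : k * (4 * w i) = 4 * (k * w i) := by ring
      omega
    exact Nat.le_of_mul_le_mul_left h2 hkpos
  -- strictly decreasing
  have hanti : ∀ i j, i < j → j < r → w j < w i := by
    intro i j hij
    induction j, hij using Nat.le_induction with
    | base => intro hj; exact hw3 i hj
    | succ j _ ih =>
      intro hj
      exact lt_trans (hw3 j hj) (ih (by omega))
  have hrw : 32 * (r * w 0) ≤ μ (r - 1) := by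
    have h1 : (64 * r) * (r * w 0) ≤ k * (r * w 0) := Nat.mul_le_mul_right _ hk'
    have h2 : k * (r * w 0) = r * (k * w 0) := by ring
    have h3 : r * (k * w 0) ≤ r * (2 * μ (r - 1)) := Nat.mul_le_mul_left _ hkw0
    have h4 : (2 * r) * (32 * (r * w 0)) ≤ (2 * r) * μ (r - 1) := by
      calc (2 * r) * (32 * (r * w 0)) = (64 * r) * (r * w 0) := by ring
        _ ≤ k * (r * w 0) := h1
        _ = r * (k * w 0) := h2
        _ ≤ r * (2 * μ (r - 1)) := h3
        _ = (2 * r) * μ (r - 1) := by ring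
    exact Nat.le_of_mul_le_mul_left h4 (by omega)
  have hNk : N ≤ N * k := Nat.le_mul_of_pos_right _ hkpos
  have hNk64 : 64 * N ≤ N * k := by
    calc 64 * N = N * 64 := Nat.mul_comm _ _
      _ ≤ N * k := Nat.mul_le_mul_left _ (by omega)
  -- types
  set h := k / (32 * r) with hh
  have hh1 : 32 * r * h ≤ k := Nat.mul_div_le _ _
  have hhr : 32 * (r * h) ≤ k := by
    have : 32 * r * h = 32 * (r * h) := by ring
    omega
  have hNhr : 32 * (N * (r * h)) ≤ N * k := by
    calc 32 * (N * (r * h)) = N * (32 * (r * h)) := by ring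
      _ ≤ N * k := Nat.mul_le_mul_left _ hhr
  have hNrr : 8 * (N * (r * r)) + 40 * (N * r) ≤ N * k := by
    calc 8 * (N * (r * r)) + 40 * (N * r) = N * (8 * (r * r) + 40 * r) := by ring
      _ ≤ N * k := Nat.mul_le_mul_left _ hkr2
  have hti : ∀ i, 1 ≤ i → i < r → 2 + 2 * h ≤ t i / N := by
    intro i hi1 hi
    rw [Nat.le_div_iff_mul_le hN]
    refine le_trans ?_ (ht2 i hi1 hi).1
    rw [Nat.le_div_iff_mul_le (by omega)]
    have : (2 + 2 * h) * N * r = 2 * (N * r) + 2 * (N * (r * h)) := by ring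
    rw [this]
    omega
  have hbal : ∀ q : Fin N, bal N D q ≤ k := by
    intro q
    have h1 := bal_le N D q
    have h2 : D / N ≤ k / 2 := by
      have h3 : D / N ≤ (N * k / 2) / N := Nat.div_le_div_right (by omega)
      rwa [Nat.div_div_eq_div_mul, Nat.mul_comm 2 N, Nat.mul_div_mul_left _ _ hN] at h3
    omega
  have hNbal : ∀ q : Fin N, N * bal N D q ≤ D + N := by
    intro q
    have h1 := bal_le N D q
    have h2 : N * (D / N) ≤ D := Nat.mul_div_le _ _
    calc N * bal N D q ≤ N * (D / N + 1) := Nat.mul_le_mul_left _ h1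
      _ = N * (D / N) + N := by ring
      _ ≤ D + N := by omega
  have hst : ∑ i ∈ range r, t i = ∑ q : Fin N, (k - bal N D q) := by
    have h1 : ∑ q : Fin N, (k - bal N D q) + ∑ q : Fin N, bal N D q = N * k := by
      rw [← Finset.sum_add_distrib]
      rw [Finset.sum_congr rfl fun q _ => Nat.sub_add_cancel (hbal q)]
      simp
    rw [sum_bal hN] at h1
    omega
  have hsumdiv : N * ∑ i ∈ Ico 1 r, (t i / N + 1) ≤ (Θ - t 0) + N * (r - 1) := by
    rw [Finset.mul_sum]
    have h1 : ∑ i ∈ Ico 1 r, N * (t i / N + 1) ≤ ∑ i ∈ Ico 1 r, (t i + N) := by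
      refine Finset.sum_le_sum fun i _ => ?_
      have := Nat.mul_div_le (t i) N
      rw [Nat.mul_add, Nat.mul_one]
      omega
    refine h1.trans ?_
    rw [Finset.sum_add_distrib, Finset.sum_const, smul_eq_mul]
    have h2 : (Ico 1 r).card = r - 1 := by simp
    rw [h2]
    have h3 : ∑ i ∈ range r, t i = t 0 + ∑ i ∈ Ico 1 r, t i := by
      rw [Finset.range_eq_Ico, Finset.sum_eq_sum_Ico_succ_bot (by omega)]
    have h4 : (r - 1) * N = N * (r - 1) := Nat.mul_comm _ _
    omega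
  have ht0Θ : t 0 ≤ Θ := by
    have := Nat.div_le_self Θ r
    omega
  have ht0 : N * (r + 2 + 4 * h) ≤ t 0 := by
    have h1 : N * (r + 2 + 4 * h) + k * r ^ 2 ≤ Θ / r := by
      rw [Nat.le_div_iff_mul_le (by omega)]
      have h2 : (N * (r + 2 + 4 * h) + k * r ^ 2) * r =
          N * (r * r) + 2 * (N * r) + 4 * (N * (r * h)) + k * r ^ 3 := by ring
      rw [h2]
      omega
    omega
  obtain ⟨typ, hT1, hT2, hT3, -, hT5, hT6⟩ := typ_family (R := r) (r := 2) (h := h) (K := 1)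
    (P := N / 2) (fun q : Fin N => k - bal N D q) t hst (by omega) (pr N) (pr_inj N)
    (fun k k' _ _ _ _ => Subsingleton.elim k k')
    (fun q q' hne h1 h2 _ => pr_left N q q' hne h1 h2) (lo := 2)
    (fun i hi1 hi2 => hti i hi1 (by omega))
    (fun i hi1 hi2 => le_trans (by omega) (hti i (by omega) hi2))
    (fun q => by
      have h1 : N * (2 + 2 * (2 * h) + ∑ i ∈ Ico 1 r, (t i / N + 1)) ≤ N * (k - bal N D q) := by
        rw [Nat.mul_add, Nat.mul_sub]
        have h2 := hNbal q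
        have h3 : N * (2 + 2 * (2 * h)) + N * (r - 1) + N = N * (r + 2 + 4 * h) := by
          obtain ⟨e, rfl⟩ : ∃ e, r = e + 1 := ⟨r - 1, by omega⟩
          rw [Nat.add_sub_cancel]; ring
        omega
      exact Nat.le_of_mul_le_mul_left h1 hN)
  refine ⟨w, t, typ, hw1, fun i hi j hj hij => hanti i j hij hj, ?_, hw2N, ht1, ?_, ?_, ?_, ?_,
    hT1, ?_, hT3, hT5, hT6⟩
  · intro i hi
    rcases Nat.eq_zero_or_pos i with hi0 | hi0
    · rw [hi0]
    · exact (hanti 0 i hi0 hi).le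
  · have : 4 * N * k = 4 * (N * k) := by ring
    omega
  · omega
  · intro i hi
    have h1 : w 0 / w i ≤ 4 := by
      have h2 := hw2N i hi
      calc w 0 / w i ≤ 4 * w i / w i := Nat.div_le_div_right (hW4 i hi)
        _ = 4 := Nat.mul_div_cancel _ (by omega)
    have h3 : r * (w 0 / w i + 1) ≤ r * 5 := Nat.mul_le_mul_left _ (by omega)
    omega
  · rw [hw2]
    omega
  · intro u q
    rw [hT2 u q]
    exact Nat.sub_add_cancel (hbal q)

end Vale.Agent.P181.H310
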