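import Vale.Agent.P181.H310.CaseC5
import Vale.Agent.P181.H403.Fin54
import Vale.Agent.P181.H59.Des6All

set_option autoImplicit false

/-!
# P181: `b ≥ a ^ (5 / 4 + ε)`, all partitions, unconditional
-/

open Filter

namespace Vale.Agent.P181.H310

open Vale.Agent.P181.T4 (ex)
open Vale.Agent.P181.T7 (below)
open Vale.Agent.P181.H280 (plethMult)

/-- case (C), unconditional -/
theorem caseC_all : CaseC := caseC H59.Des6All.lb9

/-- `b ≥ a ^ (5 / 4 + ε)`, all partitions with at most `a` rows. -/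
theorem t54 (ε : ℝ) (hε : 0 < ε) : ∀ᶠ a : ℕ in atTop, ∀ b : ℕ,
    (a : ℝ) ^ (5 / 4 + ε) ≤ b → ∀ lam : Fin a → ℕ, Antitone lam → ∑ i, lam i = a * b →
      plethMult a b a lam ≤ plethMult b a a lam :=
  T8.final54 TW.w_plus (T8.f8 H59.Des6All.lb9 (by norm_num) le_rfl le_rfl (by norm_num))
    (T8.f8 H59.Des6All.lb9 (by norm_num) (by norm_num) (by norm_num) (by norm_num))
    (f34 H59.Des6All.lb9) ε hε

end Vale.Agent.P181.H310
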