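import Mathlib

set_option autoImplicit false

/-!
# P181, weighted tail slopes: the abstract recursion of the merged theorem (W4)

`Lt` is the set of light rows; at the stage `s` a heavy cell costs `1`, a light cell costs `s`.
-/

namespace Vale.Agent.P181.H310

open Finset

section

variable {n : ℕ} (N : ℕ) (Lt : Finset (Fin n)) (lam : Fin n → ℕ) (X : ℕ → ℕ)

/-- cells of the heavy rows cut at `μ`. -/
def SH (μ : ℕ) : ℕ := ∑ i ∈ Ltᶜ, min (lam i) μ

variable {N Lt lam X}

lemma X_ge (hX1 : N ≤ X 1)
    (hX : ∀ s, 1 ≤ s → (s + 1) * X s + SH Lt lam (X s + (s + 2) * N) ≤ s * X (s + 1)) :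
    ∀ s, 1 ≤ s → s * N ≤ X s := by
  intro s hs
  induction s, hs using Nat.le_induction with
  | base => simpa using hX1
  | succ s hs ih =>
    have h1 := hX s hs
    have h2 : (s + 1) * (s * N) ≤ (s + 1) * X s := Nat.mul_le_mul_left _ ih
    have h3 : s * ((s + 1) * N) ≤ s * X (s + 1) := by
      calc s * ((s + 1) * N) = (s + 1) * (s * N) := by ring
        _ ≤ _ := by omega
    exact Nat.le_of_mul_le_mul_left h3 (by omega)

/-- **the recursion of the merged theorem**, abstract form. -/
theorem recW (hN : 1 ≤ N) (hX1 : N ≤ X 1)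
    (hX : ∀ s, 1 ≤ s → (s + 1) * X s + SH Lt lam (X s + (s + 2) * N) ≤ s * X (s + 1))
    (K : ℕ → ℕ → (Fin n → ℕ) → Prop)
    (tree : ∀ a b w, ∑ i, w i + N ≤ b → a ≤ N + 1 → K a b w)
    (zero : ∀ b w, K 0 b w)
    (step : ∀ s m b w, 2 ≤ s → m ≤ N → w ≤ lam → m ≤ b → 2 * m ≤ b + 1 →
      (∀ w', w' ≤ w → K m (b + 1) w') →
      (∀ e, e ≤ w → s ≤ ∑ i ∈ Ltᶜ, e i + s * ∑ i ∈ Lt, e i → K (m + 1) b (w - e)) →
      (m + 1 ≤ ∑ i ∈ Lt, w i ∨ (∑ i ∈ Lt, w i ≤ m ∧ 3 * m ≤ b + 1 ∧
        ∃ i, i ∉ Lt ∧ (s - 1) * (b + 1) + 2 * m + 2 ≤ ∑ j ∈ Ltᶜ, w j + w i)) →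
      K (m + 1) (b + 1) w) :
    ∀ s, 1 ≤ s → ∀ a, a ≤ N + 1 → ∀ b w, w ≤ lam →
      ∑ i ∈ Ltᶜ, w i + s * ∑ i ∈ Lt, w i + X s ≤ s * b → K a b w := by
  have hXs := X_ge hX1 hX
  intro s hs
  induction s, hs using Nat.le_induction with
  | base =>
    intro a ha b w _ h
    refine tree a b w ?_ ha
    have h1 : ∑ i, w i = ∑ i ∈ Lt, w i + ∑ i ∈ Ltᶜ, w i := (Finset.sum_add_sum_compl Lt w).symm
    rw [h1]
    omega
  | succ s hs ihs =>
    have hrec := hX s hs
    have hXs0 := hXs s hs
    have hsN : s * 1 ≤ s * N := Nat.mul_le_mul_left _ hN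
    have hstep1 : s * X s + X s = (s + 1) * X s := by ring
    have hXlt : X s < X (s + 1) := by
      have h2 : s * X s < s * X (s + 1) := by omega
      exact Nat.lt_of_mul_lt_mul_left h2
    intro a ha b
    induction b generalizing a with
    | zero =>
      intro w _ h
      exfalso
      rw [Nat.mul_zero] at h
      omega
    | succ b ihb =>
      induction a with
      | zero => intro w _ _; exact zero _ _
      | succ m ihm =>
        intro w hw h
        by_cases h1 : ∑ i ∈ Ltᶜ, w i + s * ∑ i ∈ Lt, w i + X s ≤ s * (b + 1)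
        · exact ihs (m + 1) ha (b + 1) w hw h1
        push Not at h1
        set g := ∑ i ∈ Ltᶜ, w i with hg
        set l := ∑ i ∈ Lt, w i with hl
        have hmN : m ≤ N := by omega
        have e1 : (s + 1) * l = s * l + l := by ring
        have e2 : (s + 1) * (b + 1) = s * (b + 1) + (b + 1) := by ring
        -- (3)
        have h3 : l + X (s + 1) < (b + 1) + X s := by omega
        have e3 : s * (l + X (s + 1)) = s * l + s * X (s + 1) := by ring
        have e4 : s * (b + 1 + X s) = s * (b + 1) + s * X s := by ring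
        have h3' : s * (l + X (s + 1) + 1) ≤ s * (b + 1 + X s) := Nat.mul_le_mul_left _ h3
        have e5 : s * (l + X (s + 1) + 1) = s * l + s * X (s + 1) + s := by ring
        -- X (s + 1) - X s ≥ N
        have h4 : X s + N ≤ X (s + 1) := by
          have h5 : s * (X s + N) ≤ s * X (s + 1) := by
            have : s * (X s + N) = s * X s + s * N := by ring
            omega
          exact Nat.le_of_mul_le_mul_left h5 (by omega)
        -- descent hypotheses
        have hK1 : ∀ w', w' ≤ w → K m (b + 1) w' := by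
          intro w' hw'
          refine ihm (by omega) w' (le_trans hw' hw) ?_
          have g1 : ∑ i ∈ Ltᶜ, w' i ≤ g := Finset.sum_le_sum fun i _ => hw' i
          have g2 : ∑ i ∈ Lt, w' i ≤ l := Finset.sum_le_sum fun i _ => hw' i
          have g3 : (s + 1) * ∑ i ∈ Lt, w' i ≤ (s + 1) * l := Nat.mul_le_mul_left _ g2
          omega
        have hK2 : ∀ e, e ≤ w → s + 1 ≤ ∑ i ∈ Ltᶜ, e i + (s + 1) * ∑ i ∈ Lt, e i →
            K (m + 1) b (w - e) := by
          intro e he hse
          refine ihb (m + 1) ha (w - e) (le_trans (fun i => Nat.sub_le _ _) hw) ?_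
          have g1 : ∑ i ∈ Ltᶜ, (w - e) i + ∑ i ∈ Ltᶜ, e i = g := by
            rw [← Finset.sum_add_distrib]
            refine Finset.sum_congr rfl fun i _ => ?_
            exact Nat.sub_add_cancel (he i)
          have g2 : ∑ i ∈ Lt, (w - e) i + ∑ i ∈ Lt, e i = l := by
            rw [← Finset.sum_add_distrib]
            refine Finset.sum_congr rfl fun i _ => ?_
            exact Nat.sub_add_cancel (he i)
          have g3 : (s + 1) * ∑ i ∈ Lt, (w - e) i + (s + 1) * ∑ i ∈ Lt, e i = (s + 1) * l := by
            rw [← g2]; ring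
          have g4 : (s + 1) * (b + 1) = (s + 1) * b + (s + 1) := by ring
          omega
        rcases Nat.lt_or_ge m l with hml | hlm
        · -- light part at least `m + 1`
          refine step (s + 1) m b w (by omega) hmN hw (by omega) (by omega) hK1 hK2 (Or.inl hml)
        · -- a heavy row
          have hex : ∃ i, i ∉ Lt ∧ X s + (s + 2) * m + 1 ≤ w i := by
            by_contra hno
            push Not at hno
            have g1 : g ≤ SH Lt lam (X s + (s + 2) * N) := by
              unfold SH
              refine Finset.sum_le_sum fun i hi => ?_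
              rw [Finset.mem_compl] at hi
              have g2 := hno i hi
              have g3 : (s + 2) * m ≤ (s + 2) * N := Nat.mul_le_mul_left _ hmN
              exact le_min (hw i) (by omega)
            omega
          obtain ⟨i, hi, hwi⟩ := hex
          have g1 : min (lam i) (X s + (s + 2) * N) ≤ SH Lt lam (X s + (s + 2) * N) := by
            unfold SH
            exact Finset.single_le_sum (f := fun i => min (lam i) (X s + (s + 2) * N))
              (fun _ _ => Nat.zero_le _) (Finset.mem_compl.2 hi)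
          have g2 : X s + (s + 2) * m + 1 ≤ min (lam i) (X s + (s + 2) * N) + 1 := by
            refine Nat.add_le_add_right (le_min ?_ ?_) 1
            · exact le_trans (by omega) (hw i)
            · exact Nat.add_le_add_left (Nat.mul_le_mul_left _ hmN) _
          have g3 : (s + 2) * m = s * m + 2 * m := by ring
          have g4 : s * m ≤ s * N := Nat.mul_le_mul_left _ hmN
          have g5 : X s + 3 * m ≤ X (s + 1) := by
            have g6 : s * (X s + 3 * m) ≤ s * X (s + 1) := by
              have : s * (X s + 3 * m) = s * X s + s * m + s * m + s * m := by ring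
              omega
            exact Nat.le_of_mul_le_mul_left g6 (by omega)
          have g7 : s * l ≤ s * m := Nat.mul_le_mul_left _ hlm
          refine step (s + 1) m b w (by omega) hmN hw (by omega) (by omega) hK1 hK2
            (Or.inr ⟨hlm, by omega, i, hi, ?_⟩)
          rw [Nat.add_sub_cancel]
          omega

end

/-- the minimal constants of the recursion -/
def XX {n : ℕ} (N : ℕ) (Lt : Finset (Fin n)) (lam : Fin n → ℕ) : ℕ → ℕ
  | 0 => N
  | (s + 1) => if s = 0 then N else
      XX N Lt lam s + (XX N Lt lam s + SH Lt lam (XX N Lt lam s + (s + 2) * N) + s - 1) / s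

lemma XX_one {n : ℕ} (N : ℕ) (Lt : Finset (Fin n)) (lam : Fin n → ℕ) : XX N Lt lam 1 = N := by
  simp [XX]

lemma XX_succ {n : ℕ} (N : ℕ) (Lt : Finset (Fin n)) (lam : Fin n → ℕ) {s : ℕ} (hs : 1 ≤ s) :
    XX N Lt lam (s + 1) = XX N Lt lam s +
      (XX N Lt lam s + SH Lt lam (XX N Lt lam s + (s + 2) * N) + s - 1) / s := by
  conv_lhs => rw [XX]
  rw [if_neg (by omega)]

lemma XX_rec {n : ℕ} (N : ℕ) (Lt : Finset (Fin n)) (lam : Fin n → ℕ) {s : ℕ} (hs : 1 ≤ s) :
    (s + 1) * XX N Lt lam s + SH Lt lam (XX N Lt lam s + (s + 2) * N) ≤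
      s * XX N Lt lam (s + 1) := by
  rw [XX_succ N Lt lam hs]
  set x := XX N Lt lam s
  set S := SH Lt lam (x + (s + 2) * N)
  have h1 := Nat.lt_mul_div_succ (x + S + s - 1) (show 0 < s by omega)
  have h2 : s * ((x + S + s - 1) / s + 1) = s * ((x + S + s - 1) / s) + s := by ring
  have h3 : (s + 1) * x = s * x + x := by ring
  have h4 : s * (x + (x + S + s - 1) / s) = s * x + s * ((x + S + s - 1) / s) := by ring
  omega

end Vale.Agent.P181.H310
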