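import Vale.Agent.P181.H310.W4

set_option autoImplicit false

/-!
# P181, weighted tail slopes: two heavy rows (W6)

`C N^2 (μ1 + N)^3 (μ2 + N) ≤ b^6` and `2 Σ_Lt lam ≤ b` give an admissible slope.
-/

namespace Vale.Agent.P181.H310

open Finset

variable {n : ℕ} {N : ℕ} {Lt : Finset (Fin n)} {lam : Fin n → ℕ}

lemma XX_up {s : ℕ} (hs : 1 ≤ s) :
    s * XX N Lt lam (s + 1) + 1 ≤ (s + 1) * XX N Lt lam s +
      SH Lt lam (XX N Lt lam s + (s + 2) * N) + s := by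
  rw [XX_succ N Lt lam hs]
  set x := XX N Lt lam s
  set S := SH Lt lam (x + (s + 2) * N)
  have h1 := Nat.mul_div_le (x + S + s - 1) s
  have h3 : (s + 1) * x = s * x + x := by ring
  have h4 : s * (x + (x + S + s - 1) / s) = s * x + s * ((x + S + s - 1) / s) := by ring
  omega

/-- cubic bound -/
lemma XX_cubic (hN : 1 ≤ N) (h1 : ∀ μ, SH Lt lam μ ≤ 2 * μ) :
    ∀ s, 1 ≤ s → XX N Lt lam s + 2 * N * (s + 1) ≤ N * (s * (s + 1) * (s + 2)) := by
  intro s hs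
  induction s, hs using Nat.le_induction with
  | base =>
    rw [XX_one]
    omega
  | succ s hs ih =>
    have h2 := XX_up (N := N) (Lt := Lt) (lam := lam) hs
    have h3 := h1 (XX N Lt lam s + (s + 2) * N)
    set x := XX N Lt lam s
    set y := XX N Lt lam (s + 1)
    have h4 : s ≤ s * N := Nat.le_mul_of_pos_right _ hN
    have h5 : s * y ≤ (s + 3) * x + (3 * s + 4) * N := by
      have e1 : 2 * (x + (s + 2) * N) = 2 * x + (2 * s + 4) * N := by ring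
      have e2 : (s + 3) * x + (3 * s + 4) * N = (s + 1) * x + 2 * x + (2 * s + 4) * N + s * N := by
        ring
      omega
    have h6 : (s + 3) * (x + 2 * N * (s + 1)) ≤ (s + 3) * (N * (s * (s + 1) * (s + 2))) :=
      Nat.mul_le_mul_left _ ih
    have h7 : s * (y + 2 * N * (s + 1 + 1)) ≤ s * (N * ((s + 1) * (s + 1 + 1) * (s + 1 + 2))) := by
      have e1 : s * (N * ((s + 1) * (s + 1 + 1) * (s + 1 + 2))) =
          (s + 3) * (N * (s * (s + 1) * (s + 2))) := by ring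
      have e2 : s * (y + 2 * N * (s + 1 + 1)) = s * y + N * (2 * s ^ 2 + 4 * s) := by ring
      have e3 : (s + 3) * (x + 2 * N * (s + 1)) = (s + 3) * x + N * (2 * s ^ 2 + 8 * s + 6) := by
        ring
      have e4 : N * (2 * s ^ 2 + 8 * s + 6) = N * (2 * s ^ 2 + 4 * s) + (3 * s + 4) * N +
          N * (s + 2) := by ring
      omega
    exact Nat.le_of_mul_le_mul_left h7 (by omega)

/-- quadratic bound from `s0` on -/
lemma XX_quad {μ2 c s0 : ℕ} (hN : 1 ≤ N) (h2 : ∀ μ, SH Lt lam μ ≤ μ + μ2) (hs0 : 1 ≤ s0)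
    (h0 : XX N Lt lam s0 + 2 * N * s0 + N + μ2 ≤ c * (s0 * (s0 + 1))) :
    ∀ s, s0 ≤ s → XX N Lt lam s + 2 * N * s + N + μ2 ≤ c * (s * (s + 1)) := by
  intro s hs
  induction s, hs using Nat.le_induction with
  | base => exact h0
  | succ s hs ih =>
    have h2' := XX_up (N := N) (Lt := Lt) (lam := lam) (s := s) (by omega)
    have h3 := h2 (XX N Lt lam s + (s + 2) * N)
    set x := XX N Lt lam s
    set y := XX N Lt lam (s + 1)
    have h4 : s ≤ s * N := Nat.le_mul_of_pos_right _ hN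
    have h5 : s * y ≤ (s + 2) * x + (2 * s + 2) * N + μ2 := by
      have e1 : (s + 2) * x + (2 * s + 2) * N + μ2 =
          (s + 1) * x + (x + (s + 2) * N + μ2) + s * N := by ring
      omega
    have h6 : (s + 2) * (x + 2 * N * s + N + μ2) ≤ (s + 2) * (c * (s * (s + 1))) :=
      Nat.mul_le_mul_left _ ih
    have h7 : s * (y + 2 * N * (s + 1) + N + μ2) ≤ s * (c * ((s + 1) * (s + 1 + 1))) := by
      have e1 : s * (c * ((s + 1) * (s + 1 + 1))) = (s + 2) * (c * (s * (s + 1))) := by ring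
      have e2 : s * (y + 2 * N * (s + 1) + N + μ2) = s * y + N * (2 * s ^ 2 + 3 * s) + s * μ2 := by
        ring
      have e3 : (s + 2) * (x + 2 * N * s + N + μ2) =
          (s + 2) * x + N * (2 * s ^ 2 + 3 * s) + (2 * s + 2) * N + s * μ2 + 2 * μ2 := by ring
      omega
    exact Nat.le_of_mul_le_mul_left h7 (by omega)

/-- **(W6)** two heavy rows, abstract form. -/
theorem w6_gen {b μ1 μ2 : ℕ} (hN : 1 ≤ N) (hμ : μ2 ≤ μ1)
    (h1 : ∀ μ, SH Lt lam μ ≤ 2 * μ) (h2 : ∀ μ, SH Lt lam μ ≤ μ + μ2)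
    (hH : ∑ i ∈ Ltᶜ, lam i ≤ μ1 + μ2) (hL : 2 * ∑ i ∈ Lt, lam i ≤ b)
    (hC : 4096 * 18 ^ 6 * (N ^ 2 * (μ1 + N) ^ 3 * (μ2 + N)) ≤ b ^ 6) :
    ∃ s, 1 ≤ s ∧ ∑ i ∈ Ltᶜ, lam i + s * ∑ i ∈ Lt, lam i + XX N Lt lam s ≤ s * b := by
  classical
  -- `s0`
  have hex0 : ∃ s, 1 ≤ s ∧ μ2 ≤ N * s ^ 3 := by
    refine ⟨μ2 + 1, by omega, ?_⟩
    calc μ2 ≤ μ2 + 1 := by omega
      _ = (μ2 + 1) ^ 1 := (pow_one _).symm
      _ ≤ (μ2 + 1) ^ 3 := Nat.pow_le_pow_right (by omega) (by omega)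
      _ ≤ N * (μ2 + 1) ^ 3 := Nat.le_mul_of_pos_left _ hN
  obtain ⟨hs0, hμ2⟩ := Nat.find_spec hex0
  have hmin0 : N * (Nat.find hex0) ^ 3 ≤ 8 * (μ2 + N) := by
    rcases Nat.lt_or_ge (Nat.find hex0) 2 with h | h
    · have h3 : Nat.find hex0 = 1 := by omega
      rw [h3]
      omega
    · have h3 := Nat.find_min hex0 (m := Nat.find hex0 - 1) (by omega)
      have h4 : N * (Nat.find hex0 - 1) ^ 3 < μ2 := by
        by_contra h5
        exact h3 ⟨by omega, by omega⟩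
      have h5 : (Nat.find hex0) ^ 3 ≤ (2 * (Nat.find hex0 - 1)) ^ 3 :=
        Nat.pow_le_pow_left (by omega) 3
      calc N * (Nat.find hex0) ^ 3 ≤ N * (2 * (Nat.find hex0 - 1)) ^ 3 :=
            Nat.mul_le_mul_left _ h5
        _ = 8 * (N * (Nat.find hex0 - 1) ^ 3) := by ring
        _ ≤ 8 * (μ2 + N) := by omega
  set s0 := Nat.find hex0 with hs0def
  -- `s1`
  have hex1 : ∃ s, s0 ≤ s ∧ μ1 ≤ N * s0 * s ^ 2 := by
    refine ⟨s0 + μ1, by omega, ?_⟩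
    calc μ1 ≤ s0 + μ1 := by omega
      _ = (s0 + μ1) ^ 1 := (pow_one _).symm
      _ ≤ (s0 + μ1) ^ 2 := Nat.pow_le_pow_right (by omega) (by omega)
      _ ≤ N * s0 * (s0 + μ1) ^ 2 := Nat.le_mul_of_pos_left _ (by positivity)
  obtain ⟨hs1, hμ1⟩ := Nat.find_spec hex1
  have hmin1 : N * s0 * (Nat.find hex1) ^ 2 ≤ 8 * (μ1 + N) := by
    rcases Nat.lt_or_ge s0 (Nat.find hex1) with h | h
    · have h3 := Nat.find_min hex1 (m := Nat.find hex1 - 1) (by omega)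
      have h4 : N * s0 * (Nat.find hex1 - 1) ^ 2 < μ1 := by
        by_contra h5
        exact h3 ⟨by omega, by omega⟩
      have h5 : (Nat.find hex1) ^ 2 ≤ (2 * (Nat.find hex1 - 1)) ^ 2 :=
        Nat.pow_le_pow_left (by omega) 2
      calc N * s0 * (Nat.find hex1) ^ 2 ≤ N * s0 * (2 * (Nat.find hex1 - 1)) ^ 2 :=
            Nat.mul_le_mul_left _ h5
        _ = 4 * (N * s0 * (Nat.find hex1 - 1) ^ 2) := by ring
        _ ≤ 8 * (μ1 + N) := by omega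
    · have h3 : Nat.find hex1 = s0 := by omega
      rw [h3]
      calc N * s0 * s0 ^ 2 = N * s0 ^ 3 := by ring
        _ ≤ 8 * (μ2 + N) := hmin0
        _ ≤ 8 * (μ1 + N) := by omega
  set s1 := Nat.find hex1 with hs1def
  refine ⟨s1, by omega, ?_⟩
  -- the constants
  have h3 := XX_cubic hN h1 s0 hs0
  have h4 : XX N Lt lam s0 + 2 * N * s0 + N + μ2 ≤ 2 * N * (s0 + 1) * (s0 * (s0 + 1)) := by
    have e1 : 2 * N * (s0 + 1) * (s0 * (s0 + 1)) =
        N * (s0 * (s0 + 1) * (s0 + 2)) + N * s0 ^ 3 + N * s0 ^ 2 := by ring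
    have e2 : 2 * N * (s0 + 1) = 2 * N * s0 + 2 * N := by ring
    omega
  have h5 := XX_quad hN h2 hs0 h4 s1 hs1
  have h6 : XX N Lt lam s1 + μ2 ≤ 8 * (N * s0 * s1 ^ 2) := by
    have h7 : 2 * N * (s0 + 1) * (s1 * (s1 + 1)) ≤ 2 * N * (2 * s0) * (s1 * (2 * s1)) := by
      gcongr <;> omega
    have e1 : 2 * N * (2 * s0) * (s1 * (2 * s1)) = 8 * (N * s0 * s1 ^ 2) := by ring
    omega
  -- `18 N s0 s1 ≤ b`
  have h7 : 18 * (N * s0 * s1) ≤ b := by
    have h8 : (18 * (N * s0 * s1)) ^ 6 ≤ b ^ 6 := by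
      refine le_trans ?_ hC
      have e1 : (18 * (N * s0 * s1)) ^ 6 =
          18 ^ 6 * (N ^ 2 * (N * s0 * s1 ^ 2) ^ 3 * (N * s0 ^ 3)) := by ring
      rw [e1]
      calc 18 ^ 6 * (N ^ 2 * (N * s0 * s1 ^ 2) ^ 3 * (N * s0 ^ 3))
          ≤ 18 ^ 6 * (N ^ 2 * (8 * (μ1 + N)) ^ 3 * (8 * (μ2 + N))) := by gcongr
        _ = 4096 * 18 ^ 6 * (N ^ 2 * (μ1 + N) ^ 3 * (μ2 + N)) := by ring
    exact (Nat.pow_le_pow_iff_left (by norm_num)).1 h8
  have h8 : s1 * (18 * (N * s0 * s1)) ≤ s1 * b := Nat.mul_le_mul_left _ h7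
  have e1 : s1 * (18 * (N * s0 * s1)) = 18 * (N * s0 * s1 ^ 2) := by ring
  have h9 : s1 * (2 * ∑ i ∈ Lt, lam i) ≤ s1 * b := Nat.mul_le_mul_left _ hL
  have e2 : s1 * (2 * ∑ i ∈ Lt, lam i) = 2 * (s1 * ∑ i ∈ Lt, lam i) := by ring
  omega

/-- rows `≥ 2` of the tail are light -/
def lt2 (n : ℕ) : Finset (Fin n) := univ.filter fun i => 2 ≤ (i : ℕ)

lemma sum_lt2_compl (f : Fin n → ℕ) (g : ℕ → ℕ) (h : ∀ i : Fin n, (i : ℕ) < 2 → f i ≤ g i) :
    ∑ i ∈ (lt2 n)ᶜ, f i ≤ g 0 + g 1 := by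
  classical
  have h1 : ∑ i ∈ (lt2 n)ᶜ, f i ≤ ∑ i ∈ (lt2 n)ᶜ, g i := by
    refine Finset.sum_le_sum fun i hi => h i ?_
    rw [Finset.mem_compl, lt2, Finset.mem_filter] at hi
    by_contra h2
    exact hi ⟨mem_univ _, by omega⟩
  refine h1.trans ?_
  have h2 : ∑ i ∈ (lt2 n)ᶜ, g i = ∑ j ∈ ((lt2 n)ᶜ).image (fun i : Fin n => (i : ℕ)), g j := by
    rw [Finset.sum_image]
    intro x _ y _ hxy
    exact Fin.ext hxy
  rw [h2]
  have h3 : ((lt2 n)ᶜ).image (fun i : Fin n => (i : ℕ)) ⊆ range 2 := by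
    intro j hj
    rw [Finset.mem_image] at hj
    obtain ⟨i, hi, rfl⟩ := hj
    rw [Finset.mem_compl, lt2, Finset.mem_filter] at hi
    rw [Finset.mem_range]
    by_contra h2
    exact hi ⟨mem_univ _, by omega⟩
  refine (Finset.sum_le_sum_of_subset h3).trans ?_
  rw [Finset.sum_range_succ, Finset.sum_range_one]

/-- **(W6)** tail rows `0` and `1` (that is `λ_3`, `λ_4`) heavy, the others light. -/
theorem w6 {b μ1 μ2 : ℕ} (hN : 1 ≤ N) (hμ : μ2 ≤ μ1)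
    (h0 : ∀ i : Fin n, (i : ℕ) = 0 → lam i ≤ μ1) (h1 : ∀ i : Fin n, (i : ℕ) = 1 → lam i ≤ μ2)
    (hL : 2 * ∑ i ∈ lt2 n, lam i ≤ b)
    (hC : 4096 * 18 ^ 6 * (N ^ 2 * (μ1 + N) ^ 3 * (μ2 + N)) ≤ b ^ 6) :
    ∃ s, 1 ≤ s ∧
      ∑ i ∈ (lt2 n)ᶜ, lam i + s * ∑ i ∈ lt2 n, lam i + XX N (lt2 n) lam s ≤ s * b := by
  refine w6_gen hN hμ ?_ ?_ ?_ hL hC
  · intro μ
    unfold SH
    have h3 := sum_lt2_compl (n := n) (fun i => min (lam i) μ) (fun _ => μ)
      (fun i _ => min_le_right _ _)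
    omega
  · intro μ
    unfold SH
    have h3 := sum_lt2_compl (n := n) (fun i => min (lam i) μ) (fun j => if j = 0 then μ else μ2)
      (fun i hi => by
        by_cases h4 : (i : ℕ) = 0
        · rw [if_pos h4]
          exact min_le_right _ _
        · rw [if_neg h4]
          exact (min_le_left _ _).trans (h1 i (by omega)))
    simpa using h3
  · have h3 := sum_lt2_compl (n := n) lam (fun j => if j = 0 then μ1 else μ2)
      (fun i hi => by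
        by_cases h4 : (i : ℕ) = 0
        · rw [if_pos h4]
          exact h0 i h4
        · rw [if_neg h4]
          exact h1 i (by omega))
    simpa using h3

end Vale.Agent.P181.H310
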