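import Vale.Agent.P181.H921.WLit
import Vale.Agent.P181.H310.CaseC2
import Vale.Agent.P181.T7.Cells
import Vale.Agent.P181.H530.Pad
import Vale.Agent.P181.H530.Zero
import Vale.Agent.P181.H463.Big

set_option autoImplicit false

/-!
# P181: the weighted tail theorem with any number of heavy rows
-/

open Finset

namespace Vale.Agent.P181.H310.WG

open Vale.Agent.P181.T4 (ex ex_of_lt)
open Vale.Agent.P181.T7 (below cells below_cells all_n_cells)
open Vale.Agent.P181.H280 (plethMult)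

/-- the heavy rows -/
def HS (k : ℕ) (l : ℕ → ℕ) (Y : ℕ) : ℕ := ∑ i ∈ Ico 1 (k + 1), min (l i) Y

/-- the minimal sequence -/
def Xs (a k : ℕ) (l : ℕ → ℕ) : ℕ → ℕ
  | 0 => a
  | 1 => a
  | (r + 2) => ((r + 2) * Xs a k l (r + 1) + HS k l (Xs a k l (r + 1) + (r + 3) * a) + r) / (r + 1)

lemma xs_rec (a k : ℕ) (l : ℕ → ℕ) {r : ℕ} (hr : 1 ≤ r) :
    Xs a k l r + HS k l (Xs a k l r + (r + 2) * a) + r * Xs a k l r ≤ r * Xs a k l (r + 1) := by
  obtain ⟨q, rfl⟩ : ∃ q, r = q + 1 := ⟨r - 1, by omega⟩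
  have h1 : Xs a k l (q + 1 + 1) = ((q + 2) * Xs a k l (q + 1) +
      HS k l (Xs a k l (q + 1) + (q + 3) * a) + q) / (q + 1) := by
    rw [Xs]
  have h2 : q + 1 + 2 = q + 3 := by ring
  rw [h2]
  set N := (q + 2) * Xs a k l (q + 1) + HS k l (Xs a k l (q + 1) + (q + 3) * a) with hN
  have h3 : Xs a k l (q + 1) + HS k l (Xs a k l (q + 1) + (q + 3) * a) +
      (q + 1) * Xs a k l (q + 1) = N := by
    rw [hN]
    ring
  rw [h3, h1]
  have h4 := Nat.div_add_mod (N + q) (q + 1)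
  have h5 := Nat.mod_lt (N + q) (Nat.succ_pos q)
  simp only [Nat.succ_eq_add_one] at h5
  omega

lemma xs_le (a k : ℕ) (l : ℕ → ℕ) {r T : ℕ} (hr : 1 ≤ r)
    (h : (r + 1) * Xs a k l r + HS k l (Xs a k l r + (r + 2) * a) ≤ r * T) :
    Xs a k l (r + 1) ≤ T := by
  obtain ⟨q, rfl⟩ : ∃ q, r = q + 1 := ⟨r - 1, by omega⟩
  have h1 : Xs a k l (q + 1 + 1) = ((q + 2) * Xs a k l (q + 1) +
      HS k l (Xs a k l (q + 1) + (q + 3) * a) + q) / (q + 1) := by
    rw [Xs]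
  rw [h1]
  have h2 : q + 1 + 2 = q + 3 := by ring
  have h3 : q + 1 + 1 = q + 2 := by ring
  rw [h2, h3] at h
  apply Nat.le_of_lt_succ
  rw [Nat.div_lt_iff_lt_mul (Nat.succ_pos q)]
  have h4 : (T + 1) * (q + 1) = (q + 1) * T + q + 1 := by ring
  simp only [Nat.succ_eq_add_one]
  omega

lemma key (r j : ℕ) (hr : 1 ≤ r) : (r + 1 + j) * r ^ (j + 1) + j * r ≤ r * (r + 1) ^ (j + 1) := by
  induction j with
  | zero =>
    rw [zero_mul, add_zero, add_zero, zero_add, pow_one, pow_one]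
    exact le_of_eq (mul_comm _ _)
  | succ j ih =>
    have h1 : r * (r + 1) ^ (j + 1 + 1) = (r + 1) * (r * (r + 1) ^ (j + 1)) := by ring
    rw [h1]
    have h2 := Nat.mul_le_mul_left (r + 1) ih
    refine le_trans ?_ h2
    have h3 : 1 ≤ r ^ j := Nat.one_le_pow _ _ hr
    have h4 : r ≤ r ^ (j + 1) := by
      calc r = 1 * r := (one_mul r).symm
        _ ≤ r ^ j * r := Nat.mul_le_mul_right _ h3
        _ = r ^ (j + 1) := (pow_succ _ _).symm
    have h5 : (r + 1 + (j + 1)) * r ^ (j + 1 + 1) + (j + 1) * r + (j * r ^ (j + 1) + r ^ (j + 1) +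
        j * r ^ 2) = (r + 1) * ((r + 1 + j) * r ^ (j + 1) + j * r) + r := by
      ring
    nlinarith

lemma hs_le (k j : ℕ) (l : ℕ → ℕ) (Y : ℕ) (hj : j ≤ k) :
    HS k l Y ≤ j * Y + ∑ i ∈ Ico (j + 1) (k + 1), l i := by
  unfold HS
  rw [← Finset.sum_Ico_consecutive _ (show 1 ≤ j + 1 by omega) (show j + 1 ≤ k + 1 by omega)]
  apply Nat.add_le_add
  · calc ∑ i ∈ Ico 1 (j + 1), min (l i) Y ≤ ∑ _i ∈ Ico 1 (j + 1), Y :=
          Finset.sum_le_sum fun i _ => min_le_right _ _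
      _ = j * Y := by rw [Finset.sum_const, Nat.card_Ico, smul_eq_mul]; congr 1
  · exact Finset.sum_le_sum fun i _ => min_le_left _ _

lemma phase_step {a k j r P c Lc : ℕ} {l : ℕ → ℕ} (hr : 1 ≤ r) (hj : j ≤ k) (hP : 1 ≤ P)
    (hc : 3 ≤ c) (hL : Lc = ∑ i ∈ Ico (j + 1) (k + 1), l i)
    (h : Xs a k l r + Lc ≤ c * (a * (P * r ^ (j + 1)))) :
    Xs a k l (r + 1) + Lc ≤ c * (a * (P * (r + 1) ^ (j + 1))) := by
  set x := Xs a k l r with hx
  have hHS := hs_le k j l (x + (r + 2) * a) hj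
  rw [← hL] at hHS
  have hmono : c * (a * (P * r ^ (j + 1))) ≤ c * (a * (P * (r + 1) ^ (j + 1))) := by
    have : r ^ (j + 1) ≤ (r + 1) ^ (j + 1) := Nat.pow_le_pow_left (Nat.le_succ r) _
    gcongr
  have hLc : Lc ≤ c * (a * (P * (r + 1) ^ (j + 1))) := by omega
  obtain ⟨T, hT⟩ : ∃ T, c * (a * (P * (r + 1) ^ (j + 1))) = T + Lc :=
    ⟨_, (Nat.sub_add_cancel hLc).symm⟩
  rw [hT]
  apply Nat.add_le_add_right
  apply xs_le a k l hr
  rw [← hx]
  have h1 : (r + 1 + j) * (c * (a * (P * r ^ (j + 1)))) + j * ((r + 2) * a) ≤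
      r * (T + Lc) := by
    rw [← hT]
    have h2 := Nat.mul_le_mul_left (c * (a * P)) (key r j hr)
    have h3 : j * ((r + 2) * a) ≤ c * (a * P) * (j * r) := by
      have h4 : (r + 2) ≤ c * r := by nlinarith
      have h5 : 1 * a ≤ P * a := Nat.mul_le_mul_right _ hP
      calc j * ((r + 2) * a) ≤ j * ((c * r) * (P * a)) := by
            apply Nat.mul_le_mul_left
            apply Nat.mul_le_mul h4
            linarith
        _ = c * (a * P) * (j * r) := by ring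
    calc (r + 1 + j) * (c * (a * (P * r ^ (j + 1)))) + j * ((r + 2) * a)
        ≤ (r + 1 + j) * (c * (a * (P * r ^ (j + 1)))) + c * (a * P) * (j * r) := by omega
      _ = c * (a * P) * ((r + 1 + j) * r ^ (j + 1) + j * r) := by ring
      _ ≤ c * (a * P) * (r * (r + 1) ^ (j + 1)) := h2
      _ = r * (c * (a * (P * (r + 1) ^ (j + 1)))) := by ring
  have h6 : (r + 1 + j) * (x + Lc) ≤ (r + 1 + j) * (c * (a * (P * r ^ (j + 1)))) :=
    Nat.mul_le_mul_left _ h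
  have h7 : (r + 1) * x + (j * (x + (r + 2) * a) + Lc) + r * Lc ≤ (r + 1 + j) * (x + Lc) +
      j * ((r + 2) * a) := by
    have h8 : (r + 1 + j) * (x + Lc) + j * ((r + 2) * a) =
        (r + 1) * x + (j * (x + (r + 2) * a) + Lc) + r * Lc + j * Lc := by ring
    omega
  have h9 : r * (T + Lc) = r * T + r * Lc := by ring
  omega

lemma phase_range {a k j r0 r1 P c Lc : ℕ} {l : ℕ → ℕ} (hr : 1 ≤ r0) (h01 : r0 ≤ r1)
    (hj : j ≤ k) (hP : 1 ≤ P) (hc : 3 ≤ c) (hL : Lc = ∑ i ∈ Ico (j + 1) (k + 1), l i)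
    (h : Xs a k l r0 + Lc ≤ c * (a * (P * r0 ^ (j + 1)))) :
    Xs a k l r1 + Lc ≤ c * (a * (P * r1 ^ (j + 1))) := by
  induction r1, h01 using Nat.le_induction with
  | base => exact h
  | succ r hr' ih => exact phase_step (by omega) hj hP hc hL ih

lemma prod_pos' {s : ℕ → ℕ} (hs : ∀ j, 1 ≤ s j) (j k : ℕ) : 1 ≤ ∏ i ∈ Ico (j + 1) (k + 1), s i :=
  Nat.succ_le_of_lt (Finset.prod_pos fun i _ => Nat.lt_of_lt_of_le Nat.zero_lt_one (hs i))

/-- all phases -/
theorem phases {a k : ℕ} {l s : ℕ → ℕ} (hs : ∀ j, 1 ≤ s j) (hsa : ∀ j, 1 ≤ j → s (j + 1) ≤ s j)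
    (hsk : s (k + 1) = 1)
    (hl : ∀ j, 1 ≤ j → j ≤ k → l j ≤ a * ((∏ i ∈ Ico (j + 1) (k + 1), s i) * s j ^ (j + 1)))
    (d : ℕ) (hd : d ≤ k) :
    Xs a k l (s (k - d + 1)) + ∑ i ∈ Ico (k - d + 1) (k + 1), l i ≤
      (3 + d) * (a * ((∏ i ∈ Ico (k - d + 1) (k + 1), s i) * s (k - d + 1) ^ (k - d + 1))) := by
  induction d with
  | zero =>
    rw [Nat.sub_zero, hsk, Ico_self, Finset.sum_empty, Finset.prod_empty, one_pow, add_zero,
      add_zero, one_mul, mul_one]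
    rw [Xs]
    omega
  | succ d ih =>
    have ih' := ih (by omega)
    obtain ⟨j, hj⟩ : ∃ j, k - d = j + 1 := ⟨k - d - 1, by omega⟩
    have hj2 : k - (d + 1) = j := by omega
    rw [hj] at ih'
    rw [hj2]
    have h1 := phase_range (hs _) (hsa (j + 1) (by omega)) (by omega : j + 1 ≤ k)
      (prod_pos' hs (j + 1) k) (by omega : 3 ≤ 3 + d) rfl ih'
    have h2 := hl (j + 1) (by omega) (by omega)
    rw [Finset.sum_eq_sum_Ico_succ_bot (by omega : j + 1 < k + 1),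
      Finset.prod_eq_prod_Ico_succ_bot (by omega : j + 1 < k + 1)]
    set P := ∏ i ∈ Ico (j + 1 + 1) (k + 1), s i with hPdef
    set Lc := ∑ i ∈ Ico (j + 1 + 1) (k + 1), l i with hLdef
    calc Xs a k l (s (j + 1)) + (l (j + 1) + Lc) = (Xs a k l (s (j + 1)) + Lc) + l (j + 1) := by
          ring
      _ ≤ (3 + d) * (a * (P * s (j + 1) ^ (j + 1 + 1))) + a * (P * s (j + 1) ^ (j + 1 + 1)) :=
          Nat.add_le_add h1 h2
      _ = (3 + (d + 1)) * (a * (s (j + 1) * P * s (j + 1) ^ (j + 1))) := by ring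

lemma sum_heavy {n k : ℕ} (g : ℕ → ℕ) :
    ∑ i ∈ univ \ (univ.filter fun i : Fin n => k ≤ (i : ℕ)), g i ≤ ∑ i ∈ range k, g i := by
  have h1 : (univ : Finset (Fin n)) \ (univ.filter fun i : Fin n => k ≤ (i : ℕ)) =
      univ.filter fun i : Fin n => (i : ℕ) < k := by
    ext i
    simp only [mem_sdiff, mem_univ, true_and, mem_filter, not_le]
  rw [h1, Finset.sum_filter]
  have h2 : ∑ i : Fin n, (if (i : ℕ) < k then g i else 0) =
      ∑ i ∈ range n, (if i < k then g i else 0) := by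
    rw [Finset.sum_range]
  rw [h2, ← Finset.sum_filter]
  apply Finset.sum_le_sum_of_subset
  intro i hi
  rw [mem_filter] at hi
  exact mem_range.2 hi.2

lemma sum_shift (k : ℕ) (g : ℕ → ℕ) : ∑ i ∈ range k, g i = ∑ i ∈ Ico 1 (k + 1), g (i - 1) := by
  rw [Finset.sum_Ico_eq_sum_range]
  apply Finset.sum_congr (by simp)
  intro i _
  congr 1
  omega

/-- **`k` heavy rows**, integer form. -/
theorem w_nat {a b n : ℕ} (k : ℕ) (lam : Fin (n + 2) → ℕ) (ha : 1 ≤ a) (hlam : Antitone lam)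
    (hsum : ∑ i, lam i = a * b) {s : ℕ → ℕ} (hs : ∀ j, 1 ≤ s j)
    (hsa : ∀ j, 1 ≤ j → s (j + 1) ≤ s j) (hsk : s (k + 1) = 1)
    (hl : ∀ j, 1 ≤ j → j ≤ k →
      ex lam (j + 1) ≤ a * ((∏ i ∈ Ico (j + 1) (k + 1), s i) * s j ^ (j + 1)))
    (hb : cells (k + 2) lam + (k + 3) * (a * ∏ i ∈ Ico 1 (k + 1), s i) ≤ b) :
    plethMult a b (n + 2) lam ≤ plethMult b a (n + 2) lam := by
  classical
  set l : ℕ → ℕ := fun j => ex lam (j + 1) with hldef
  set L : Finset (Fin n) := univ.filter fun i => k ≤ (i : ℕ) with hL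
  have hex : ∀ i : Fin n, lam i.succ.succ = ex lam ((i : ℕ) + 2) := by
    intro i
    rw [ex_of_lt lam (show (i : ℕ) + 2 < n + 2 by omega)]
    rfl
  have hHS : ∀ Y, ∑ i ∈ univ \ L, min (lam i.succ.succ) Y ≤ HS k l Y := by
    intro Y
    have h1 : ∑ i ∈ univ \ L, min (lam i.succ.succ) Y =
        ∑ i ∈ univ \ L, (fun j => min (ex lam (j + 2)) Y) (i : ℕ) := by
      apply Finset.sum_congr rfl
      intro i _
      rw [hex]
    rw [h1]
    refine (sum_heavy (n := n) (k := k) fun j => min (ex lam (j + 2)) Y).trans (le_of_eq ?_)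
    rw [sum_shift]
    unfold HS
    apply Finset.sum_congr rfl
    intro i hi
    rw [mem_Ico] at hi
    rw [hldef]
    dsimp only
    rw [show i - 1 + 2 = i + 1 by omega]
  have hheavy : ∑ i ∈ univ \ L, lam i.succ.succ ≤ ∑ i ∈ Ico 1 (k + 1), l i := by
    have h1 : ∑ i ∈ univ \ L, lam i.succ.succ =
        ∑ i ∈ univ \ L, (fun j => ex lam (j + 2)) (i : ℕ) := by
      apply Finset.sum_congr rfl
      intro i _
      rw [hex]
    rw [h1]
    refine (sum_heavy (n := n) (k := k) fun j => ex lam (j + 2)).trans (le_of_eq ?_)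
    rw [sum_shift]
    apply Finset.sum_congr rfl
    intro i hi
    rw [mem_Ico] at hi
    rw [hldef]
    dsimp only
    rw [show i - 1 + 2 = i + 1 by omega]
  have hlight : ∑ i ∈ L, lam i.succ.succ = cells (k + 2) lam := by
    unfold cells
    rw [hL, Finset.sum_filter, Fin.sum_univ_succ, Fin.sum_univ_succ]
    have h1 : ¬ (k + 2 ≤ ((0 : Fin (n + 2)) : ℕ)) := by
      rw [Fin.val_zero]
      omega
    have h2 : ¬ (k + 2 ≤ ((Fin.succ (0 : Fin (n + 1))) : ℕ)) := by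
      rw [Fin.val_succ, Fin.val_zero]
      omega
    rw [if_neg h1, if_neg h2, zero_add, zero_add]
    apply Finset.sum_congr rfl
    intro i _
    have h3 : (k + 2 ≤ ((i.succ.succ : Fin (n + 2)) : ℕ)) ↔ k ≤ (i : ℕ) := by
      rw [Fin.val_succ, Fin.val_succ]
      omega
    simp only [h3]
  have hfin := phases (a := a) (l := l) hs hsa hsk hl k le_rfl
  rw [Nat.sub_self, zero_add, pow_one] at hfin
  apply TW.w_plus a b n lam L (Xs a k l) (s 1) ha hlam hsum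
  · rw [Xs]
  · intro r hr
    refine le_trans ?_ (xs_rec a k l hr)
    have := hHS (Xs a k l r + (r + 2) * a)
    omega
  · exact hs 1
  · rw [hlight]
    have h1 : s 1 * (cells (k + 2) lam + (k + 3) * (a * ∏ i ∈ Ico 1 (k + 1), s i)) ≤ s 1 * b :=
      Nat.mul_le_mul_left _ hb
    have h2 : s 1 * (cells (k + 2) lam + (k + 3) * (a * ∏ i ∈ Ico 1 (k + 1), s i)) =
        s 1 * cells (k + 2) lam + (3 + k) * (a * ((∏ i ∈ Ico 1 (k + 1), s i) * s 1)) := by ring
    omega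

end Vale.Agent.P181.H310.WG
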