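import Vale.Agent.P181.H310.WGen

set_option autoImplicit false

/-!
# P181: the weighted tail theorem with any number of heavy rows, real form
-/

open Finset

namespace Vale.Agent.P181.H310.WG

open Vale.Agent.P181.T4 (ex ex_of_lt ex_anti)
open Vale.Agent.P181.T7 (below cells below_cells below_succ all_n_cells)
open Vale.Agent.P181.H280 (plethMult)

/-- the weights -/
noncomputable def S (y : ℕ → ℝ) (k j : ℕ) : ℝ := ∑ i ∈ Ico (j + 1) (k + 1), y i / (i * (i + 1))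

/-- the logarithms of the break points -/
noncomputable def u (y : ℕ → ℝ) (k j : ℕ) : ℝ := y j / (j + 1) - S y k j

lemma S_succ (y : ℕ → ℝ) {k j : ℕ} (hj : j < k) :
    S y k j = y (j + 1) / ((j + 1) * (j + 2)) + S y k (j + 1) := by
  unfold S
  rw [Finset.sum_eq_sum_Ico_succ_bot (by omega : j + 1 < k + 1)]
  push_cast
  congr 2
  ring

lemma S_top (y : ℕ → ℝ) {k j : ℕ} (hj : k ≤ j) : S y k j = 0 := by
  unfold S
  rw [Finset.Ico_eq_empty (by omega), Finset.sum_empty]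

lemma u_anti {y : ℕ → ℝ} {k : ℕ} (hy : ∀ j, 1 ≤ j → y (j + 1) ≤ y j) (hyk : ∀ j, k < j → y j = 0)
    (hy0 : ∀ j, 0 ≤ y j) (j : ℕ) (hj : 1 ≤ j) : u y k (j + 1) ≤ u y k j := by
  unfold u
  rcases Nat.lt_or_ge j k with h | h
  · rw [S_succ y h]
    have h1 : (0 : ℝ) < (j : ℝ) + 1 := by positivity
    have h2 : (0 : ℝ) < (j : ℝ) + 2 := by positivity
    have h3 : y (j + 1) / (((j + 1 : ℕ) : ℝ) + 1) + y (j + 1) / ((j + 1) * (j + 2)) =
        y (j + 1) / (j + 1) := by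
      push_cast
      field_simp
      ring
    have h4 : y (j + 1) / ((j : ℝ) + 1) ≤ y j / (j + 1) :=
      div_le_div_of_nonneg_right (hy j hj) h1.le
    linarith
  · rw [S_top y h, S_top y (by omega : k ≤ j + 1), hyk (j + 1) (by omega)]
    have := hy0 j
    have h1 : 0 ≤ y j / ((j : ℝ) + 1) := by positivity
    simp only [zero_div, sub_zero]
    exact h1

lemma u_top {y : ℕ → ℝ} {k : ℕ} (hyk : ∀ j, k < j → y j = 0) (j : ℕ) (hj : k < j) :
    u y k j = 0 := by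
  unfold u
  rw [S_top y hj.le, hyk j hj]
  simp

lemma u_nonneg {y : ℕ → ℝ} {k : ℕ} (hy : ∀ j, 1 ≤ j → y (j + 1) ≤ y j)
    (hyk : ∀ j, k < j → y j = 0) (hy0 : ∀ j, 0 ≤ y j) (j : ℕ) (hj : 1 ≤ j) : 0 ≤ u y k j := by
  have h1 : ∀ d : ℕ, u y k (j + d) ≤ u y k j := by
    intro d
    induction d with
    | zero => exact le_rfl
    | succ d ih =>
      have := u_anti hy hyk hy0 (j + d) (by omega)
      exact this.trans ih
  have h2 := h1 (k + 1)
  rw [u_top hyk (j + (k + 1)) (by omega)] at h2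
  exact h2

/-- the sum of the logarithms above `j` -/
lemma sum_u {y : ℕ → ℝ} {k : ℕ} (d : ℕ) (hd : d ≤ k) :
    ∑ i ∈ Ico (k - d + 1) (k + 1), u y k i = ((k - d : ℕ) + 1) * S y k (k - d) := by
  induction d with
  | zero =>
    rw [Nat.sub_zero, Ico_self, Finset.sum_empty, S_top y le_rfl, mul_zero]
  | succ d ih =>
    have ih' := ih (by omega)
    obtain ⟨j, hj⟩ : ∃ j, k - d = j + 1 := ⟨k - d - 1, by omega⟩
    have hj2 : k - (d + 1) = j := by omega
    rw [hj] at ih'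
    rw [hj2, Finset.sum_eq_sum_Ico_succ_bot (by omega : j + 1 < k + 1), ih',
      S_succ y (by omega : j < k)]
    unfold u
    push_cast
    have h1 : (0 : ℝ) < (j : ℝ) + 1 := by positivity
    have h2 : (0 : ℝ) < (j : ℝ) + 2 := by positivity
    field_simp
    ring

lemma sum_u' {y : ℕ → ℝ} {k j : ℕ} (hj : j ≤ k) :
    ∑ i ∈ Ico (j + 1) (k + 1), u y k i = ((j : ℕ) + 1) * S y k j := by
  have := sum_u (y := y) (k - j) (Nat.sub_le k j)
  rwa [show k - (k - j) = j by omega] at this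

/-- the break points -/
theorem exists_s (k : ℕ) (x : ℕ → ℝ) (hx1 : ∀ i, 1 ≤ x i) (hxa : ∀ i, 1 ≤ i → x (i + 1) ≤ x i) :
    ∃ s : ℕ → ℕ, (∀ j, 1 ≤ s j) ∧ (∀ j, 1 ≤ j → s (j + 1) ≤ s j) ∧ s (k + 1) = 1 ∧
      (∀ j, 1 ≤ j → j ≤ k → x j ≤ (∏ i ∈ Ico (j + 1) (k + 1), (s i : ℝ)) * (s j : ℝ) ^ (j + 1)) ∧
      ∏ i ∈ Ico 1 (k + 1), (s i : ℝ) ≤
        2 ^ k * ∏ i ∈ Ico 1 (k + 1), x i ^ (1 / ((i : ℝ) * (i + 1))) := by
  obtain ⟨y, hyd⟩ : ∃ y : ℕ → ℝ, y = fun i => if i ≤ k then Real.log (x i) else 0 := ⟨_, rfl⟩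
  have hlog0 : ∀ i, 0 ≤ Real.log (x i) := fun i => Real.log_nonneg (hx1 i)
  have hy0 : ∀ j, 0 ≤ y j := by
    intro j
    rw [hyd]
    dsimp only
    split_ifs
    · exact hlog0 j
    · exact le_rfl
  have hyk : ∀ j, k < j → y j = 0 := by
    intro j hj
    rw [hyd]
    dsimp only
    rw [if_neg (by omega)]
  have hyx : ∀ j, j ≤ k → y j = Real.log (x j) := by
    intro j hj
    rw [hyd]
    dsimp only
    rw [if_pos hj]
  have hy : ∀ j, 1 ≤ j → y (j + 1) ≤ y j := by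
    intro j hj
    rcases Nat.lt_or_ge j k with h | h
    · rw [hyx _ h, hyx _ h.le]
      exact Real.log_le_log (by linarith [hx1 (j + 1)]) (hxa j hj)
    · rw [hyk (j + 1) (by omega)]
      exact hy0 j
  refine ⟨fun j => ⌈Real.exp (u y k j)⌉₊, ?_, ?_, ?_, ?_, ?_⟩
  · intro j
    exact Nat.succ_le_of_lt (Nat.ceil_pos.2 (Real.exp_pos _))
  · intro j hj
    exact Nat.ceil_mono (Real.exp_le_exp.2 (u_anti hy hyk hy0 j hj))
  · dsimp only
    rw [u_top hyk (k + 1) (Nat.lt_succ_self k), Real.exp_zero, Nat.ceil_one]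
  · intro j hj hjk
    have hxj : 0 < x j := by linarith [hx1 j]
    have h1 : x j = (∏ i ∈ Ico (j + 1) (k + 1), Real.exp (u y k i)) *
        Real.exp (u y k j) ^ (j + 1) := by
      rw [← Real.exp_sum, ← Real.exp_nat_mul, ← Real.exp_add, sum_u' hjk]
      have h2 : ((j : ℕ) + 1 : ℝ) * S y k j + ((j + 1 : ℕ) : ℝ) * u y k j = y j := by
        unfold u
        push_cast
        have h3 : (0 : ℝ) < (j : ℝ) + 1 := by positivity
        field_simp
        ring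
      rw [h2, hyx j hjk, Real.exp_log hxj]
    rw [h1]
    dsimp only
    have h4 : ∏ i ∈ Ico (j + 1) (k + 1), Real.exp (u y k i) ≤
        ∏ i ∈ Ico (j + 1) (k + 1), ((⌈Real.exp (u y k i)⌉₊ : ℕ) : ℝ) :=
      Finset.prod_le_prod (fun i _ => (Real.exp_pos _).le) fun i _ => Nat.le_ceil _
    have h5 : Real.exp (u y k j) ^ (j + 1) ≤ ((⌈Real.exp (u y k j)⌉₊ : ℕ) : ℝ) ^ (j + 1) :=
      pow_le_pow_left₀ (Real.exp_pos _).le (Nat.le_ceil _) _
    exact mul_le_mul h4 h5 (by positivity) (Finset.prod_nonneg fun i _ => Nat.cast_nonneg _)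
  · dsimp only
    have h1 : ∏ i ∈ Ico 1 (k + 1), ((⌈Real.exp (u y k i)⌉₊ : ℕ) : ℝ) ≤
        ∏ i ∈ Ico 1 (k + 1), 2 * Real.exp (u y k i) := by
      apply Finset.prod_le_prod (fun i _ => Nat.cast_nonneg _)
      intro i hi
      rw [mem_Ico] at hi
      exact ceil_two (Real.one_le_exp (u_nonneg hy hyk hy0 i hi.1))
    refine h1.trans (le_of_eq ?_)
    rw [Finset.prod_mul_distrib, Finset.prod_const, Nat.card_Ico, Nat.add_sub_cancel]
    congr 1
    have h2 := sum_u' (y := y) (Nat.zero_le k)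
    rw [zero_add] at h2
    rw [← Real.exp_sum, h2]
    have h3 : ∀ i ∈ Ico 1 (k + 1), x i ^ (1 / ((i : ℝ) * (i + 1))) =
        Real.exp (y i / (i * (i + 1))) := by
      intro i hi
      rw [mem_Ico] at hi
      rw [hyx i (by omega), Real.rpow_def_of_pos (by linarith [hx1 i])]
      congr 1
      ring
    rw [Finset.prod_congr rfl h3, ← Real.exp_sum]
    congr 1
    unfold S
    rw [zero_add]
    push_cast
    ring

/-- **`k` heavy rows**, for `a` rows. -/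
theorem w_rows {a b : ℕ} (ha : 2 ≤ a) (k : ℕ) (lam : Fin a → ℕ) (hlam : Antitone lam)
    (hsum : ∑ i, lam i = a * b)
    (hb : (cells (k + 2) lam : ℝ) + (k + 3) * 2 ^ k * a *
      ∏ i ∈ Ico 1 (k + 1), (max 1 ((ex lam (i + 1) : ℝ) / a)) ^ (1 / ((i : ℝ) * (i + 1))) ≤ b) :
    plethMult a b a lam ≤ plethMult b a a lam := by
  have ha0 : (0 : ℝ) < a := by exact_mod_cast (by omega : 0 < a)
  obtain ⟨s, hs, hsa, hsk, hl, hP⟩ := exists_s k (fun i => max 1 ((ex lam (i + 1) : ℝ) / a))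
    (fun i => le_max_left _ _) (by
      intro i _
      apply max_le_max le_rfl
      apply div_le_div_of_nonneg_right _ ha0.le
      exact_mod_cast ex_anti hlam (by omega : i + 1 ≤ i + 1 + 1))
  obtain ⟨n, rfl⟩ : ∃ n, a = n + 2 := ⟨a - 2, by omega⟩
  refine w_nat k lam (by omega) hlam hsum hs hsa hsk ?_ ?_
  · intro j hj hjk
    have h1 := hl j hj hjk
    have h2 : (ex lam (j + 1) : ℝ) / ((n + 2 : ℕ) : ℝ) ≤
        (∏ i ∈ Ico (j + 1) (k + 1), (s i : ℝ)) * (s j : ℝ) ^ (j + 1) :=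
      (le_max_right _ _).trans h1
    rw [div_le_iff₀ ha0] at h2
    have h3 : ((ex lam (j + 1) : ℕ) : ℝ) ≤
        (((n + 2) * ((∏ i ∈ Ico (j + 1) (k + 1), s i) * s j ^ (j + 1)) : ℕ) : ℝ) := by
      push_cast at h2 ⊢
      linarith
    exact_mod_cast h3
  · have h1 : (cells (k + 2) lam : ℝ) + (k + 3) * (((n + 2 : ℕ) : ℝ) *
        ∏ i ∈ Ico 1 (k + 1), (s i : ℝ)) ≤ b := by
      refine le_trans ?_ hb
      have h2 : ((k : ℝ) + 3) * (((n + 2 : ℕ) : ℝ) * ∏ i ∈ Ico 1 (k + 1), (s i : ℝ)) ≤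
          ((k : ℝ) + 3) * (((n + 2 : ℕ) : ℝ) * (2 ^ k * ∏ i ∈ Ico 1 (k + 1),
            (max 1 ((ex lam (i + 1) : ℝ) / ((n + 2 : ℕ) : ℝ))) ^ (1 / ((i : ℝ) * (i + 1))))) := by
        apply mul_le_mul_of_nonneg_left _ (by positivity)
        exact mul_le_mul_of_nonneg_left hP ha0.le
      have h3 : ((k : ℝ) + 3) * (((n + 2 : ℕ) : ℝ) * (2 ^ k * ∏ i ∈ Ico 1 (k + 1),
            (max 1 ((ex lam (i + 1) : ℝ) / ((n + 2 : ℕ) : ℝ))) ^ (1 / ((i : ℝ) * (i + 1))))) =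
          (k + 3) * 2 ^ k * ((n + 2 : ℕ) : ℝ) * ∏ i ∈ Ico 1 (k + 1),
            (max 1 ((ex lam (i + 1) : ℝ) / ((n + 2 : ℕ) : ℝ))) ^ (1 / ((i : ℝ) * (i + 1))) := by
        ring
      linarith
    have h4 : ((cells (k + 2) lam + (k + 3) * ((n + 2) * ∏ i ∈ Ico 1 (k + 1), s i) : ℕ) : ℝ) ≤
        ((b : ℕ) : ℝ) := by
      push_cast at h1 ⊢
      linarith
    exact_mod_cast h4

lemma ex_cells' {n : ℕ} (lam : Fin n → ℕ) (i : ℕ) : ex lam i = cells i lam - cells (i + 1) lam := by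
  have h : ex lam i = below i lam - below (i + 1) lam := by
    have := below_succ (R := i) lam
    omega
  rwa [below_cells, below_cells] at h

/-- **`k` heavy rows**, all `a`, all numbers of rows, explicit constants. -/
theorem w_all {a b n : ℕ} (k : ℕ) (lam : Fin n → ℕ)
    (hb : (cells (k + 2) lam : ℝ) + (k + 3) * 2 ^ k * a *
      ∏ i ∈ Ico 1 (k + 1), (max 1 ((ex lam (i + 1) : ℝ) / a)) ^ (1 / ((i : ℝ) * (i + 1))) ≤ b) :
    plethMult a b n lam ≤ plethMult b a n lam := by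
  rcases Nat.lt_or_ge a 2 with ha | ha
  · apply H463.big_stmt
    have h1 : a - 1 = 0 := by omega
    rw [h1]
    simp
  · refine all_n_cells H530.pad_stmt H530.zero_stmt (fun f => (f (k + 2) : ℝ) +
      (k + 3) * 2 ^ k * a * ∏ i ∈ Ico 1 (k + 1),
        (max 1 (((f (i + 1) - f (i + 2) : ℕ) : ℝ) / a)) ^ (1 / ((i : ℝ) * (i + 1))) ≤ b) ?_ n lam ?_
    · intro mu hmu hsum hQ
      apply w_rows ha k mu hmu hsum
      refine le_trans (le_of_eq ?_) hQ
      simp only [below_cells, ex_cells']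
    · refine le_trans (le_of_eq ?_) hb
      simp only [ex_cells']

end Vale.Agent.P181.H310.WG
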